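import Mathlib
import Crest.Agent.R174.GRDefs

-- ▼ part R174/G4Defs
section

/-!
# R174, block G4 (helper850): the map `Φ₁` to which `J` is homotopic.

`Phi1 S r X x = 1 + ∑ i, W (zp (E i x) (X i) - 1) Wᵀ`, where `W = S.W x i (r x i)` is the inclusion
of the faces of type `i` at the reference position `r x i` (a position of relator `i` with unknown
`x`, if there is one; otherwise `W = 0` whatever `r x i` is).
-/

set_option autoImplicit false
open scoped Matrix.Norms.L2Operator

noncomputable section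

namespace Crest.Agent.R174.GR

/-- integer power, with `Ring.inverse` -/
def zp {R : Type*} [MonoidWithZero R] (k : ℤ) (X : R) : R :=
  if 0 ≤ k then X ^ k.toNat else (Ring.inverse X) ^ (-k).toNat

theorem zp_unit {R : Type*} [MonoidWithZero R] (k : ℤ) (u : Rˣ) :
    zp k (u : R) = ((u ^ k : Rˣ) : R) := by
  unfold zp
  split_ifs with h
  · obtain ⟨n, rfl⟩ := Int.eq_ofNat_of_zero_le h
    simp
  · have h' : 0 ≤ -k := by omega
    obtain ⟨n, hn⟩ := Int.eq_ofNat_of_zero_le h'
    have hk : k = -(n : ℤ) := by omega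
    subst hk
    simp

variable {ι A Q : Type} [Fintype ι] [LinearOrder ι] [Fintype A] [DecidableEq A]
  [Fintype Q] [DecidableEq Q]

/-- inclusion of the faces of type `i` at the position `q` -/
def Sys.W (S : Sys ι A Q) (x i : ι) (q : Q) : Matrix (S.Po x) (S.Fa i) ℂ :=
  Matrix.of fun p a => if p.1 = (a.1, q) then 1 else 0

/-- the map `Φ₁` -/
def Sys.Phi1 (S : Sys ι A Q) (r : ι → ι → Q) (X : S.KA) : S.VA := fun x =>
  1 + ∑ i, S.W x i (r x i) * (zp (S.E i x) (X i) - 1) * (S.W x i (r x i)).transpose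

/-- the condition on the reference positions -/
def Sys.RefOK (S : Sys ι A Q) (q0 : ι → Q) (r : ι → ι → Q) : Prop :=
  (∀ x, r x x = q0 x) ∧
  ∀ x i, (∃ q, S.rel q = i ∧ S.var q = x) → S.rel (r x i) = i ∧ S.var (r x i) = x


/-- block G4a: `DD J = DD Φ₁` (helper661) -/
def G4a (S : Sys ι A Q) : Prop :=
  ∀ (q0 : ι → Q) (hq : ∀ x, S.rel (q0 x) = x ∧ S.var (q0 x) = x) (r : ι → ι → Q),
    S.RefOK q0 r → DD (S.refR q0 hq) S.Jm = DD (S.refR q0 hq) (S.Phi1 r)

/-- block G4b: evaluation (helper850) -/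
def G4b (S : Sys ι A Q) : Prop :=
  (∀ i x, x < i → S.E i x = 0) → (∀ i, S.E i i ≠ 0) →
  ∀ (q0 : ι → Q) (hq : ∀ x, S.rel (q0 x) = x ∧ S.var (q0 x) = x) (r : ι → ι → Q),
    S.RefOK q0 r → DD (S.refR q0 hq) (S.Phi1 r) ≠ 0


end Crest.Agent.R174.GR
end
end

-- ▼ part R174/G4Tri
section

/-!
# R174, block G4b (helper850), part 1: determinant of a block triangular endomorphism of a product.
-/

set_option autoImplicit false

noncomputable section

namespace Crest.Agent.R174.G4

open Matrix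

variable {ι : Type*} [Fintype ι] [LinearOrder ι] {V : ι → Type*}
  [∀ i, AddCommGroup (V i)] [∀ i, Module ℂ (V i)] [∀ i, FiniteDimensional ℂ (V i)]

/-- the diagonal block -/
def diagBlock (T : ((i : ι) → V i) →ₗ[ℂ] ((i : ι) → V i)) (x : ι) : V x →ₗ[ℂ] V x :=
  (LinearMap.proj x) ∘ₗ T ∘ₗ (LinearMap.single ℂ V x)

theorem det_of_triangular (T : ((i : ι) → V i) →ₗ[ℂ] ((i : ι) → V i))
    (hT : ∀ (x i : ι), x < i → ∀ v : V i, T (Pi.single i v) x = 0) :
    LinearMap.det T = ∏ x, LinearMap.det (diagBlock T x) := by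
  classical
  let b : (i : ι) → Module.Basis (Fin (Module.finrank ℂ (V i))) ℂ (V i) :=
    fun i => Module.finBasis ℂ (V i)
  let B := Pi.basis b
  have hentry : ∀ (p q : Σ i, Fin (Module.finrank ℂ (V i))),
      LinearMap.toMatrix B B T p q = (b p.1).repr (T (Pi.single q.1 (b q.1 q.2)) p.1) p.2 := by
    intro p q
    rw [LinearMap.toMatrix_apply]
    simp only [B, Pi.basis_repr]
    rw [Pi.basis_apply]
  rw [← LinearMap.det_toMatrix B T]
  let f : (Σ i, Fin (Module.finrank ℂ (V i))) → ιᵒᵈ := fun p => OrderDual.toDual p.1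
  have htri : (LinearMap.toMatrix B B T).BlockTriangular f := by
    intro p q hpq
    have hlt : p.1 < q.1 := hpq
    rw [hentry, hT p.1 q.1 hlt]
    simp
  rw [htri.det_fintype]
  have hk : ∀ x : ι, ((LinearMap.toMatrix B B T).toSquareBlock f (OrderDual.toDual x)).det =
      LinearMap.det (diagBlock T x) := by
    intro x
    rw [← LinearMap.det_toMatrix (b x)]
    let e : Fin (Module.finrank ℂ (V x)) ≃ {a // f a = OrderDual.toDual x} :=
      { toFun := fun a => ⟨⟨x, a⟩, rfl⟩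
        invFun := fun a => Fin.cast (by
          have h : a.1.1 = x := a.2
          rw [h]) a.1.2
        left_inv := fun a => by simp
        right_inv := fun a => by
          obtain ⟨⟨y, a⟩, ha⟩ := a
          have h : y = x := ha
          subst h
          simp }
    rw [← Matrix.det_submatrix_equiv_self e]
    congr 1
    ext a c
    simp only [Matrix.submatrix_apply, Matrix.toSquareBlock_def, Matrix.of_apply]
    rw [hentry, LinearMap.toMatrix_apply]
    rfl
  exact (Fintype.prod_equiv OrderDual.toDual (fun x => LinearMap.det (diagBlock T x))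
    (fun k => ((LinearMap.toMatrix B B T).toSquareBlock f k).det) (fun x => (hk x).symm)).symm

end Crest.Agent.R174.G4
end
end

-- ▼ part R174/G4Log
section

/-!
# R174, block G4b (helper850), part 2: logarithmic derivative of integer powers.
-/

set_option autoImplicit false

noncomputable section

namespace Crest.Agent.R174.G4

open Crest.Agent.R174.GR Finset

variable {R : Type*} [NormedRing R] [NormedAlgebra ℂ R] [HasSummableGeomSeries R]

/-- `∑_{j<n} u^j ξ u^{-j}` -/
def sumConj (n : ℕ) (u : Rˣ) (ξ : R) : R := ∑ j ∈ range n, ((u ^ j : Rˣ) : R) * ξ * ((u⁻¹ ^ j : Rˣ) : R)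

omit [HasSummableGeomSeries R] in
theorem hasFDerivAt_npow (n : ℕ) (u : Rˣ) :
    ∃ L : R →L[ℂ] R, HasFDerivAt (fun X : R => X ^ n) L (u : R) ∧
      ∀ ξ : R, L (ξ * u) = sumConj n u ξ * ((u ^ n : Rˣ) : R) := by
  induction n with
  | zero =>
    refine ⟨0, ?_, ?_⟩
    · simpa using hasFDerivAt_const (1 : R) (u : R)
    · intro ξ; simp [sumConj]
  | succ n ih =>
    obtain ⟨L, hL, hL'⟩ := ih
    have h := hL.mul' (hasFDerivAt_id (𝕜 := ℂ) (u : R))
    have h2 : (fun X : R => X ^ (n + 1)) = (fun X : R => X ^ n) * id := by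
      funext X
      simp [pow_succ]
    refine ⟨_, by rw [h2]; exact h, ?_⟩
    intro ξ
    simp only [sumConj, sum_range_succ] at hL' ⊢
    simp only [id_eq, add_apply, smul_apply,
      ContinuousLinearMap.coe_id', smul_eq_mul, MulOpposite.smul_eq_mul_unop]
    rw [show (L (ξ * ↑u)) = _ from hL' ξ]
    simp only [add_mul, pow_succ, Units.val_mul, Units.val_pow_eq_pow_val, mul_assoc]
    have : ((u⁻¹ : Rˣ) : R) ^ n * ((u : R) ^ n * (u : R)) = (u : R) := by
      rw [← mul_assoc, ← Units.val_pow_eq_pow_val, ← Units.val_pow_eq_pow_val, ← Units.val_mul]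
      simp
    rw [this]
    simp [add_comm]

/-- `T_k(u) ξ`, the logarithmic derivative of `u ↦ u ^ k` in the direction `ξ u`. -/
def logp (k : ℤ) (u : Rˣ) (ξ : R) : R :=
  if 0 ≤ k then sumConj k.toNat u ξ
  else - sumConj (-k).toNat u⁻¹ (((u⁻¹ : Rˣ) : R) * ξ * (u : R))

theorem hasFDerivAt_zp (k : ℤ) (u : Rˣ) :
    ∃ L : R →L[ℂ] R, HasFDerivAt (fun X : R => zp k X) L (u : R) ∧
      ∀ ξ : R, L (ξ * u) = logp k u ξ * ((u ^ k : Rˣ) : R) := by
  by_cases hk : 0 ≤ k
  · obtain ⟨L, hL, hL'⟩ := hasFDerivAt_npow (R := R) k.toNat u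
    refine ⟨L, ?_, ?_⟩
    · simpa [zp, hk] using hL
    · intro ξ
      rw [hL' ξ]
      obtain ⟨n, rfl⟩ := Int.eq_ofNat_of_zero_le hk
      simp [logp]
  · obtain ⟨L, hL, hL'⟩ := hasFDerivAt_npow (R := R) (-k).toNat u⁻¹
    have hinv := hasFDerivAt_ringInverse (𝕜 := ℂ) u
    have hL2 : HasFDerivAt (fun X : R => X ^ (-k).toNat) L (Ring.inverse (u : R)) := by
      rw [Ring.inverse_unit]; exact hL
    have hcomp := hL2.comp (u : R) hinv
    have hfun : (fun X : R => zp k X) = (fun X : R => X ^ (-k).toNat) ∘ Ring.inverse := by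
      funext X
      simp [zp, hk]
    rw [← hfun] at hcomp
    refine ⟨_, hcomp, ?_⟩
    · intro ξ
      have h' : 0 ≤ -k := by omega
      obtain ⟨n, hn⟩ := Int.eq_ofNat_of_zero_le h'
      have hkn : k = -(n : ℤ) := by omega
      have h1 : (-ContinuousLinearMap.mulLeftRight ℂ R ↑u⁻¹ ↑u⁻¹) (ξ * (u : R)) =
          (-(((u⁻¹ : Rˣ) : R) * ξ * (u : R))) * ((u⁻¹ : Rˣ) : R) := by
        simp [mul_assoc]
      rw [ContinuousLinearMap.comp_apply, h1, hL']
      simp only [logp, hk, if_false]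
      congr 1
      · simp [sumConj]
      · congr 1
        subst hkn
        simp

end Crest.Agent.R174.G4
end
end

-- ▼ part R174/GRDet
section

set_option autoImplicit false
open Matrix Finset

namespace Crest.Agent.R174.GRDet

variable {n : Type*} [Fintype n] [DecidableEq n]

/-- `X ↦ A * X * B` as a `ℂ`-linear endomorphism of matrices. -/
noncomputable def twoSided (A B : Matrix n n ℂ) : Module.End ℂ (Matrix n n ℂ) :=
  LinearMap.mulLeft ℂ A * LinearMap.mulRight ℂ B

@[simp] theorem twoSided_apply (A B X : Matrix n n ℂ) : twoSided A B X = A * X * B := by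
  simp [twoSided, Matrix.mul_assoc]

theorem twoSided_mul (A B A' B' : Matrix n n ℂ) :
    twoSided A B * twoSided A' B' = twoSided (A * A') (B' * B) := by
  ext1 X; simp [Matrix.mul_assoc]

theorem twoSided_one : twoSided (1 : Matrix n n ℂ) 1 = 1 := by
  ext1 X; simp

theorem toMatrix_stdBasis_apply (f : Module.End ℂ (Matrix n n ℂ)) (p q : n × n) :
    LinearMap.toMatrix (Matrix.stdBasis ℂ n n) (Matrix.stdBasis ℂ n n) f p q
      = f (Matrix.single q.1 q.2 1) p.1 p.2 := by
  rw [LinearMap.toMatrix_apply]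
  rcases q with ⟨k, l⟩
  rw [Matrix.stdBasis_eq_single]
  rfl

/-- `det (X ↦ A X) = det A ^ n`. -/
theorem det_mulLeft (A : Matrix n n ℂ) :
    LinearMap.det (LinearMap.mulLeft ℂ A) = A.det ^ Fintype.card n := by
  rw [← LinearMap.det_toMatrix (Matrix.stdBasis ℂ n n)]
  have : LinearMap.toMatrix (Matrix.stdBasis ℂ n n) (Matrix.stdBasis ℂ n n)
      (LinearMap.mulLeft ℂ A) = Matrix.kroneckerMap (· * ·) A (1 : Matrix n n ℂ) := by
    ext ⟨i, j⟩ ⟨k, l⟩
    rw [toMatrix_stdBasis_apply]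
    by_cases h : j = l
    · subst h; simp
    · simp [h]
  rw [this, Matrix.det_kronecker]
  simp

theorem det_mulRight (A : Matrix n n ℂ) :
    LinearMap.det (LinearMap.mulRight ℂ A) = A.det ^ Fintype.card n := by
  rw [← LinearMap.det_toMatrix (Matrix.stdBasis ℂ n n)]
  have : LinearMap.toMatrix (Matrix.stdBasis ℂ n n) (Matrix.stdBasis ℂ n n)
      (LinearMap.mulRight ℂ A) = Matrix.kroneckerMap (· * ·) (1 : Matrix n n ℂ) Aᵀ := by
    ext ⟨i, j⟩ ⟨k, l⟩
    rw [toMatrix_stdBasis_apply]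
    by_cases h : i = k
    · subst h; simp
    · simp [h]
  rw [this, Matrix.det_kronecker]
  simp

theorem det_twoSided (A B : Matrix n n ℂ) :
    LinearMap.det (twoSided A B) = (A.det * B.det) ^ Fintype.card n := by
  rw [twoSided, map_mul, det_mulLeft, det_mulRight, mul_pow]

/-- `X ↦ σ X σᴴ`. -/
noncomputable def ad (σ : Matrix n n ℂ) : Module.End ℂ (Matrix n n ℂ) := twoSided σ σᴴ

@[simp] theorem ad_apply (σ X : Matrix n n ℂ) : ad σ X = σ * X * σᴴ := by simp [ad]

theorem ad_pow (σ : Matrix n n ℂ) (j : ℕ) : ad σ ^ j = twoSided (σ ^ j) (σᴴ ^ j) := by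
  induction j with
  | zero => simp [twoSided_one]
  | succ j ih => rw [pow_succ, ih, ad, twoSided_mul, pow_succ, pow_succ' σᴴ]

/-- `X ↦ ∑_{j<k} σ^j X (σᴴ)^j`. -/
noncomputable def adSum (k : ℕ) (σ : Matrix n n ℂ) : Module.End ℂ (Matrix n n ℂ) :=
  ∑ j ∈ range k, ad σ ^ j

theorem adSum_apply (k : ℕ) (σ X : Matrix n n ℂ) :
    adSum k σ X = ∑ j ∈ range k, σ ^ j * X * σᴴ ^ j := by
  simp [adSum, ad_pow]

/-- The Frobenius square norm, as a real number. -/
noncomputable def frob (X : Matrix n n ℂ) : ℝ := ∑ i, ∑ j, ‖X i j‖ ^ 2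

omit [DecidableEq n] in
theorem frob_eq_trace (X : Matrix n n ℂ) : (frob X : ℂ) = (Xᴴ * X).trace := by
  simp only [frob, Matrix.trace, Matrix.diag, Matrix.mul_apply, Matrix.conjTranspose_apply]
  push_cast
  rw [Finset.sum_comm]
  refine Finset.sum_congr rfl fun i _ => Finset.sum_congr rfl fun j _ => ?_
  have h : star (X j i) * X j i = ((‖X j i‖ ^ 2 : ℝ) : ℂ) := by
    rw [← Complex.normSq_eq_norm_sq, Complex.normSq_eq_conj_mul_self]; rfl
  rw [h]; push_cast; rfl

omit [DecidableEq n] in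
theorem frob_eq_zero {X : Matrix n n ℂ} (h : frob X = 0) : X = 0 := by
  ext i j
  unfold frob at h
  rw [Finset.sum_eq_zero_iff_of_nonneg (fun i _ => Finset.sum_nonneg fun j _ => by positivity)] at h
  have h1 := h i (Finset.mem_univ _)
  rw [Finset.sum_eq_zero_iff_of_nonneg (fun j _ => by positivity)] at h1
  have h2 := h1 j (Finset.mem_univ _)
  simpa using h2

omit [DecidableEq n] in
theorem frob_smul (r : ℝ) (X : Matrix n n ℂ) : frob ((r : ℂ) • X) = r ^ 2 * frob X := by
  simp [frob, mul_pow, Finset.mul_sum]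

theorem frob_conj {σ : Matrix n n ℂ} (hσ : σ ∈ Matrix.unitaryGroup n ℂ) (X : Matrix n n ℂ) :
    frob (σ * X * σᴴ) = frob X := by
  have h1 : σᴴ * σ = 1 := Matrix.mem_unitaryGroup_iff'.1 hσ
  have : ((frob (σ * X * σᴴ) : ℝ) : ℂ) = (frob X : ℝ) := by
    rw [frob_eq_trace, frob_eq_trace]
    rw [Matrix.conjTranspose_mul, Matrix.conjTranspose_mul, Matrix.conjTranspose_conjTranspose]
    have : σ * (Xᴴ * σᴴ) * (σ * X * σᴴ) = σ * (Xᴴ * X * σᴴ) := by
      calc σ * (Xᴴ * σᴴ) * (σ * X * σᴴ) = σ * (Xᴴ * (σᴴ * σ) * (X * σᴴ)) := by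
            simp only [Matrix.mul_assoc]
        _ = σ * (Xᴴ * X * σᴴ) := by rw [h1, Matrix.mul_one, Matrix.mul_assoc]
    rw [this, Matrix.trace_mul_comm, Matrix.mul_assoc, h1, Matrix.mul_one]
  exact_mod_cast this

/-- The damped sum `X ↦ ∑_{j<k} r^j σ^j X (σᴴ)^j`. -/
noncomputable def damped (k : ℕ) (σ : Matrix n n ℂ) (r : ℝ) : Module.End ℂ (Matrix n n ℂ) :=
  ∑ j ∈ range k, ((r : ℂ) • ad σ) ^ j

theorem damped_one (k : ℕ) (σ : Matrix n n ℂ) : damped k σ 1 = adSum k σ := by
  simp [damped, adSum]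

theorem damped_zero {k : ℕ} (hk : 0 < k) (σ : Matrix n n ℂ) : damped k σ 0 = 1 := by
  obtain ⟨k, rfl⟩ : ∃ m, k = m + 1 := ⟨k - 1, by omega⟩
  simp [damped, Finset.sum_range_succ']

theorem pow_apply_frob {σ : Matrix n n ℂ} (hσ : σ ∈ Matrix.unitaryGroup n ℂ) (r : ℝ) (k : ℕ)
    (X : Matrix n n ℂ) : frob ((((r : ℂ) • ad σ) ^ k) X) = (r ^ k) ^ 2 * frob X := by
  induction k with
  | zero => simp
  | succ k ih =>
    rw [pow_succ', Module.End.mul_apply, LinearMap.smul_apply, frob_smul, ad_apply, frob_conj hσ, ih]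
    ring

theorem damped_det_ne_zero {k : ℕ} (hk : 0 < k) {σ : Matrix n n ℂ}
    (hσ : σ ∈ Matrix.unitaryGroup n ℂ) {r : ℝ} (hr0 : 0 ≤ r) (hr : r < 1) :
    LinearMap.det (damped k σ r) ≠ 0 := by
  have hinj : Function.Injective
      (((r : ℂ) • ad σ) ^ k - 1 : Module.End ℂ (Matrix n n ℂ)) := by
    rw [injective_iff_map_eq_zero]
    intro X hX
    have h1 : (((r : ℂ) • ad σ) ^ k) X = X := by
      simpa [sub_eq_zero] using hX
    have h2 := pow_apply_frob hσ r k X
    rw [h1] at h2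
    have h3 : (r ^ k) ^ 2 < 1 := by
      rw [← pow_mul]
      exact pow_lt_one₀ hr0 hr (by omega)
    have h4 : frob X = 0 := by
      have : (1 - (r ^ k) ^ 2) * frob X = 0 := by linarith
      rcases mul_eq_zero.1 this with h | h
      · linarith
      · exact h
    exact frob_eq_zero h4
  have hdet : LinearMap.det (((r : ℂ) • ad σ) ^ k - 1 : Module.End ℂ (Matrix n n ℂ)) ≠ 0 := by
    intro h0
    exact (LinearMap.bot_lt_ker_of_det_eq_zero h0).ne' (LinearMap.ker_eq_bot.2 hinj)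
  rw [← geom_sum_mul, map_mul] at hdet
  exact left_ne_zero_of_mul hdet

/-- `det` of an endomorphism commuting with `X ↦ Xᴴ` is real. -/
theorem det_conj_of_commute {f : Module.End ℂ (Matrix n n ℂ)}
    (hf : ∀ X, f Xᴴ = (f X)ᴴ) : (starRingEnd ℂ) (LinearMap.det f) = LinearMap.det f := by
  rw [← LinearMap.det_toMatrix (Matrix.stdBasis ℂ n n)]
  rw [RingHom.map_det]
  have : (starRingEnd ℂ).mapMatrix
      (LinearMap.toMatrix (Matrix.stdBasis ℂ n n) (Matrix.stdBasis ℂ n n) f)
      = (LinearMap.toMatrix (Matrix.stdBasis ℂ n n) (Matrix.stdBasis ℂ n n) f).submatrix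
        (Equiv.prodComm n n) (Equiv.prodComm n n) := by
    ext ⟨i, j⟩ ⟨k, l⟩
    rw [RingHom.mapMatrix_apply, Matrix.map_apply, Matrix.submatrix_apply,
      toMatrix_stdBasis_apply, toMatrix_stdBasis_apply]
    simp only [Equiv.prodComm_apply, Prod.swap]
    have : (Matrix.single l k (1 : ℂ)) = (Matrix.single k l (1 : ℂ))ᴴ := by
      rw [Matrix.conjTranspose_single]; simp
    rw [this, hf]
    simp [Matrix.conjTranspose_apply]
  rw [this, Matrix.det_submatrix_equiv_self]

theorem damped_conjTranspose (k : ℕ) (σ : Matrix n n ℂ) (r : ℝ) (X : Matrix n n ℂ) :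
    damped k σ r Xᴴ = (damped k σ r X)ᴴ := by
  have h1 : ∀ (j : ℕ) (X : Matrix n n ℂ),
      (((r : ℂ) • ad σ) ^ j) Xᴴ = ((((r : ℂ) • ad σ) ^ j) X)ᴴ := by
    intro j
    induction j with
    | zero => intro X; simp
    | succ j ih =>
      intro X
      rw [pow_succ, Module.End.mul_apply, Module.End.mul_apply, ← ih]
      congr 1
      simp [Matrix.mul_assoc]
  simp only [damped, LinearMap.sum_apply, Matrix.conjTranspose_sum]
  exact Finset.sum_congr rfl fun j _ => h1 j X

theorem continuous_damped_det (k : ℕ) :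
    Continuous fun p : Matrix n n ℂ × ℝ => LinearMap.det (damped k p.1 p.2) := by
  have : (fun p : Matrix n n ℂ × ℝ => LinearMap.det (damped k p.1 p.2))
    = fun p : Matrix n n ℂ × ℝ => (LinearMap.toMatrix (Matrix.stdBasis ℂ n n)
      (Matrix.stdBasis ℂ n n) (damped k p.1 p.2)).det := by
    funext p
    rw [LinearMap.det_toMatrix]
  rw [this]
  refine Continuous.matrix_det ?_
  refine continuous_matrix fun i j => ?_
  simp only [toMatrix_stdBasis_apply]
  simp only [damped, smul_pow, ad_pow, LinearMap.sum_apply, LinearMap.smul_apply, twoSided_apply]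
  refine Continuous.matrix_elem ?_ _ _
  fun_prop

theorem damped_det_re_pos {k : ℕ} (hk : 0 < k) {σ : Matrix n n ℂ}
    (hσ : σ ∈ Matrix.unitaryGroup n ℂ) {r : ℝ} (hr0 : 0 ≤ r) (hr : r < 1) :
    0 < (LinearMap.det (damped k σ r)).re := by
  have him : ∀ r : ℝ, (LinearMap.det (damped k σ r)).im = 0 := fun r =>
    Complex.conj_eq_iff_im.1 (det_conj_of_commute (damped_conjTranspose k σ r))
  have hcont : Continuous fun r : ℝ => (LinearMap.det (damped k σ r)).re := by
    have := (continuous_damped_det (n := n) k).comp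
      (continuous_const.prodMk continuous_id : Continuous fun r : ℝ => (σ, r))
    exact Complex.continuous_re.comp this
  by_contra hneg
  push Not at hneg
  have h0 : (LinearMap.det (damped k σ 0)).re = 1 := by
    rw [damped_zero hk]; simp
  have hmem : (0 : ℝ) ∈ Set.Icc (LinearMap.det (damped k σ r)).re
      (LinearMap.det (damped k σ 0)).re := ⟨hneg, by rw [h0]; norm_num⟩
  obtain ⟨s, hs, hs0⟩ := intermediate_value_Icc' hr0 hcont.continuousOn hmem
  exact damped_det_ne_zero hk hσ hs.1 (lt_of_le_of_lt hs.2 hr) (Complex.ext hs0 (by simp [him s]))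

/-- **G5.** For unitary `σ`, `det_ℂ (X ↦ ∑_{j<k} σ^j X σ^{-j})` is a nonnegative real. -/
theorem det_adSum_nonneg (k : ℕ) {σ : Matrix n n ℂ} (hσ : σ ∈ Matrix.unitaryGroup n ℂ) :
    0 ≤ (LinearMap.det (adSum k σ)).re ∧ (LinearMap.det (adSum k σ)).im = 0 := by
  have him : (LinearMap.det (adSum k σ)).im = 0 := by
    rw [← damped_one]
    exact Complex.conj_eq_iff_im.1 (det_conj_of_commute (damped_conjTranspose k σ 1))
  refine ⟨?_, him⟩
  rcases Nat.eq_zero_or_pos k with rfl | hk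
  · have : adSum 0 σ = (0 : Module.End ℂ (Matrix n n ℂ)) := by simp [adSum]
    rw [this, LinearMap.det_zero]
    rcases Nat.eq_zero_or_pos (Module.finrank ℂ (Matrix n n ℂ)) with h | h
    · rw [h]; simp
    · rw [zero_pow h.ne']; simp
  · have hcont : Continuous fun r : ℝ => (LinearMap.det (damped k σ r)).re := by
      have := (continuous_damped_det (n := n) k).comp
        (continuous_const.prodMk continuous_id : Continuous fun r : ℝ => (σ, r))
      exact Complex.continuous_re.comp this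
    rw [← damped_one]
    have hclosed : IsClosed {r : ℝ | 0 ≤ (LinearMap.det (damped k σ r)).re} :=
      isClosed_le continuous_const hcont
    have hsub : Set.Ico (0 : ℝ) 1 ⊆ {r : ℝ | 0 ≤ (LinearMap.det (damped k σ r)).re} :=
      fun r hr => (damped_det_re_pos hk hσ hr.1 hr.2).le
    have h1 : (1 : ℝ) ∈ closure (Set.Ico (0 : ℝ) 1) := by
      rw [closure_Ico (by norm_num)]; exact ⟨by norm_num, le_refl _⟩
    exact hclosed.closure_subset_iff.2 hsub h1

theorem adSum_one (k : ℕ) : adSum k (1 : Matrix n n ℂ) = (k : ℂ) • (1 : Module.End ℂ _) := by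
  ext1 X
  rw [adSum_apply]
  simp only [one_pow, Matrix.one_mul, Matrix.conjTranspose_one, Matrix.mul_one,
    Finset.sum_const, Finset.card_range, LinearMap.smul_apply, Module.End.one_apply]
  exact (Nat.cast_smul_eq_nsmul ℂ k X).symm

theorem det_adSum_one (k : ℕ) :
    LinearMap.det (adSum k (1 : Matrix n n ℂ)) = (k : ℂ) ^ (Fintype.card n * Fintype.card n) := by
  rw [adSum_one, LinearMap.det_smul]
  simp [Module.finrank_matrix]

theorem continuous_det_adSum (k : ℕ) :
    Continuous fun σ : Matrix n n ℂ => LinearMap.det (adSum k σ) := by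
  have := (continuous_damped_det (n := n) k).comp
    (continuous_id.prodMk continuous_const : Continuous fun σ : Matrix n n ℂ => (σ, (1 : ℝ)))
  refine this.congr fun σ => ?_
  simp [damped_one]

end Crest.Agent.R174.GRDet
end

-- ▼ part R174/G4Eval
section

/-!
# R174, block G4b (helper850), part 3: evaluation of `DD Φ₁`.
-/

set_option autoImplicit false
set_option linter.unusedSectionVars false
set_option linter.unusedSimpArgs false
set_option linter.unusedVariables false
open scoped Matrix.Norms.L2Operator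

noncomputable section

namespace Crest.Agent.R174.GR

open Crest.Agent.R174.G4 Matrix Finset

variable {ι A Q : Type} [Fintype ι] [LinearOrder ι] [Fintype A] [DecidableEq A]
  [Fintype Q] [DecidableEq Q]

omit [Fintype ι] [DecidableEq Q] in
theorem Sys.W_zero [DecidableEq Q] (S : Sys ι A Q) {x i : ι} (q : Q)
    (h : ¬ ∃ q, S.rel q = i ∧ S.var q = x) :
    S.W x i q = 0 := by
  ext p a
  simp only [Sys.W, Matrix.of_apply, Matrix.zero_apply, ite_eq_right_iff, one_ne_zero, imp_false]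
  intro hp
  apply h
  refine ⟨p.1.2, ?_, p.2.2⟩
  rw [← p.2.1, hp]
  exact a.2

theorem Sys.W_orth (S : Sys ι A Q) {x i j : ι} (q q' : Q) (hij : i ≠ j) :
    (S.W x i q)ᵀ * S.W x j q' = 0 := by
  ext a b
  rw [Matrix.mul_apply]
  apply Finset.sum_eq_zero
  intro p _
  simp only [Matrix.transpose_apply, Sys.W, Matrix.of_apply]
  by_cases h1 : p.1 = (a.1, q)
  · by_cases h2 : p.1 = (b.1, q')
    · exfalso
      apply hij
      have : a.1 = b.1 := by
        have := h1.symm.trans h2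
        exact (Prod.mk.inj this).1
      rw [← a.2, ← b.2, this]
    · simp [h2]
  · simp [h1]

/-- the inclusion of faces as ports -/
def Sys.port (S : Sys ι A Q) {x i : ι} {q : Q} (hq : S.rel q = i ∧ S.var q = x) (a : S.Fa i) :
    S.Po x := ⟨(a.1, q), by rw [hq.1]; exact a.2, hq.2⟩

theorem Sys.W_eq (S : Sys ι A Q) {x i : ι} {q : Q} (hq : S.rel q = i ∧ S.var q = x) :
    S.W x i q = (1 : Matrix (S.Po x) (S.Po x) ℂ).submatrix id (S.port hq) := by
  ext p a
  simp only [Sys.W, Matrix.of_apply, Matrix.submatrix_apply, id, Matrix.one_apply]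
  congr 1
  apply propext
  constructor
  · intro h; exact Subtype.ext h
  · intro h; rw [h]; rfl

theorem Sys.port_injective (S : Sys ι A Q) {x i : ι} {q : Q} (hq : S.rel q = i ∧ S.var q = x) :
    Function.Injective (S.port hq) := by
  intro a b h
  have := congrArg (fun p : S.Po x => p.1.1) h
  exact Subtype.ext this

theorem Sys.compress_eq (S : Sys ι A Q) {x i : ι} {q : Q} (hq : S.rel q = i ∧ S.var q = x)
    (Y : Matrix (S.Po x) (S.Po x) ℂ) :
    (S.W x i q)ᵀ * Y * S.W x i q = Y.submatrix (S.port hq) (S.port hq) := by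
  rw [S.W_eq hq]
  rw [Matrix.transpose_submatrix, Matrix.transpose_one]
  have h1 : (1 : Matrix (S.Po x) (S.Po x) ℂ).submatrix (S.port hq) id * Y =
      Y.submatrix (S.port hq) id := by
    have := (Matrix.submatrix_mul (1 : Matrix (S.Po x) (S.Po x) ℂ) Y (S.port hq) id id
      Function.bijective_id)
    rw [Matrix.one_mul] at this
    rw [this]
    simp
  rw [h1]
  have := (Matrix.submatrix_mul Y (1 : Matrix (S.Po x) (S.Po x) ℂ) (S.port hq) id (S.port hq)
      Function.bijective_id)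
  rw [Matrix.mul_one] at this
  rw [this]

theorem Sys.W_self (S : Sys ι A Q) {x i : ι} {q : Q} (hq : S.rel q = i ∧ S.var q = x) :
    (S.W x i q)ᵀ * S.W x i q = 1 := by
  have := S.compress_eq hq (1 : Matrix (S.Po x) (S.Po x) ℂ)
  rw [Matrix.mul_one] at this
  rw [this]
  ext a b
  simp only [Matrix.submatrix_apply, Matrix.one_apply]
  congr 1
  exact propext (S.port_injective hq).eq_iff


/-- `Y ↦ W Y Wᵀ` as continuous linear map -/
def Sys.embL (S : Sys ι A Q) (x i : ι) (q : Q) :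
    Matrix (S.Fa i) (S.Fa i) ℂ →L[ℂ] Matrix (S.Po x) (S.Po x) ℂ :=
  LinearMap.toContinuousLinearMap
    { toFun := fun Y => S.W x i q * Y * (S.W x i q)ᵀ
      map_add' := fun Y Z => by rw [Matrix.mul_add, Matrix.add_mul]
      map_smul' := fun c Y => by simp }

theorem Sys.embL_apply (S : Sys ι A Q) (x i : ι) (q : Q) (Y : Matrix (S.Fa i) (S.Fa i) ℂ) :
    S.embL x i q Y = S.W x i q * Y * (S.W x i q)ᵀ := rfl

/-- products of embedded matrices -/
theorem Sys.embL_mul (S : Sys ι A Q) {q0 : ι → Q} {r : ι → ι → Q} (hr : S.RefOK q0 r)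
    (x i j : ι) (Y : Matrix (S.Fa i) (S.Fa i) ℂ) (Z : Matrix (S.Fa i) (S.Fa i) ℂ) :
    S.embL x i (r x i) Y * S.embL x i (r x i) Z = S.embL x i (r x i) (Y * Z) := by
  simp only [Sys.embL_apply]
  by_cases h : ∃ q, S.rel q = i ∧ S.var q = x
  · have := S.W_self (hr.2 x i h)
    calc S.W x i (r x i) * Y * (S.W x i (r x i))ᵀ * (S.W x i (r x i) * Z * (S.W x i (r x i))ᵀ)
        = S.W x i (r x i) * Y * ((S.W x i (r x i))ᵀ * S.W x i (r x i)) * Z *
          (S.W x i (r x i))ᵀ := by simp only [Matrix.mul_assoc]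
      _ = _ := by rw [this]; simp only [Matrix.mul_assoc, Matrix.mul_one, Matrix.one_mul]
  · simp [S.W_zero _ h]

theorem Sys.embL_mul_ne (S : Sys ι A Q) (x i j : ι) (hij : i ≠ j) (q q' : Q)
    (Y : Matrix (S.Fa i) (S.Fa i) ℂ) (Z : Matrix (S.Fa j) (S.Fa j) ℂ) :
    S.embL x i q Y * S.embL x j q' Z = 0 := by
  simp only [Sys.embL_apply]
  have := S.W_orth (x := x) q q' hij
  calc S.W x i q * Y * (S.W x i q)ᵀ * (S.W x j q' * Z * (S.W x j q')ᵀ)
        = S.W x i q * Y * ((S.W x i q)ᵀ * S.W x j q') * Z * (S.W x j q')ᵀ := by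
          simp only [Matrix.mul_assoc]
      _ = _ := by rw [this]; simp

/-- `1 + ∑ i, W (Y i - 1) Wᵀ` -/
def Sys.lift (S : Sys ι A Q) (r : ι → ι → Q) (x : ι)
    (Y : (i : ι) → Matrix (S.Fa i) (S.Fa i) ℂ) : Matrix (S.Po x) (S.Po x) ℂ :=
  1 + ∑ i, S.embL x i (r x i) (Y i - 1)

theorem Sys.sum_mul_sum (S : Sys ι A Q) {q0 : ι → Q} {r : ι → ι → Q} (hr : S.RefOK q0 r)
    (x : ι) (Y Z : (i : ι) → Matrix (S.Fa i) (S.Fa i) ℂ) :
    (∑ i, S.embL x i (r x i) (Y i)) * (∑ i, S.embL x i (r x i) (Z i)) =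
      ∑ i, S.embL x i (r x i) (Y i * Z i) := by
  rw [Finset.sum_mul_sum]
  refine Finset.sum_congr rfl fun i _ => ?_
  rw [Finset.sum_eq_single i]
  · exact S.embL_mul hr x i i _ _
  · intro j _ hj
    exact S.embL_mul_ne x i j (Ne.symm hj) _ _ _ _
  · intro h; exact absurd (Finset.mem_univ i) h

theorem Sys.mul_lift (S : Sys ι A Q) {q0 : ι → Q} {r : ι → ι → Q} (hr : S.RefOK q0 r)
    (x : ι) (T Y : (i : ι) → Matrix (S.Fa i) (S.Fa i) ℂ) :
    (∑ i, S.embL x i (r x i) (T i)) * S.lift r x Y = ∑ i, S.embL x i (r x i) (T i * Y i) := by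
  rw [Sys.lift, mul_add, mul_one, S.sum_mul_sum hr, ← Finset.sum_add_distrib]
  refine Finset.sum_congr rfl fun i _ => ?_
  rw [← map_add]
  congr 1
  rw [mul_sub, mul_one]
  abel

theorem Sys.lift_mul (S : Sys ι A Q) {q0 : ι → Q} {r : ι → ι → Q} (hr : S.RefOK q0 r)
    (x : ι) (Y Z : (i : ι) → Matrix (S.Fa i) (S.Fa i) ℂ) :
    S.lift r x Y * S.lift r x Z = S.lift r x (fun i => Y i * Z i) := by
  conv_lhs => rw [Sys.lift, add_mul, one_mul, S.mul_lift hr]
  rw [Sys.lift, Sys.lift, add_assoc, ← Finset.sum_add_distrib]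
  congr 1
  refine Finset.sum_congr rfl fun i _ => ?_
  rw [← map_add]
  congr 1
  rw [sub_mul, one_mul]
  abel

theorem Sys.lift_one (S : Sys ι A Q) (r : ι → ι → Q) (x : ι) :
    S.lift r x (fun _ => 1) = 1 := by
  simp [Sys.lift]

theorem Sys.Phi1_eq_lift (S : Sys ι A Q) (r : ι → ι → Q) (X : S.KA) (x : ι) :
    S.Phi1 r X x = S.lift r x (fun i => zp (S.E i x) (X i)) := rfl

theorem Sys.Phi1_unit (S : Sys ι A Q) {q0 : ι → Q} {r : ι → ι → Q} (hr : S.RefOK q0 r)
    (u : (i : ι) → (Matrix (S.Fa i) (S.Fa i) ℂ)ˣ) :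
    IsUnit (S.Phi1 r (fun i => (u i : Matrix (S.Fa i) (S.Fa i) ℂ))) := by
  rw [Pi.isUnit_iff]
  intro x
  rw [S.Phi1_eq_lift]
  refine IsUnit.of_mul_eq_one (S.lift r x (fun i => ((u i ^ (-(S.E i x)) : _ˣ) :
    Matrix (S.Fa i) (S.Fa i) ℂ))) ?_
  rw [S.lift_mul hr]
  conv_rhs => rw [← S.lift_one r x]
  congr 1
  funext i
  rw [zp_unit, ← Units.val_mul, ← _root_.zpow_add]
  simp

theorem Sys.hasFDerivAt_Phi1 (S : Sys ι A Q) (r : ι → ι → Q)
    (u : (i : ι) → (Matrix (S.Fa i) (S.Fa i) ℂ)ˣ) :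
    ∃ L : S.KA →L[ℂ] S.VA, HasFDerivAt (S.Phi1 r) L (fun i => (u i : Matrix (S.Fa i) (S.Fa i) ℂ)) ∧
      ∀ ξ : S.KA, ∀ x, L (ξ * fun i => (u i : Matrix (S.Fa i) (S.Fa i) ℂ)) x =
        ∑ i, S.embL x i (r x i) (logp (S.E i x) (u i) (ξ i) * ((u i ^ (S.E i x) : _ˣ) :
          Matrix (S.Fa i) (S.Fa i) ℂ)) := by
  have hL : ∀ (x i : ι), ∃ L : Matrix (S.Fa i) (S.Fa i) ℂ →L[ℂ] Matrix (S.Fa i) (S.Fa i) ℂ,
      HasFDerivAt (fun X => zp (S.E i x) X) L (u i : Matrix (S.Fa i) (S.Fa i) ℂ) ∧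
      ∀ ξ, L (ξ * (u i : Matrix (S.Fa i) (S.Fa i) ℂ)) =
        logp (S.E i x) (u i) ξ * ((u i ^ (S.E i x) : _ˣ) : Matrix (S.Fa i) (S.Fa i) ℂ) :=
    fun x i => hasFDerivAt_zp (S.E i x) (u i)
  choose L hL1 hL2 using hL
  refine ⟨ContinuousLinearMap.pi fun x => ∑ i, (S.embL x i (r x i)).comp
    ((L x i).comp (ContinuousLinearMap.proj i)), ?_, ?_⟩
  · rw [hasFDerivAt_pi]
    intro x
    have h1 : (fun X : S.KA => S.Phi1 r X x) = fun X => (1 : Matrix (S.Po x) (S.Po x) ℂ) +
        ∑ i, (S.embL x i (r x i)) (zp (S.E i x) (X i) - 1) := by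
      funext X; rfl
    rw [h1]
    apply HasFDerivAt.const_add
    apply HasFDerivAt.fun_sum
    intro i _
    apply (S.embL x i (r x i)).hasFDerivAt.comp
    apply HasFDerivAt.sub_const
    have h2 : HasFDerivAt (𝕜 := ℂ) (fun X : S.KA => X i) (ContinuousLinearMap.proj i)
      (fun i => (u i : Matrix (S.Fa i) (S.Fa i) ℂ)) := hasFDerivAt_apply i _
    exact HasFDerivAt.comp (g := fun X => zp (S.E i x) X) (f := fun X : S.KA => X i)
      (fun i => (u i : Matrix (S.Fa i) (S.Fa i) ℂ)) (hL1 x i) h2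
  · intro ξ x
    simp only [ContinuousLinearMap.pi_apply, _root_.sum_apply,
      ContinuousLinearMap.comp_apply, ContinuousLinearMap.proj_apply, Pi.mul_apply]
    refine Finset.sum_congr rfl fun i _ => ?_
    rw [hL2]

theorem Sys.Aop_Phi1 (S : Sys ι A Q) {q0 : ι → Q} {r : ι → ι → Q} (hr : S.RefOK q0 r)
    (u : (i : ι) → (Matrix (S.Fa i) (S.Fa i) ℂ)ˣ) (ξ : S.KA) (x : ι) :
    Aop (S.Phi1 r) (fun i => (u i : Matrix (S.Fa i) (S.Fa i) ℂ)) ξ x =
      ∑ i, S.embL x i (r x i) (logp (S.E i x) (u i) (ξ i)) := by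
  obtain ⟨L, hL1, hL2⟩ := S.hasFDerivAt_Phi1 r u
  have h1 : Aop (S.Phi1 r) (fun i => (u i : Matrix (S.Fa i) (S.Fa i) ℂ)) ξ =
      L (ξ * fun i => (u i : Matrix (S.Fa i) (S.Fa i) ℂ)) *
        Ring.inverse (S.Phi1 r (fun i => (u i : Matrix (S.Fa i) (S.Fa i) ℂ))) := by
    simp only [Aop, LinearMap.coe_mk, AddHom.coe_mk]
    rw [hL1.fderiv]
  have h2 : L (ξ * fun i => (u i : Matrix (S.Fa i) (S.Fa i) ℂ)) =
      (fun x => ∑ i, S.embL x i (r x i) (logp (S.E i x) (u i) (ξ i)) : S.VA) *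
        S.Phi1 r (fun i => (u i : Matrix (S.Fa i) (S.Fa i) ℂ)) := by
    funext x
    rw [hL2, Pi.mul_apply, S.Phi1_eq_lift, S.mul_lift hr]
    simp only [zp_unit]
  rw [h1, h2, mul_assoc, Ring.mul_inverse_cancel _ (S.Phi1_unit hr u), mul_one]

/-- `logp` as a linear endomorphism -/
def logpLin {n : Type} [Fintype n] [DecidableEq n] (k : ℤ) (u : (Matrix n n ℂ)ˣ) :
    Module.End ℂ (Matrix n n ℂ) where
  toFun v := logp k u v
  map_add' v w := by
    simp only [logp, sumConj]
    split_ifs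
    · simp [mul_add, add_mul, Finset.sum_add_distrib]
    · simp [mul_add, add_mul, Finset.sum_add_distrib]
      abel
  map_smul' c v := by
    simp only [logp, sumConj]
    split_ifs
    · simp [Finset.smul_sum]
    · simp [Finset.smul_sum]

theorem logp_zero {n : Type} [Fintype n] [DecidableEq n] (u : (Matrix n n ℂ)ˣ) (v : Matrix n n ℂ) :
    logp 0 u v = 0 := by
  simp [logp, sumConj]

/-- sign factor -/
def sg (k : ℤ) (n : ℕ) : ℂ := if 0 ≤ k then 1 else (-1) ^ (n * n)

theorem sg_ne_zero (k : ℤ) (n : ℕ) : sg k n ≠ 0 := by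
  unfold sg
  split_ifs
  · exact one_ne_zero
  · exact pow_ne_zero _ (by norm_num)

/-- nonnegative real factor -/
def rr {n : Type} [Fintype n] [DecidableEq n] (k : ℤ) (σ : Matrix n n ℂ) : ℝ :=
  if 0 ≤ k then (LinearMap.det (GRDet.adSum k.toNat σ)).re
  else (LinearMap.det (GRDet.adSum (-k).toNat σᴴ)).re

theorem rr_continuous {n : Type} [Fintype n] [DecidableEq n] (k : ℤ) :
    Continuous fun σ : Matrix n n ℂ => rr k σ := by
  unfold rr
  split_ifs
  · exact Complex.continuous_re.comp (GRDet.continuous_det_adSum _)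
  · exact Complex.continuous_re.comp ((GRDet.continuous_det_adSum _).comp
      continuous_id.matrix_conjTranspose)

theorem rr_nonneg {n : Type} [Fintype n] [DecidableEq n] (k : ℤ) {σ : Matrix n n ℂ}
    (hσ : σ ∈ Matrix.unitaryGroup n ℂ) : 0 ≤ rr k σ := by
  unfold rr
  split_ifs
  · exact (GRDet.det_adSum_nonneg _ hσ).1
  · exact (GRDet.det_adSum_nonneg _ (Unitary.star_mem hσ)).1

theorem rr_one_pos {n : Type} [Fintype n] [DecidableEq n] {k : ℤ} (hk : k ≠ 0) :
    0 < rr k (1 : Matrix n n ℂ) := by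
  unfold rr
  have h : ∀ m : ℕ, m ≠ 0 → 0 < (LinearMap.det (GRDet.adSum m (1 : Matrix n n ℂ))).re := by
    intro m hm
    rw [GRDet.det_adSum_one]
    rw [← Nat.cast_pow, Complex.natCast_re]
    have : 0 < m ^ (Fintype.card n * Fintype.card n) := Nat.pos_of_ne_zero (pow_ne_zero _ hm)
    exact_mod_cast this
  split_ifs with h0
  · exact h _ (by omega)
  · rw [Matrix.conjTranspose_one]
    exact h _ (by omega)

theorem det_logpLin {n : Type} [Fintype n] [DecidableEq n] (k : ℤ) (u : (Matrix n n ℂ)ˣ)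
    (hu : (u : Matrix n n ℂ) ∈ Matrix.unitaryGroup n ℂ) :
    LinearMap.det (logpLin k u) = sg k (Fintype.card n) * (rr k (u : Matrix n n ℂ) : ℂ) := by
  have hinv : ((u⁻¹ : (Matrix n n ℂ)ˣ) : Matrix n n ℂ) = (u : Matrix n n ℂ)ᴴ :=
    Units.inv_eq_of_mul_eq_one_right (Matrix.mem_unitaryGroup_iff.mp hu)
  by_cases hk : 0 ≤ k
  · have h1 : logpLin k u = GRDet.adSum k.toNat (u : Matrix n n ℂ) := by
      ext1 v
      rw [GRDet.adSum_apply]
      simp only [logpLin, LinearMap.coe_mk, AddHom.coe_mk, logp, hk, if_true, sumConj]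
      refine Finset.sum_congr rfl fun j _ => ?_
      rw [Units.val_pow_eq_pow_val, Units.val_pow_eq_pow_val, hinv]
    rw [h1]
    simp only [sg, rr, hk, if_true, one_mul]
    apply Complex.ext
    · simp
    · simpa using (GRDet.det_adSum_nonneg k.toNat hu).2
  · have h1 : logpLin k u = (-1 : ℂ) • (GRDet.adSum (-k).toNat (u : Matrix n n ℂ)ᴴ *
        GRDet.ad (u : Matrix n n ℂ)ᴴ) := by
      ext1 v
      rw [LinearMap.smul_apply, Module.End.mul_apply, GRDet.adSum_apply, GRDet.ad_apply]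
      simp only [logpLin, LinearMap.coe_mk, AddHom.coe_mk, logp, hk, if_false, sumConj]
      rw [neg_one_smul]
      congr 1
      refine Finset.sum_congr rfl fun j _ => ?_
      rw [Units.val_pow_eq_pow_val, Units.val_pow_eq_pow_val, inv_inv, hinv,
        Matrix.conjTranspose_conjTranspose]
    rw [h1, LinearMap.det_smul, map_mul]
    have h2 : LinearMap.det (GRDet.ad (u : Matrix n n ℂ)ᴴ) = 1 := by
      rw [GRDet.ad, GRDet.det_twoSided, ← Matrix.det_mul, Matrix.conjTranspose_conjTranspose]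
      have : (u : Matrix n n ℂ)ᴴ * (u : Matrix n n ℂ) = 1 := Matrix.mem_unitaryGroup_iff'.mp hu
      rw [this]; simp
    rw [h2, mul_one, Module.finrank_matrix]
    simp only [sg, rr, hk, if_false, Module.finrank_self, mul_one]
    congr 1
    apply Complex.ext
    · simp
    · have := (GRDet.det_adSum_nonneg (-k).toNat (Unitary.star_mem hu)).2
      rw [Matrix.star_eq_conjTranspose] at this
      simpa using this

/-- compression of `U` -/
def Sys.Bc (S : Sys ι A Q) {q0 : ι → Q} (hq : ∀ x, S.rel (q0 x) = x ∧ S.var (q0 x) = x)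
    (U : S.VA) (x : ι) : Matrix (S.Fa x) (S.Fa x) ℂ :=
  (U x).submatrix (S.port (hq x)) (S.port (hq x))

theorem Sys.det_block (S : Sys ι A Q) (h0 : ∀ i x, x < i → S.E i x = 0)
    {q0 : ι → Q} (hq : ∀ x, S.rel (q0 x) = x ∧ S.var (q0 x) = x)
    {r : ι → ι → Q} (hr : S.RefOK q0 r)
    (u : (i : ι) → (Matrix (S.Fa i) (S.Fa i) ℂ)ˣ) (U : S.VA) :
    LinearMap.det (Cop (S.refR q0 hq) U ∘ₗ
      Aop (S.Phi1 r) (fun i => (u i : Matrix (S.Fa i) (S.Fa i) ℂ))) =
    ∏ x, (((S.Bc hq U x)ᴴ.det * (S.Bc hq U x).det) ^ (Fintype.card (S.Fa x)) *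
      LinearMap.det (logpLin (S.E x x) (u x))) := by
  have hT : ∀ (ξ : S.KA) (x : ι), (Cop (S.refR q0 hq) U ∘ₗ
      Aop (S.Phi1 r) (fun i => (u i : Matrix (S.Fa i) (S.Fa i) ℂ))) ξ x =
      ((U x)ᴴ * (∑ i, S.embL x i (r x i) (logp (S.E i x) (u i) (ξ i))) * U x).submatrix
        (S.port (hq x)) (S.port (hq x)) := by
    intro ξ x
    rw [← S.Aop_Phi1 hr u ξ x]
    rfl
  rw [det_of_triangular]
  · refine Finset.prod_congr rfl fun x _ => ?_
    have hd : diagBlock (Cop (S.refR q0 hq) U ∘ₗ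
      Aop (S.Phi1 r) (fun i => (u i : Matrix (S.Fa i) (S.Fa i) ℂ))) x =
        GRDet.twoSided (S.Bc hq U x)ᴴ (S.Bc hq U x) * logpLin (S.E x x) (u x) := by
      ext1 v
      rw [Module.End.mul_apply, GRDet.twoSided_apply]
      have h1 : diagBlock (Cop (S.refR q0 hq) U ∘ₗ
        Aop (S.Phi1 r) (fun i => (u i : Matrix (S.Fa i) (S.Fa i) ℂ))) x v =
        (Cop (S.refR q0 hq) U ∘ₗ
        Aop (S.Phi1 r) (fun i => (u i : Matrix (S.Fa i) (S.Fa i) ℂ))) (Pi.single x v) x := rfl
      rw [h1, hT]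
      have h2 : (∑ i, S.embL x i (r x i) (logp (S.E i x) (u i)
          ((Pi.single x v : S.KA) i))) = S.embL x x (r x x) (logp (S.E x x) (u x) v) := by
        rw [Finset.sum_eq_single x]
        · rw [Pi.single_eq_same]
        · intro i _ hi
          rw [Pi.single_eq_of_ne hi]
          have : logp (S.E i x) (u i) (0 : Matrix (S.Fa i) (S.Fa i) ℂ) = 0 :=
            (logpLin (S.E i x) (u i)).map_zero
          rw [this, map_zero]
        · intro h; exact absurd (Finset.mem_univ x) h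
      rw [h2, hr.1 x]
      have h3 : (S.Bc hq U x)ᴴ = (S.W x x (q0 x))ᵀ * (U x)ᴴ * S.W x x (q0 x) := by
        rw [S.compress_eq (hq x)]
        rfl
      have h4 : (S.Bc hq U x) = (S.W x x (q0 x))ᵀ * (U x) * S.W x x (q0 x) := by
        rw [S.compress_eq (hq x)]
        rfl
      rw [h3, h4, ← S.compress_eq (hq x), Sys.embL_apply]
      simp only [Matrix.mul_assoc]
      rfl
    rw [hd, map_mul, GRDet.det_twoSided]
  · intro x i hxi v
    rw [hT]
    have h2 : (∑ j, S.embL x j (r x j) (logp (S.E j x) (u j)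
          ((Pi.single i v : S.KA) j))) = 0 := by
      apply Finset.sum_eq_zero
      intro j _
      by_cases hj : j = i
      · subst hj
        rw [h0 j x hxi, logp_zero, map_zero]
      · rw [Pi.single_eq_of_ne hj]
        have : logp (S.E j x) (u j) (0 : Matrix (S.Fa j) (S.Fa j) ℂ) = 0 :=
            (logpLin (S.E j x) (u j)).map_zero
        rw [this, map_zero]
    rw [h2]
    simp

theorem integral_pos_of_one {𝔸 : Type} [NormedRing 𝔸] [StarRing 𝔸] [CStarRing 𝔸]
    [NormedAlgebra ℂ 𝔸] [StarModule ℂ 𝔸] [FiniteDimensional ℂ 𝔸] (f : 𝔸 → ℝ)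
    (hf : Continuous f) (hnn : ∀ σ ∈ unitary 𝔸, 0 ≤ f σ) (h1 : 0 < f 1) :
    0 < ∫ σ : UG 𝔸, f σ.val ∂(haarU 𝔸) := by
  have hc : Continuous fun σ : UG 𝔸 => f σ.val := hf.comp UG.continuous_val
  refine hc.integral_pos_of_hasCompactSupport_nonneg_nonzero (x := (1 : UG 𝔸))
    (HasCompactSupport.of_compactSpace _) (fun σ => hnn _ σ.val_mem) ?_
  have : (1 : UG 𝔸).val = 1 := rfl
  rw [this]
  exact h1.ne'

theorem G4b_holds (S : Sys ι A Q) : G4b S := by
  intro h0 hd q0 hq r hr
  have hpt : ∀ (σ : UG S.KA) (U : UG S.VA),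
      LinearMap.det (Cop (S.refR q0 hq) U.val ∘ₗ Aop (S.Phi1 r) σ.val) =
      ((∏ x, sg (S.E x x) (Fintype.card (S.Fa x))) * ((∏ x, rr (S.E x x) (σ.val x) : ℝ) : ℂ)) *
        ((∏ x, (Complex.normSq (S.Bc hq U.val x).det) ^ (Fintype.card (S.Fa x)) : ℝ) : ℂ) := by
    intro σ U
    have hσ : ∀ x, σ.val x ∈ Matrix.unitaryGroup (S.Fa x) ℂ := by
      intro x
      have h := σ.val_mem
      rw [Unitary.mem_iff] at h ⊢
      exact ⟨congrFun h.1 x, congrFun h.2 x⟩
    obtain ⟨u, hu⟩ : ∃ u : (i : ι) → (Matrix (S.Fa i) (S.Fa i) ℂ)ˣ,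
        ∀ i, (u i : Matrix (S.Fa i) (S.Fa i) ℂ) = σ.val i :=
      ⟨fun i => Unitary.toUnits ⟨σ.val i, hσ i⟩, fun i => rfl⟩
    have hu' : σ.val = fun i => (u i : Matrix (S.Fa i) (S.Fa i) ℂ) := funext fun i => (hu i).symm
    rw [hu', S.det_block h0 hq hr u U.val]
    rw [Finset.prod_mul_distrib]
    have h1 : ∀ x, LinearMap.det (logpLin (S.E x x) (u x)) =
        sg (S.E x x) (Fintype.card (S.Fa x)) *
          (rr (S.E x x) (u x : Matrix (S.Fa x) (S.Fa x) ℂ) : ℂ) := by
      intro x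
      apply det_logpLin
      rw [hu x]
      exact hσ x
    rw [Finset.prod_congr rfl (fun x _ => h1 x)]
    rw [Finset.prod_mul_distrib]
    have h2 : ∀ x, (S.Bc hq U.val x)ᴴ.det * (S.Bc hq U.val x).det =
        ((Complex.normSq (S.Bc hq U.val x).det : ℝ) : ℂ) := by
      intro x
      rw [Matrix.det_conjTranspose, Complex.normSq_eq_conj_mul_self]
      rfl
    rw [Finset.prod_congr rfl (fun x _ => by rw [h2 x])]
    push_cast
    ring
  unfold DD
  simp only [hpt]
  simp only [MeasureTheory.integral_const_mul, MeasureTheory.integral_mul_const]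
  refine mul_ne_zero (mul_ne_zero ?_ ?_) ?_
  · exact Finset.prod_ne_zero_iff.mpr fun x _ => sg_ne_zero _ _
  · rw [integral_complex_ofReal]
    have := integral_pos_of_one (𝔸 := S.KA) (fun σ => ∏ x, rr (S.E x x) (σ x))
      (by
        apply continuous_finsetProd
        intro x _
        exact (rr_continuous _).comp (continuous_apply x))
      (by
        intro σ hσ
        apply Finset.prod_nonneg
        intro x _
        apply rr_nonneg
        rw [Unitary.mem_iff] at hσ ⊢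
        exact ⟨congrFun hσ.1 x, congrFun hσ.2 x⟩)
      (by
        apply Finset.prod_pos
        intro x _
        exact rr_one_pos (hd x))
    exact_mod_cast this.ne'
  · rw [integral_complex_ofReal]
    have := integral_pos_of_one (𝔸 := S.VA)
      (fun U => ∏ x, (Complex.normSq (S.Bc hq U x).det) ^ (Fintype.card (S.Fa x)))
      (by
        apply continuous_finsetProd
        intro x _
        apply Continuous.pow
        apply Complex.continuous_normSq.comp
        apply Continuous.matrix_det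
        exact (continuous_apply x).matrix_submatrix _ _)
      (by
        intro σ _
        apply Finset.prod_nonneg
        intro x _
        exact pow_nonneg (Complex.normSq_nonneg _) _)
      (by
        apply Finset.prod_pos
        intro x _
        apply pow_pos
        rw [Complex.normSq_pos]
        have : S.Bc hq 1 x = 1 := by
          ext a b
          simp only [Sys.Bc, Pi.one_apply, Matrix.submatrix_apply, Matrix.one_apply]
          congr 1
          exact propext (S.port_injective (hq x)).eq_iff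
        rw [this, Matrix.det_one]
        exact one_ne_zero)
    exact_mod_cast this.ne'

end Crest.Agent.R174.GR
end
end

-- ▼ part R174/G4aDefs661
section

/-!
# R174, block G4a (helper661): the form of `Φ₁` (end point of the rotation homotopy).

`RefMap S q0` : a choice `r` of a reference position for every pair (relator, unknown), compatible
with `q0`.  `Phi1 R X` acts at the reference position of `(i, x)` by `(X i) ^ (E i x)` and by `1`
at all other positions.
-/

set_option autoImplicit false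
set_option linter.unusedSectionVars false
open MeasureTheory
open scoped Matrix.Norms.L2Operator

noncomputable section

namespace Crest.Agent.R174.G4a

open Crest.Agent.R174.GR

variable {ι A Q : Type} [Fintype ι] [LinearOrder ι] [Fintype A] [DecidableEq A]
  [Fintype Q] [DecidableEq Q]

/-- a choice of reference positions: `r q` is the reference position of `(rel q, var q)`. -/
structure RefMap (S : Sys ι A Q) (q0 : ι → Q) where
  r : Q → Q
  rel_r : ∀ q, S.rel (r q) = S.rel q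
  var_r : ∀ q, S.var (r q) = S.var q
  congr : ∀ q q', S.rel q = S.rel q' → S.var q = S.var q' → r q = r q'
  r_q0 : ∀ x, r (q0 x) = q0 x

variable {S : Sys ι A Q} {q0 : ι → Q}

theorem RefMap.idem (R : RefMap S q0) (q : Q) : R.r (R.r q) = R.r q :=
  R.congr _ _ (R.rel_r q) (R.var_r q)

/-- the exponent at position `q`: `E (rel q) (var q)` at reference positions, `0` elsewhere. -/
def RefMap.kk (R : RefMap S q0) (q : Q) : ℤ :=
  if R.r q = q then S.E (S.rel q) (S.var q) else 0

/-- `Φ₁(X)`: at the reference position of `(i,x)` it acts by `(X i)^(E i x)`, elsewhere by `1`. -/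
def Phi1 (R : RefMap S q0) (X : S.KA) : S.VA := fun x =>
  Matrix.of fun p p' =>
    if h : p.1.2 = p'.1.2 then
      ((X (S.rel p.1.2)) ^ (R.kk p.1.2))
        ⟨p.1.1, p.2.1⟩ ⟨p'.1.1, (p'.2.1).trans (congrArg S.rel h.symm)⟩
    else 0

/-- auxiliary choice -/
def refAux (S : Sys ι A Q) (i x : ι) (h : ∃ q, S.rel q = i ∧ S.var q = x) : Q := Classical.choose h

theorem refAux_spec (S : Sys ι A Q) (i x : ι) (h : ∃ q, S.rel q = i ∧ S.var q = x) :
    S.rel (refAux S i x h) = i ∧ S.var (refAux S i x h) = x := Classical.choose_spec h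

theorem refAux_congr (S : Sys ι A Q) (i x i' x' : ι) (h : ∃ q, S.rel q = i ∧ S.var q = x)
    (h' : ∃ q, S.rel q = i' ∧ S.var q = x') (hi : i = i') (hx : x = x') :
    refAux S i x h = refAux S i' x' h' := by
  subst hi; subst hx; rfl

/-- existence of a reference map. -/
def mkRef (S : Sys ι A Q) (q0 : ι → Q) (hq : ∀ x, S.rel (q0 x) = x ∧ S.var (q0 x) = x) :
    RefMap S q0 where
  r q := if S.rel q = S.var q then q0 (S.rel q) else refAux S (S.rel q) (S.var q) ⟨q, rfl, rfl⟩
  rel_r q := by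
    split_ifs with h
    · exact (hq _).1
    · exact (refAux_spec S _ _ _).1
  var_r q := by
    split_ifs with h
    · rw [(hq _).2, h]
    · exact (refAux_spec S _ _ _).2
  congr q q' h1 h2 := by
    by_cases h : S.rel q = S.var q
    · have h' : S.rel q' = S.var q' := by rw [← h1, ← h2, h]
      rw [if_pos h, if_pos h', h1]
    · have h' : ¬ S.rel q' = S.var q' := by rw [← h1, ← h2]; exact h
      rw [if_neg h, if_neg h']
      exact refAux_congr S _ _ _ _ _ _ h1 h2
  r_q0 x := by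
    have h : S.rel (q0 x) = S.var (q0 x) := by rw [(hq x).1, (hq x).2]
    rw [if_pos h, (hq x).1]

/-- the statement delivered by block G4a -/
def T3a (S : Sys ι A Q) : Prop :=
  ∀ (q0 : ι → Q) (hq : ∀ x, S.rel (q0 x) = x ∧ S.var (q0 x) = x) (R : RefMap S q0),
    DD (S.refR q0 hq) S.Jm = DD (S.refR q0 hq) (Phi1 R)

end Crest.Agent.R174.G4a
end
end

-- ▼ part R174/G4a661
section

/-!
# R174, block G4a (helper661): rotation homotopy `DD J = DD Φ₁`.
-/

set_option autoImplicit false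
set_option linter.unusedSectionVars false
open MeasureTheory Matrix
open scoped Matrix.Norms.L2Operator

noncomputable section

namespace Crest.Agent.R174.G4a

open Crest.Agent.R174.GR

variable {ι A Q : Type} [Fintype ι] [LinearOrder ι] [Fintype A] [DecidableEq A]
  [Fintype Q] [DecidableEq Q]

section algebra

variable (S : Sys ι A Q) (x : ι)

/-- inclusion of the faces of type `i` at the position `q` -/
def inc (i : ι) (q : Q) : Matrix (S.Po x) (S.Fa i) ℂ :=
  Matrix.of fun p a => if p.1.2 = q ∧ p.1.1 = a.1 then 1 else 0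

variable {S x}

theorem inc_t_mul_inc_self {i : ι} {q : Q} (hr : S.rel q = i) (hv : S.var q = x) :
    (inc S x i q)ᵀ * inc S x i q = 1 := by
  subst hr
  ext a b
  rw [Matrix.mul_apply, Matrix.one_apply]
  rw [Finset.sum_eq_single (⟨(a.1, q), a.2, hv⟩ : S.Po x)]
  · by_cases hab : a = b
    · subst hab; simp [inc]
    · have : a.1 ≠ b.1 := fun h => hab (Subtype.ext h)
      simp [inc, hab, this]
  · intro p _ hp
    simp only [inc, Matrix.transpose_apply, Matrix.of_apply]
    rw [if_neg, zero_mul]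
    rintro ⟨h1, h2⟩
    apply hp
    apply Subtype.ext
    exact Prod.ext h2 h1
  · intro h; exact absurd (Finset.mem_univ _) h

theorem inc_t_mul_inc_of_ne {i j : ι} {q r : Q} (h : q ≠ r) :
    (inc S x i q)ᵀ * inc S x j r = 0 := by
  ext a b
  rw [Matrix.mul_apply, Matrix.zero_apply]
  apply Finset.sum_eq_zero
  intro p _
  simp only [inc, Matrix.transpose_apply, Matrix.of_apply]
  by_cases h1 : p.1.2 = q
  · have h2 : p.1.2 ≠ r := fun h3 => h (h1.symm.trans h3)
    simp [h2]
  · simp [h1]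

theorem inc_eq_zero {i : ι} {q : Q} (hv : S.var q ≠ x) : inc S x i q = 0 := by
  ext p a
  simp only [inc, Matrix.of_apply, Matrix.zero_apply]
  rw [if_neg]
  rintro ⟨h1, -⟩
  exact hv (h1 ▸ p.2.2)

/-- entries of a block -/
theorem blk_apply (i : ι) (q : Q) (Y : Matrix (S.Fa i) (S.Fa i) ℂ) (p p' : S.Po x)
    (h : p.1.2 = q) (h' : p'.1.2 = q) (hi : S.rel q = i) :
    (inc S x i q * Y * (inc S x i q)ᵀ) p p' =
      Y ⟨p.1.1, by rw [← hi, ← h]; exact p.2.1⟩ ⟨p'.1.1, by rw [← hi, ← h']; exact p'.2.1⟩ := by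
  rw [Matrix.mul_apply, Finset.sum_eq_single
    (⟨p'.1.1, by rw [← hi, ← h']; exact p'.2.1⟩ : S.Fa i)]
  · rw [Matrix.mul_apply, Finset.sum_eq_single
      (⟨p.1.1, by rw [← hi, ← h]; exact p.2.1⟩ : S.Fa i)]
    · simp [inc, h, h']
    · intro b _ hb
      have : p.1.1 ≠ b.1 := fun h => hb (Subtype.ext h.symm)
      simp [inc, this]
    · intro h; exact absurd (Finset.mem_univ _) h
  · intro b _ hb
    have : p'.1.1 ≠ b.1 := fun h => hb (Subtype.ext h.symm)
    simp [inc, this]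
  · intro h; exact absurd (Finset.mem_univ _) h

theorem blk_apply_zero (i : ι) (q : Q) (Y : Matrix (S.Fa i) (S.Fa i) ℂ) (p p' : S.Po x)
    (h : ¬ (p.1.2 = q ∧ p'.1.2 = q)) :
    (inc S x i q * Y * (inc S x i q)ᵀ) p p' = 0 := by
  rw [Matrix.mul_apply]
  apply Finset.sum_eq_zero
  intro b _
  rw [Matrix.mul_apply, Finset.sum_mul]
  apply Finset.sum_eq_zero
  intro a _
  simp only [inc, Matrix.transpose_apply, Matrix.of_apply]
  by_cases h1 : p.1.2 = q
  · have h2 : p'.1.2 ≠ q := fun h3 => h ⟨h1, h3⟩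
    simp [h2]
  · simp [h1]

/-- block diagonal matrix with blocks `Y q` -/
def diagQ (x : ι) (Y : (q : Q) → Matrix (S.Fa (S.rel q)) (S.Fa (S.rel q)) ℂ) :
    Matrix (S.Po x) (S.Po x) ℂ :=
  ∑ q : Q, inc S x (S.rel q) q * Y q * (inc S x (S.rel q) q)ᵀ

theorem diagQ_apply (Y : (q : Q) → Matrix (S.Fa (S.rel q)) (S.Fa (S.rel q)) ℂ) (p p' : S.Po x) :
    diagQ x Y p p' = if h : p.1.2 = p'.1.2 then
      (Y p.1.2) ⟨p.1.1, p.2.1⟩ ⟨p'.1.1, (p'.2.1).trans (congrArg S.rel h.symm)⟩ else 0 := by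
  unfold diagQ
  rw [Matrix.sum_apply, Finset.sum_eq_single p.1.2]
  · split_ifs with h
    · rw [blk_apply _ _ _ _ _ rfl h.symm rfl]
    · exact blk_apply_zero _ _ _ _ _ (fun h' => h (h'.2.symm))
  · intro q _ hq
    exact blk_apply_zero _ _ _ _ _ (fun h' => hq h'.1.symm)
  · intro h; exact absurd (Finset.mem_univ _) h

theorem diagQ_one : diagQ x (fun q => (1 : Matrix (S.Fa (S.rel q)) (S.Fa (S.rel q)) ℂ)) = 1 := by
  ext p p'
  rw [diagQ_apply, Matrix.one_apply]
  split_ifs with h h2 h2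
  · subst h2; simp
  · rw [Matrix.one_apply, if_neg]
    intro h3
    apply h2
    apply Subtype.ext
    exact Prod.ext (congrArg Subtype.val h3) h
  · exact absurd (by rw [h2]) h
  · rfl

/-- multiplying by an elementary block changes one block -/
theorem elem_mul_diagQ (r : Q) (hv : S.var r = x) (Z : Matrix (S.Fa (S.rel r)) (S.Fa (S.rel r)) ℂ)
    (Y : (q : Q) → Matrix (S.Fa (S.rel q)) (S.Fa (S.rel q)) ℂ) :
    (1 + inc S x (S.rel r) r * (Z - 1) * (inc S x (S.rel r) r)ᵀ) * diagQ x Y =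
      diagQ x (Function.update Y r (Z * Y r)) := by
  have h1 : (inc S x (S.rel r) r * (Z - 1) * (inc S x (S.rel r) r)ᵀ) * diagQ x Y =
      inc S x (S.rel r) r * ((Z - 1) * Y r) * (inc S x (S.rel r) r)ᵀ := by
    unfold diagQ
    rw [Finset.mul_sum, Finset.sum_eq_single r]
    · have := inc_t_mul_inc_self (S := S) (x := x) (q := r) rfl hv
      calc inc S x (S.rel r) r * (Z - 1) * (inc S x (S.rel r) r)ᵀ *
            (inc S x (S.rel r) r * Y r * (inc S x (S.rel r) r)ᵀ)
          = inc S x (S.rel r) r * (Z - 1) * ((inc S x (S.rel r) r)ᵀ * inc S x (S.rel r) r) *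
            Y r * (inc S x (S.rel r) r)ᵀ := by simp only [Matrix.mul_assoc]
        _ = _ := by rw [this]; simp only [Matrix.mul_assoc, Matrix.one_mul]
    · intro q _ hq
      have := inc_t_mul_inc_of_ne (S := S) (x := x) (i := S.rel r) (j := S.rel q)
        (q := r) (r := q) (Ne.symm hq)
      calc inc S x (S.rel r) r * (Z - 1) * (inc S x (S.rel r) r)ᵀ *
            (inc S x (S.rel q) q * Y q * (inc S x (S.rel q) q)ᵀ)
          = inc S x (S.rel r) r * (Z - 1) * ((inc S x (S.rel r) r)ᵀ * inc S x (S.rel q) q) *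
            Y q * (inc S x (S.rel q) q)ᵀ := by simp only [Matrix.mul_assoc]
        _ = 0 := by rw [this]; simp
    · intro h; exact absurd (Finset.mem_univ _) h
  rw [add_mul, one_mul, h1]
  ext p p'
  rw [Matrix.add_apply, diagQ_apply, diagQ_apply]
  by_cases h : p.1.2 = p'.1.2
  · rw [dif_pos h, dif_pos h]
    by_cases hr : p.1.2 = r
    · subst hr
      rw [blk_apply _ _ _ _ _ rfl h.symm rfl, Function.update_self]
      rw [sub_mul, one_mul, Matrix.sub_apply]
      ring
    · rw [blk_apply_zero _ _ _ _ _ (fun h' => hr h'.1), add_zero, Function.update_of_ne hr]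
  · rw [dif_neg h, dif_neg h, blk_apply_zero _ _ _ _ _ (fun h' => h (h'.1.trans h'.2.symm)),
      add_zero]

theorem diagQ_congr (Y Y' : (q : Q) → Matrix (S.Fa (S.rel q)) (S.Fa (S.rel q)) ℂ)
    (h : ∀ q, S.var q = x → Y q = Y' q) : diagQ x Y = diagQ x Y' := by
  unfold diagQ
  apply Finset.sum_congr rfl
  intro q _
  by_cases hv : S.var q = x
  · rw [h q hv]
  · rw [inc_eq_zero hv]; simp

/-- the sign of a position -/
def sg (S : Sys ι A Q) (q : Q) : ℤ := if S.pos q then 1 else -1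

theorem sg_zpow (X : S.KA) (q : Q) :
    (X (S.rel q)) ^ (sg S q) = if S.pos q then X (S.rel q) else Ring.inverse (X (S.rel q)) := by
  unfold sg
  split_ifs with h
  · exact zpow_one _
  · rw [Matrix.zpow_neg_one, Matrix.nonsing_inv_eq_ringInverse]

theorem Jm_eq_diagQ (X : S.KA) (x : ι) :
    S.Jm X x = diagQ x (fun q => (X (S.rel q)) ^ (sg S q)) := by
  ext p p'
  rw [diagQ_apply]
  unfold Sys.Jm
  rw [Matrix.of_apply]
  split_ifs with h h2
  · rw [sg_zpow, if_pos h2]
  · rw [sg_zpow, if_neg h2]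
  · rfl

theorem Phi1_eq_diagQ {q0 : ι → Q} (R : RefMap S q0) (X : S.KA) (x : ι) :
    Phi1 R X x = diagQ x (fun q => (X (S.rel q)) ^ (R.kk q)) := by
  ext p p'
  rw [diagQ_apply]
  rfl

theorem elem_transport (X : S.KA) (r : Q) (k : ℤ) {i j : ι} (h : i = j) :
    (1 + inc S x i r * ((X i) ^ k - 1) * (inc S x i r)ᵀ) =
    (1 + inc S x j r * ((X j) ^ k - 1) * (inc S x j r)ᵀ) := by
  subst h; rfl

/-- exponents of the product over a list -/
def cnt (S : Sys ι A Q) (x : ι) (ρ : Q → Q) (L : List Q) (r : Q) : ℤ :=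
  (L.map (fun q => if ρ q = r ∧ S.var q = x then sg S q else 0)).sum

/-- product of the elementary blocks moved by `ρ` -/
theorem prod_elem (ρ : Q → Q) (hrel : ∀ q, S.rel (ρ q) = S.rel q)
    (hvar : ∀ q, S.var (ρ q) = S.var q) (X : S.KA) (hX : ∀ i, IsUnit (X i)) (L : List Q) :
    (L.map (fun q => if S.var q = x then
      1 + inc S x (S.rel q) (ρ q) * ((X (S.rel q)) ^ (sg S q) - 1) * (inc S x (S.rel q) (ρ q))ᵀ
      else 1)).prod = diagQ x (fun r => (X (S.rel r)) ^ (cnt S x ρ L r)) := by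
  induction L with
  | nil =>
    simp only [List.map_nil, List.prod_nil, cnt, List.sum_nil, zpow_zero]
    exact diagQ_one.symm
  | cons q L ih =>
    rw [List.map_cons, List.prod_cons, ih]
    by_cases hv : S.var q = x
    · rw [if_pos hv, elem_transport X (ρ q) (sg S q) (hrel q).symm,
        elem_mul_diagQ (ρ q) ((hvar q).trans hv)]
      congr 1
      funext r
      by_cases hr : r = ρ q
      · subst hr
        rw [Function.update_self]
        have hdet : IsUnit (X (S.rel (ρ q))).det := (Matrix.isUnit_iff_isUnit_det _).1 (hX _)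
        rw [← Matrix.zpow_add hdet]
        simp [cnt, hv]
      · rw [Function.update_of_ne hr]
        have : ρ q ≠ r := fun h => hr h.symm
        simp [cnt, this]
    · rw [if_neg hv, one_mul]
      congr 1
      funext r
      simp [cnt, hv]

theorem cnt_univ (S : Sys ι A Q) (x : ι) (ρ : Q → Q) (r : Q) :
    cnt S x ρ Finset.univ.toList r =
      ∑ q : Q, if ρ q = r ∧ S.var q = x then sg S q else 0 := by
  unfold cnt
  rw [Finset.sum_map_toList]

theorem cnt_id (r : Q) (hr : S.var r = x) :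
    cnt S x id Finset.univ.toList r = sg S r := by
  rw [cnt_univ, Finset.sum_eq_single r]
  · simp [hr]
  · intro q _ hq
    simp [hq]
  · intro h; exact absurd (Finset.mem_univ _) h

theorem cnt_ref {q0 : ι → Q} (R : RefMap S q0) (r : Q) (hr : S.var r = x) :
    cnt S x R.r Finset.univ.toList r = R.kk r := by
  rw [cnt_univ]
  unfold RefMap.kk
  split_ifs with h
  · unfold Sys.E
    apply Finset.sum_congr rfl
    intro q _
    have : (R.r q = r ∧ S.var q = x) ↔ (S.rel q = S.rel r ∧ S.var q = S.var r) := by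
      constructor
      · rintro ⟨h1, h2⟩
        exact ⟨by rw [← h1, R.rel_r], by rw [h2, hr]⟩
      · rintro ⟨h1, h2⟩
        exact ⟨by rw [R.congr q r h1 h2, h], by rw [h2, hr]⟩
    by_cases h3 : R.r q = r ∧ S.var q = x
    · rw [if_pos h3, if_pos (this.1 h3)]; rfl
    · rw [if_neg h3, if_neg (fun h4 => h3 (this.2 h4))]
  · apply Finset.sum_eq_zero
    intro q _
    rw [if_neg]
    rintro ⟨h1, -⟩
    exact h (by rw [← h1, R.idem])

/-- a moving isometry -/
def Pth (S : Sys ι A Q) (x : ι) (ρ : Q → Q) (q : Q) (s : ℂ) :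
    Matrix (S.Po x) (S.Fa (S.rel q)) ℂ :=
  if ρ q = q then inc S x (S.rel q) q else
    Complex.cos (s * (Real.pi / 2)) • inc S x (S.rel q) q +
      Complex.sin (s * (Real.pi / 2)) • inc S x (S.rel q) (ρ q)

theorem Pth_zero (ρ : Q → Q) (q : Q) : Pth S x ρ q 0 = inc S x (S.rel q) q := by
  unfold Pth
  split_ifs
  · rfl
  · simp

theorem Pth_one (ρ : Q → Q) (q : Q) : Pth S x ρ q 1 = inc S x (S.rel q) (ρ q) := by
  unfold Pth
  split_ifs with h
  · rw [h]
  · simp

theorem Pth_isometry (ρ : Q → Q) (hrel : ∀ q, S.rel (ρ q) = S.rel q)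
    (hvar : ∀ q, S.var (ρ q) = S.var q) (q : Q) (hv : S.var q = x) (s : ℂ) :
    (Pth S x ρ q s)ᵀ * Pth S x ρ q s = 1 := by
  unfold Pth
  split_ifs with h
  · exact inc_t_mul_inc_self rfl hv
  · have h1 := inc_t_mul_inc_self (S := S) (x := x) (q := q) rfl hv
    have h2 := inc_t_mul_inc_self (S := S) (x := x) (q := ρ q) (hrel q) ((hvar q).trans hv)
    have h3 := inc_t_mul_inc_of_ne (S := S) (x := x) (i := S.rel q) (j := S.rel q)
      (q := q) (r := ρ q) (Ne.symm h)
    have h4 := inc_t_mul_inc_of_ne (S := S) (x := x) (i := S.rel q) (j := S.rel q)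
      (q := ρ q) (r := q) h
    rw [Matrix.transpose_add, Matrix.transpose_smul, Matrix.transpose_smul, Matrix.add_mul,
      Matrix.mul_add, Matrix.mul_add]
    simp only [Matrix.smul_mul, Matrix.mul_smul, h1, h2, h3, h4, smul_zero, add_zero, zero_add]
    rw [smul_smul, smul_smul, ← add_smul]
    have : Complex.cos (s * (Real.pi / 2)) * Complex.cos (s * (Real.pi / 2)) +
      Complex.sin (s * (Real.pi / 2)) * Complex.sin (s * (Real.pi / 2)) = 1 := by
      have := Complex.cos_sq_add_sin_sq (s * (Real.pi / 2))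
      rw [← this]; ring
    rw [this, one_smul]

theorem isUnit_elem {m n : Type} [Fintype m] [DecidableEq m] [Fintype n] [DecidableEq n]
    (P : Matrix m n ℂ) (hP : Pᵀ * P = 1) (Y : Matrix n n ℂ) (hY : IsUnit Y) :
    IsUnit (1 + P * (Y - 1) * Pᵀ) := by
  obtain ⟨u, rfl⟩ := hY
  have key : (1 + P * ((u : Matrix n n ℂ) - 1) * Pᵀ) *
      (1 + P * (((u⁻¹ : (Matrix n n ℂ)ˣ) : Matrix n n ℂ) - 1) * Pᵀ) = 1 := by
    have h1 : P * ((u : Matrix n n ℂ) - 1) * Pᵀ *
        (P * (((u⁻¹ : (Matrix n n ℂ)ˣ) : Matrix n n ℂ) - 1) * Pᵀ) =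
        P * (((u : Matrix n n ℂ) - 1) * (((u⁻¹ : (Matrix n n ℂ)ˣ) : Matrix n n ℂ) - 1)) * Pᵀ := by
      calc P * ((u : Matrix n n ℂ) - 1) * Pᵀ *
          (P * (((u⁻¹ : (Matrix n n ℂ)ˣ) : Matrix n n ℂ) - 1) * Pᵀ)
          = P * ((u : Matrix n n ℂ) - 1) * (Pᵀ * P) *
            (((u⁻¹ : (Matrix n n ℂ)ˣ) : Matrix n n ℂ) - 1) * Pᵀ := by
              simp only [Matrix.mul_assoc]
        _ = _ := by rw [hP]; simp only [Matrix.mul_assoc, Matrix.one_mul]
    have h2 : ((u : Matrix n n ℂ) - 1) * (((u⁻¹ : (Matrix n n ℂ)ˣ) : Matrix n n ℂ) - 1) =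
        (1 - (u : Matrix n n ℂ)) + (1 - ((u⁻¹ : (Matrix n n ℂ)ˣ) : Matrix n n ℂ)) := by
      rw [sub_mul, mul_sub, one_mul, mul_one, Units.mul_inv]
      abel
    rw [add_mul, mul_add, mul_add, h1, h2]
    simp only [Matrix.mul_add, Matrix.add_mul, Matrix.mul_sub, Matrix.sub_mul, Matrix.mul_one,
      Matrix.one_mul]
    abel
  exact IsUnit.of_mul_eq_one _ key

end algebra

end Crest.Agent.R174.G4a
end
end

-- ▼ part R174/G4b661

/-!
# R174, block G4a (helper661), analytic part: rotation homotopy `DD J = DD Φ₁`.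
-/

set_option autoImplicit false
set_option linter.unusedSectionVars false
open MeasureTheory Matrix
open scoped Matrix.Norms.L2Operator Topology

noncomputable section

namespace Crest.Agent.R174.G4a

open Crest.Agent.R174.GR

section congr

variable {𝔸 : Type} [NormedRing 𝔸] [StarRing 𝔸] [CStarRing 𝔸] [NormedAlgebra ℂ 𝔸]
  [StarModule ℂ 𝔸] [FiniteDimensional ℂ 𝔸]
variable {𝕍 : Type} [NormedRing 𝕍] [StarRing 𝕍] [CStarRing 𝕍] [NormedAlgebra ℂ 𝕍]
  [StarModule ℂ 𝕍] [FiniteDimensional ℂ 𝕍]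

/-- `DD` only depends on the germs of `Φ` at the unitary elements -/
theorem DD_congr (ρ : 𝕍 →ₗ[ℂ] 𝔸) (Φ Ψ : 𝔸 → 𝕍)
    (h : ∀ σ ∈ unitary 𝔸, Φ =ᶠ[𝓝 σ] Ψ) : DD ρ Φ = DD ρ Ψ := by
  unfold DD
  congr 1
  funext σ
  have : Aop Φ σ.val = Aop Ψ σ.val := by
    apply LinearMap.ext
    intro ξ
    show fderiv ℂ Φ σ.val (ξ * σ.val) * Ring.inverse (Φ σ.val) =
      fderiv ℂ Ψ σ.val (ξ * σ.val) * Ring.inverse (Ψ σ.val)
    rw [(h _ σ.val_mem).fderiv_eq, (h _ σ.val_mem).eq_of_nhds]
  rw [this]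

end congr

variable {ι A Q : Type} [Fintype ι] [LinearOrder ι] [Fintype A] [DecidableEq A]
  [Fintype Q] [DecidableEq Q]

variable {S : Sys ι A Q}

theorem isUnit_of_unitary {X : S.KA} (hX : X ∈ unitary S.KA) : IsUnit X :=
  IsUnit.of_mul_eq_one _ (Unitary.mul_star_self_of_mem hX)

theorem eventually_isUnit {X : S.KA} (hX : X ∈ unitary S.KA) : ∀ᶠ Y in 𝓝 X, IsUnit Y := by
  have : CompleteSpace S.KA := FiniteDimensional.complete ℂ _
  exact Units.isOpen.mem_nhds (isUnit_of_unitary hX)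

/-- the factor of the homotopy at position `q` -/
def fac (S : Sys ι A Q) (x : ι) (ρ : Q → Q) (q : Q) (z : ℂ × S.KA) :
    Matrix (S.Po x) (S.Po x) ℂ :=
  if S.var q = x then
    1 + Pth S x ρ q z.1 * ((if S.pos q then z.2 (S.rel q) else Ring.inverse (z.2 (S.rel q))) - 1)
      * (Pth S x ρ q z.1)ᵀ
  else 1

/-- the rotation homotopy -/
def Psi (S : Sys ι A Q) (ρ : Q → Q) (z : ℂ × S.KA) : S.VA := fun x =>
  (Finset.univ.toList.map (fun q => fac S x ρ q z)).prod

theorem Psi_zero (ρ : Q → Q) (X : S.KA) (hX : IsUnit X) : Psi S ρ (0, X) = S.Jm X := by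
  funext x
  have hX' : ∀ i, IsUnit (X i) := Pi.isUnit_iff.1 hX
  rw [Jm_eq_diagQ]
  have h := prod_elem (S := S) (x := x) id (fun _ => rfl) (fun _ => rfl) X hX' Finset.univ.toList
  have h2 : diagQ x (fun q => (X (S.rel q)) ^ (sg S q)) =
      diagQ x (fun r => (X (S.rel r)) ^ (cnt S x id Finset.univ.toList r)) := by
    apply diagQ_congr
    intro q hq
    rw [cnt_id q hq]
  rw [h2, ← h]
  unfold Psi
  congr 2
  funext q
  unfold fac
  simp only [Pth_zero, sg_zpow, id]

theorem Psi_one {q0 : ι → Q} (R : RefMap S q0) (X : S.KA) (hX : IsUnit X) :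
    Psi S R.r (1, X) = Phi1 R X := by
  funext x
  have hX' : ∀ i, IsUnit (X i) := Pi.isUnit_iff.1 hX
  rw [Phi1_eq_diagQ]
  have h := prod_elem (S := S) (x := x) R.r R.rel_r R.var_r X hX' Finset.univ.toList
  have h2 : diagQ x (fun q => (X (S.rel q)) ^ (R.kk q)) =
      diagQ x (fun r => (X (S.rel r)) ^ (cnt S x R.r Finset.univ.toList r)) := by
    apply diagQ_congr
    intro q hq
    rw [cnt_ref R q hq]
  rw [h2, ← h]
  unfold Psi
  congr 2
  funext q
  unfold fac
  simp only [Pth_one, sg_zpow]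

theorem Psi_isUnit (ρ : Q → Q) (hrel : ∀ q, S.rel (ρ q) = S.rel q)
    (hvar : ∀ q, S.var (ρ q) = S.var q) (s : ℂ) (X : S.KA) (hX : IsUnit X) :
    IsUnit (Psi S ρ (s, X)) := by
  have hX' : ∀ i, IsUnit (X i) := Pi.isUnit_iff.1 hX
  apply Pi.isUnit_iff.2
  intro x
  unfold Psi
  have : ∀ L : List Q, IsUnit ((L.map (fun q => fac S x ρ q (s, X))).prod) := by
    intro L
    induction L with
    | nil => simp
    | cons q L ih =>
      rw [List.map_cons, List.prod_cons]
      refine IsUnit.mul ?_ ih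
      unfold fac
      split_ifs with h1 h2
      · exact isUnit_elem _ (Pth_isometry ρ hrel hvar q h1 s) _ (hX' _)
      · refine isUnit_elem _ (Pth_isometry ρ hrel hvar q h1 s) _ ?_
        obtain ⟨u, hu⟩ := hX' (S.rel q)
        change IsUnit (Ring.inverse (X (S.rel q)))
        rw [← hu, Ring.inverse_unit]
        exact u⁻¹.isUnit
      · exact isUnit_one
  exact this _

/-- smoothness of a linear map between matrix spaces -/
theorem contDiff_linear {m n : Type} [Fintype m] [DecidableEq m] [Fintype n] [DecidableEq n]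
    (T : Matrix n n ℂ →ₗ[ℂ] Matrix m m ℂ) {k : WithTop ℕ∞} : ContDiff ℂ k T := by
  have : (T : Matrix n n ℂ → Matrix m m ℂ) = (LinearMap.toContinuousLinearMap T) := by
    funext; simp
  rw [this]
  exact ContinuousLinearMap.contDiff _

/-- the linear map `Y ↦ P * Y * R` -/
def sandwich {m n : Type} [Fintype m] [DecidableEq m] [Fintype n] [DecidableEq n]
    (P : Matrix m n ℂ) (R : Matrix n m ℂ) : Matrix n n ℂ →ₗ[ℂ] Matrix m m ℂ where
  toFun Y := P * Y * R
  map_add' Y Z := by rw [Matrix.mul_add, Matrix.add_mul]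
  map_smul' c Y := by simp

theorem fac_contDiffAt (x : ι) (ρ : Q → Q) (q : Q) (s : ℂ) (X : S.KA) (hX : IsUnit X) :
    ContDiffAt ℂ ⊤ (fac S x ρ q) (s, X) := by
  have hX' : ∀ i, IsUnit (X i) := Pi.isUnit_iff.1 hX
  by_cases hv : S.var q = x
  swap
  · have : fac S x ρ q = fun _ => 1 := by funext z; unfold fac; rw [if_neg hv]
    rw [this]; exact contDiffAt_const
  -- the middle factor
  have hpr : ContDiffAt ℂ ⊤ (fun z : ℂ × S.KA => z.2 (S.rel q)) (s, X) := by
    have h1 : ContDiff ℂ ⊤ (fun z : ℂ × S.KA => z.2) := contDiff_snd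
    have h2 : ContDiff ℂ ⊤ (fun y : S.KA => y (S.rel q)) :=
      (ContinuousLinearMap.proj (R := ℂ) (φ := fun i => Matrix (S.Fa i) (S.Fa i) ℂ)
        (S.rel q)).contDiff
    exact (h2.comp h1).contDiffAt
  have hmid : ContDiffAt ℂ ⊤ (fun z : ℂ × S.KA =>
      (if S.pos q then z.2 (S.rel q) else Ring.inverse (z.2 (S.rel q))) - 1) (s, X) := by
    split_ifs with h
    · exact hpr.sub contDiffAt_const
    · refine ContDiffAt.sub ?_ contDiffAt_const
      obtain ⟨u, hu⟩ := hX' (S.rel q)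
      have : CompleteSpace (Matrix (S.Fa (S.rel q)) (S.Fa (S.rel q)) ℂ) :=
        FiniteDimensional.complete ℂ _
      have h3 : ContDiffAt ℂ ⊤ Ring.inverse (u : Matrix (S.Fa (S.rel q)) (S.Fa (S.rel q)) ℂ) :=
        contDiffAt_ringInverse ℂ u
      rw [hu] at h3
      exact ContDiffAt.comp (s, X) h3 hpr
  set M : ℂ × S.KA → Matrix (S.Fa (S.rel q)) (S.Fa (S.rel q)) ℂ := fun z =>
      (if S.pos q then z.2 (S.rel q) else Ring.inverse (z.2 (S.rel q))) - 1 with hM
  have hlin : ∀ T : Matrix (S.Fa (S.rel q)) (S.Fa (S.rel q)) ℂ →ₗ[ℂ]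
      Matrix (S.Po x) (S.Po x) ℂ, ContDiffAt ℂ ⊤ (fun z => T (M z)) (s, X) := by
    intro T
    exact (contDiff_linear T).contDiffAt.comp (s, X) hmid
  have hcos : ContDiffAt ℂ ⊤ (fun z : ℂ × S.KA => Complex.cos (z.1 * (Real.pi / 2))) (s, X) :=
    (Complex.contDiff_cos.comp (contDiff_fst.mul contDiff_const)).contDiffAt
  have hsin : ContDiffAt ℂ ⊤ (fun z : ℂ × S.KA => Complex.sin (z.1 * (Real.pi / 2))) (s, X) :=
    (Complex.contDiff_sin.comp (contDiff_fst.mul contDiff_const)).contDiffAt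
  by_cases hρ : ρ q = q
  · have : fac S x ρ q = fun z => 1 +
        sandwich (inc S x (S.rel q) q) (inc S x (S.rel q) q)ᵀ (M z) := by
      funext z
      unfold fac
      rw [if_pos hv]
      unfold Pth
      rw [if_pos hρ]
      rfl
    rw [this]
    exact contDiffAt_const.add (hlin _)
  · have : fac S x ρ q = fun z => 1 +
        ((Complex.cos (z.1 * (Real.pi / 2)) * Complex.cos (z.1 * (Real.pi / 2))) •
          sandwich (inc S x (S.rel q) q) (inc S x (S.rel q) q)ᵀ (M z) +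
        (Complex.cos (z.1 * (Real.pi / 2)) * Complex.sin (z.1 * (Real.pi / 2))) •
          sandwich (inc S x (S.rel q) q) (inc S x (S.rel q) (ρ q))ᵀ (M z) +
        (Complex.sin (z.1 * (Real.pi / 2)) * Complex.cos (z.1 * (Real.pi / 2))) •
          sandwich (inc S x (S.rel q) (ρ q)) (inc S x (S.rel q) q)ᵀ (M z) +
        (Complex.sin (z.1 * (Real.pi / 2)) * Complex.sin (z.1 * (Real.pi / 2))) •
          sandwich (inc S x (S.rel q) (ρ q)) (inc S x (S.rel q) (ρ q))ᵀ (M z)) := by
      funext z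
      unfold fac
      rw [if_pos hv]
      unfold Pth
      rw [if_neg hρ]
      congr 1
      change (Complex.cos (z.1 * (Real.pi / 2)) • inc S x (S.rel q) q +
          Complex.sin (z.1 * (Real.pi / 2)) • inc S x (S.rel q) (ρ q)) * M z *
          (Complex.cos (z.1 * (Real.pi / 2)) • inc S x (S.rel q) q +
          Complex.sin (z.1 * (Real.pi / 2)) • inc S x (S.rel q) (ρ q))ᵀ = _
      simp only [sandwich, LinearMap.coe_mk, AddHom.coe_mk, Matrix.transpose_add,
        Matrix.transpose_smul, Matrix.add_mul, Matrix.mul_add, Matrix.smul_mul, Matrix.mul_smul,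
        smul_smul, smul_add]
      rw [mul_comm (Complex.sin (z.1 * (Real.pi / 2))) (Complex.cos (z.1 * (Real.pi / 2)))]
      abel
    rw [this]
    refine contDiffAt_const.add ?_
    refine ((ContDiffAt.add ?_ ?_).add ?_).add ?_
    · exact (hcos.mul hcos).smul (hlin _)
    · exact (hcos.mul hsin).smul (hlin _)
    · exact (hsin.mul hcos).smul (hlin _)
    · exact (hsin.mul hsin).smul (hlin _)

theorem Psi_contDiffAt (ρ : Q → Q) (s : ℂ) (X : S.KA) (hX : IsUnit X) :
    ContDiffAt ℂ ⊤ (Psi S ρ) (s, X) := by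
  apply contDiffAt_pi.2
  intro x
  unfold Psi
  have : ∀ L : List Q, ContDiffAt ℂ ⊤ (fun z => (L.map (fun q => fac S x ρ q z)).prod)
      (s, X) := by
    intro L
    induction L with
    | nil => simp only [List.map_nil, List.prod_nil]; exact contDiffAt_const
    | cons q L ih =>
      simp only [List.map_cons, List.prod_cons]
      exact (fac_contDiffAt x ρ q s X hX).mul ih
  exact this _

/-- **Block G4a.** -/
theorem T3a_of_T1 (S : Sys ι A Q) (h1 : T1 S.KA S.VA)
    (h0 : ∀ ξ : S.KA, LinearMap.trace ℂ S.KA (LinearMap.mulLeft ℂ ξ - LinearMap.mulRight ℂ ξ) = 0) :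
    T3a S := by
  intro q0 hq R
  have h := h1 h0 (S.refR q0 hq) (Psi S R.r)
    (fun s _ σ hσ => Psi_contDiffAt R.r s σ (isUnit_of_unitary hσ))
    (fun s _ σ hσ => Psi_isUnit R.r R.rel_r R.var_r s σ (isUnit_of_unitary hσ))
  rw [DD_congr (S.refR q0 hq) (fun X => Psi S R.r (0, X)) S.Jm, DD_congr (S.refR q0 hq)
    (fun X => Psi S R.r (1, X)) (Phi1 R)] at h
  · exact h
  · intro σ hσ
    filter_upwards [eventually_isUnit hσ] with X hX
    exact Psi_one R X hX
  · intro σ hσ
    filter_upwards [eventually_isUnit hσ] with X hX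
    exact Psi_zero R.r X hX

end Crest.Agent.R174.G4a
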