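import Crest.Agent.R174.GRDefs
import Mathlib
import Crest.Agent.R174.GREmb
import Crest.Agent.R174.GRLocDef

-- ▼ part R174/GRDelta
section

/-! # R174 P3: compactness (uniform arc) and orthogonality choice. -/

set_option autoImplicit false
open scoped Matrix.Norms.L2Operator

namespace Crest.Agent.R174.GR.Delta

open Crest.Agent.R174.GR

section onematrix

variable {N : Type} [Fintype N] [DecidableEq N]

/-- multiplicity of the eigenvalue one -/
theorem card_le_finrank_ker (Z W : Matrix N N ℂ) (hW : W ∈ unitary (Matrix N N ℂ)) (d : N → ℂ)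
    (hZ : Z = W * Matrix.diagonal d * star W) (T : Finset N) (hT : ∀ j ∈ T, d j = 1) :
    T.card ≤ Module.finrank ℂ (LinearMap.ker (Matrix.mulVecLin (Z - 1))) := by
  classical
  have hW1 : star W * W = 1 := (Unitary.mem_iff.1 hW).1
  have hW2 : W * star W = 1 := (Unitary.mem_iff.1 hW).2
  have hker : ∀ j ∈ T, W.col j ∈ LinearMap.ker (Matrix.mulVecLin (Z - 1)) := by
    intro j hj
    have e1 : W.col j = W.mulVec (Pi.single j 1) := by
      ext i; simp [Matrix.col]
    rw [LinearMap.mem_ker, Matrix.mulVecLin_apply, e1, Matrix.mulVec_mulVec]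
    have e2 : (Z - 1) * W = W * (Matrix.diagonal d - 1) := by
      rw [hZ, sub_mul, mul_sub, Matrix.mul_assoc, Matrix.mul_assoc, hW1]
      simp [Matrix.mul_assoc]
    rw [e2, ← Matrix.mulVec_mulVec]
    have e3 : (Matrix.diagonal d - 1 : Matrix N N ℂ).mulVec (Pi.single j 1) = 0 := by
      rw [Matrix.sub_mulVec, Matrix.one_mulVec]
      ext i
      rw [Pi.sub_apply, Matrix.mulVec_diagonal]
      by_cases hij : i = j
      · subst hij; simp [hT i hj]
      · simp [Pi.single_apply, hij]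
    rw [e3, Matrix.mulVec_zero]
  have hdet : W.det ≠ 0 := by
    intro h0
    have : (W * star W).det = 0 := by rw [Matrix.det_mul, h0, zero_mul]
    rw [hW2, Matrix.det_one] at this
    exact one_ne_zero this
  have hli : LinearIndependent ℂ W.col := Matrix.linearIndependent_cols_of_det_ne_zero hdet
  have hli2 : LinearIndependent ℂ (fun j : T => W.col j.1) := hli.comp _ Subtype.val_injective
  have hli3 : LinearIndependent ℂ
      (fun j : T => (⟨W.col j.1, hker j.1 j.2⟩ : LinearMap.ker (Matrix.mulVecLin (Z - 1)))) := by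
    apply LinearIndependent.of_comp (LinearMap.ker (Matrix.mulVecLin (Z - 1))).subtype
    exact hli2
  have := hli3.fintype_card_le_finrank
  simpa using this

end onematrix

section sys

variable {ι A Q : Type} [Fintype ι] [LinearOrder ι] [Fintype A] [DecidableEq A]
  [Fintype Q] [DecidableEq Q]

theorem exists_delta (S : Sys ι A Q) (R : UG S.KA → S.VA) (hR : Continuous R)
    (hker : ∀ σ : UG S.KA, ∃ x : ι,
      Module.finrank ℂ (LinearMap.ker (Matrix.mulVecLin (R σ x - 1))) < Fintype.card (S.Fa x)) :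
    ∃ δ : ℝ, 0 < δ ∧ ∀ (σ : UG S.KA) (W : UG S.VA) (d : (x : ι) → S.Po x → ℂ),
      (∀ x j, ‖d x j‖ = 1) → (∀ x, R σ x = W.val x * Matrix.diagonal (d x) * star (W.val x)) →
      ∃ x, (Finset.univ.filter (fun j => ‖d x j - 1‖ < δ)).card < Fintype.card (S.Fa x) := by
  classical
  let P : Type := UG S.KA × UG S.VA × ((x : ι) → S.Po x → Metric.sphere (0 : ℂ) 1)
  let CC : Set P := {p | ∀ x, R p.1 x =
      p.2.1.val x * Matrix.diagonal (fun j => (p.2.2 x j : ℂ)) * star (p.2.1.val x)}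
  have hclosed : IsClosed CC := by
    have : CC = ⋂ x, {p : P | R p.1 x =
      p.2.1.val x * Matrix.diagonal (fun j => (p.2.2 x j : ℂ)) * star (p.2.1.val x)} := by
      ext p; simp [CC]
    rw [this]
    refine isClosed_iInter fun x => isClosed_eq ?_ ?_
    · exact (continuous_apply x).comp (hR.comp continuous_fst)
    · have h1 : Continuous fun p : P => p.2.1.val x :=
        (continuous_apply x).comp (UG.continuous_val.comp (continuous_fst.comp continuous_snd))
      have h2 : Continuous fun p : P => Matrix.diagonal (fun j => (p.2.2 x j : ℂ)) := by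
        refine Continuous.matrix_diagonal ?_
        refine continuous_pi fun j => ?_
        exact continuous_subtype_val.comp ((continuous_apply j).comp
          ((continuous_apply x).comp (continuous_snd.comp continuous_snd)))
      exact (h1.mul h2).mul h1.star
  have hcompact : IsCompact CC := hclosed.isCompact
  -- for every selection of finsets of the right size the sum of distances is bounded below
  have key : ∀ T : (x : ι) → Finset (S.Po x), (∀ x, (T x).card = Fintype.card (S.Fa x)) →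
      ∃ m : ℝ, 0 < m ∧ ∀ p ∈ CC, m ≤ ∑ x, ∑ j ∈ T x, ‖(p.2.2 x j : ℂ) - 1‖ := by
    intro T hT
    rcases CC.eq_empty_or_nonempty with hE | hne
    · exact ⟨1, one_pos, by simp [hE]⟩
    let g : P → ℝ := fun p => ∑ x, ∑ j ∈ T x, ‖(p.2.2 x j : ℂ) - 1‖
    have hg : Continuous g := by
      refine continuous_finset_sum _ fun x _ => continuous_finset_sum _ fun j _ => ?_
      refine Continuous.norm (Continuous.sub ?_ continuous_const)
      exact continuous_subtype_val.comp ((continuous_apply j).comp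
          ((continuous_apply x).comp (continuous_snd.comp continuous_snd)))
    obtain ⟨p0, hp0, hmin⟩ := hcompact.exists_isMinOn hne hg.continuousOn
    refine ⟨g p0, ?_, fun p hp => hmin hp⟩
    have hnn : 0 ≤ g p0 := Finset.sum_nonneg fun x _ => Finset.sum_nonneg fun j _ => norm_nonneg _
    rcases hnn.lt_or_eq with h | h
    · exact h
    exfalso
    obtain ⟨x, hx⟩ := hker p0.1
    have h1 : ∑ j ∈ T x, ‖(p0.2.2 x j : ℂ) - 1‖ = 0 :=
      (Finset.sum_eq_zero_iff_of_nonneg (fun x _ => Finset.sum_nonneg fun j _ => norm_nonneg _)).1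
        h.symm x (Finset.mem_univ x)
    have h2 : ∀ j ∈ T x, (p0.2.2 x j : ℂ) = 1 := by
      intro j hj
      have := (Finset.sum_eq_zero_iff_of_nonneg (fun j _ => norm_nonneg _)).1 h1 j hj
      rwa [norm_eq_zero, sub_eq_zero] at this
    have hWx : p0.2.1.val x ∈ unitary (Matrix (S.Po x) (S.Po x) ℂ) := by
      have := p0.2.1.val_mem
      rw [Unitary.mem_iff] at this ⊢
      exact ⟨congrFun this.1 x, congrFun this.2 x⟩
    have h3 := card_le_finrank_ker (R p0.1 x) (p0.2.1.val x) hWx (fun j => (p0.2.2 x j : ℂ))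
      (hp0 x) (T x) h2
    rw [hT x] at h3
    exact absurd hx (not_lt.2 h3)
  -- a uniform lower bound
  have hunif : ∃ m : ℝ, 0 < m ∧ ∀ T : (x : ι) → Finset (S.Po x),
      (∀ x, (T x).card = Fintype.card (S.Fa x)) →
      ∀ p ∈ CC, m ≤ ∑ x, ∑ j ∈ T x, ‖(p.2.2 x j : ℂ) - 1‖ := by
    have hch : ∀ T : (x : ι) → Finset (S.Po x), ∃ m : ℝ, 0 < m ∧
        ((∀ x, (T x).card = Fintype.card (S.Fa x)) →
          ∀ p ∈ CC, m ≤ ∑ x, ∑ j ∈ T x, ‖(p.2.2 x j : ℂ) - 1‖) := by
      intro T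
      by_cases h : ∀ x, (T x).card = Fintype.card (S.Fa x)
      · obtain ⟨m, hm, h'⟩ := key T h
        exact ⟨m, hm, fun _ => h'⟩
      · exact ⟨1, one_pos, fun h' => absurd h' h⟩
    choose m hm hm2 using hch
    have hne : (Finset.univ : Finset ((x : ι) → Finset (S.Po x))).Nonempty :=
      ⟨fun _ => ∅, Finset.mem_univ _⟩
    refine ⟨Finset.univ.inf' hne m, (Finset.lt_inf'_iff hne).2 fun T _ => hm T, ?_⟩
    intro T hT p hp
    exact (Finset.inf'_le m (Finset.mem_univ T)).trans (hm2 T hT p hp)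
  obtain ⟨m, hm, hmT⟩ := hunif
  set B : ℝ := 1 + ∑ x : ι, (Fintype.card (S.Po x) : ℝ) with hB
  have hBpos : 0 < B := by positivity
  refine ⟨m / B, by positivity, ?_⟩
  intro σ W d hd hdiag
  by_contra hcon
  push Not at hcon
  have hsel : ∀ x, ∃ T : Finset (S.Po x), (∀ j ∈ T, ‖d x j - 1‖ < m / B) ∧
      T.card = Fintype.card (S.Fa x) := by
    intro x
    obtain ⟨T, hT1, hT2⟩ := Finset.exists_subset_card_eq (hcon x)
    exact ⟨T, fun j hj => (Finset.mem_filter.1 (hT1 hj)).2, hT2⟩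
  choose T hT1 hT2 using hsel
  let p : P := ⟨σ, W, fun x j => ⟨d x j, by rw [mem_sphere_zero_iff_norm]; exact hd x j⟩⟩
  have hp : p ∈ CC := hdiag
  have h1 := hmT T hT2 p hp
  have h2 : ∑ x, ∑ j ∈ T x, ‖(p.2.2 x j : ℂ) - 1‖ ≤ ∑ x : ι, (Fintype.card (S.Po x) : ℝ) * (m / B) := by
    refine Finset.sum_le_sum fun x _ => ?_
    calc ∑ j ∈ T x, ‖(p.2.2 x j : ℂ) - 1‖ ≤ ∑ j ∈ T x, m / B :=
          Finset.sum_le_sum fun j hj => (hT1 x j hj).le
      _ = (T x).card * (m / B) := by rw [Finset.sum_const, nsmul_eq_mul]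
      _ ≤ (Fintype.card (S.Po x) : ℝ) * (m / B) := by
          gcongr
          exact Finset.card_le_univ _
  rw [← Finset.sum_mul] at h2
  have h3 : (∑ x : ι, (Fintype.card (S.Po x) : ℝ)) * (m / B) < m := by
    have : (∑ x : ι, (Fintype.card (S.Po x) : ℝ)) = B - 1 := by rw [hB]; ring
    rw [this]
    have : (B - 1) * (m / B) = m - m / B := by field_simp
    rw [this]
    have : 0 < m / B := by positivity
    linarith
  linarith

end sys

/-- A nonzero vector supported on `F` (via `r`) orthogonal to fewer than `card F` conditions. -/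
theorem exists_orth {F N : Type} [Fintype F] [DecidableEq F] [Fintype N] [DecidableEq N]
    (r : F → N) (Y : Matrix N N ℂ) (T : Finset N) (hT : T.card < Fintype.card F) :
    ∃ c : F → ℂ, dotProduct (star c) c = 1 ∧
      ∀ j ∈ T, (∑ a, Y j (r a) * c a) = 0 := by
  classical
  let f : (F → ℂ) →ₗ[ℂ] (T → ℂ) :=
    { toFun := fun c j => ∑ a, Y j.1 (r a) * c a
      map_add' := by
        intro x y; funext j; simp [mul_add, Finset.sum_add_distrib]
      map_smul' := by
        intro s x; funext j; simp [Finset.mul_sum]; refine Finset.sum_congr rfl fun a _ => by ring }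
  have hlt : Module.finrank ℂ (T → ℂ) < Module.finrank ℂ (F → ℂ) := by simpa using hT
  have hne := LinearMap.ker_ne_bot_of_finrank_lt (f := f) hlt
  obtain ⟨v, hv, hv0⟩ := (Submodule.ne_bot_iff _).1 hne
  have hv' : ∀ j ∈ T, (∑ a, Y j (r a) * v a) = 0 := fun j hj => congrFun (LinearMap.mem_ker.1 hv) ⟨j, hj⟩
  have hpos : 0 < ∑ a, ‖v a‖ ^ 2 := by
    have hnn : 0 ≤ ∑ a, ‖v a‖ ^ 2 := Finset.sum_nonneg fun a _ => by positivity
    rcases hnn.lt_or_eq with h | h
    · exact h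
    exfalso
    apply hv0
    funext a
    have := (Finset.sum_eq_zero_iff_of_nonneg (fun a _ => by positivity)).1 h.symm a
      (Finset.mem_univ a)
    simpa using this
  set s : ℝ := Real.sqrt (∑ a, ‖v a‖ ^ 2) with hs
  have hspos : 0 < s := Real.sqrt_pos.2 hpos
  have hs2 : s ^ 2 = ∑ a, ‖v a‖ ^ 2 := Real.sq_sqrt hpos.le
  refine ⟨fun a => (s : ℂ)⁻¹ * v a, ?_, ?_⟩
  · have h1 : dotProduct (star fun a => (s : ℂ)⁻¹ * v a) (fun a => (s : ℂ)⁻¹ * v a)
        = ∑ a, (s : ℂ)⁻¹ ^ 2 * ((‖v a‖ ^ 2 : ℝ) : ℂ) := by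
      unfold dotProduct
      refine Finset.sum_congr rfl fun a _ => ?_
      simp only [Pi.star_apply, star_mul', RCLike.star_def, map_inv₀, Complex.conj_ofReal]
      have : (starRingEnd ℂ) (v a) * v a = ((‖v a‖ ^ 2 : ℝ) : ℂ) := by
        rw [mul_comm, Complex.mul_conj, Complex.normSq_eq_norm_sq]
      calc (s : ℂ)⁻¹ * (starRingEnd ℂ) (v a) * ((s : ℂ)⁻¹ * v a)
          = (s : ℂ)⁻¹ ^ 2 * ((starRingEnd ℂ) (v a) * v a) := by ring
        _ = _ := by rw [this]
    rw [h1, ← Finset.mul_sum, ← Complex.ofReal_sum, ← hs2]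
    have : (s : ℂ) ≠ 0 := by exact_mod_cast hspos.ne'
    push_cast
    field_simp
  · intro j hj
    have : (∑ a, Y j (r a) * ((s : ℂ)⁻¹ * v a)) = (s : ℂ)⁻¹ * ∑ a, Y j (r a) * v a := by
      rw [Finset.mul_sum]; refine Finset.sum_congr rfl fun a _ => by ring
    rw [this, hv' j hj, mul_zero]

end Crest.Agent.R174.GR.Delta
end

-- ▼ part R174/GRDetSmall2
section

/-! # R174 P3, G7b: a linear endomorphism with one almost vanishing functional has small determinant,
quantitative version. -/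

set_option autoImplicit false

namespace Crest.Agent.R174.GRDetSmall

variable {E : Type*} [NormedAddCommGroup E] [NormedSpace ℂ E] [FiniteDimensional ℂ E]

/-- `|det L| ≤ K B^n` if `‖L ξ‖ ≤ B ‖ξ‖`. -/
theorem det_bound : ∃ K : ℝ, 0 < K ∧ ∀ (B : ℝ), 0 < B → ∀ (L : E →ₗ[ℂ] E),
    (∀ ξ, ‖L ξ‖ ≤ B * ‖ξ‖) → ‖LinearMap.det L‖ ≤ K * B ^ (Module.finrank ℂ E) := by
  classical
  have hprop : ProperSpace (E →L[ℂ] E) := FiniteDimensional.proper ℂ _
  have hcomp : IsCompact (Metric.closedBall (0 : E →L[ℂ] E) 1) := isCompact_closedBall _ _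
  have hcont : Continuous fun f : E →L[ℂ] E => f.det := ContinuousLinearMap.continuous_det
  obtain ⟨K, hK⟩ := hcomp.exists_bound_of_continuousOn hcont.continuousOn
  refine ⟨|K| + 1, by positivity, ?_⟩
  intro B hB L hL
  let L1 : E →ₗ[ℂ] E := ((B : ℂ)⁻¹) • L
  have hBc : (B : ℂ) ≠ 0 := by exact_mod_cast hB.ne'
  have hL1 : L = (B : ℂ) • L1 := by
    simp only [L1, smul_smul]
    rw [mul_inv_cancel₀ hBc, one_smul]
  have hn : ‖LinearMap.toContinuousLinearMap L1‖ ≤ 1 := by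
    refine ContinuousLinearMap.opNorm_le_bound _ zero_le_one fun ξ => ?_
    have : (LinearMap.toContinuousLinearMap L1) ξ = (B : ℂ)⁻¹ • L ξ := rfl
    rw [this, norm_smul, norm_inv, Complex.norm_real, Real.norm_of_nonneg hB.le, one_mul]
    calc B⁻¹ * ‖L ξ‖ ≤ B⁻¹ * (B * ‖ξ‖) := by gcongr; exact hL ξ
      _ = ‖ξ‖ := by field_simp
  have h1 : ‖LinearMap.det L1‖ ≤ |K| + 1 := by
    have := hK (LinearMap.toContinuousLinearMap L1) (by rw [mem_closedBall_zero_iff]; exact hn)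
    have h2 : (LinearMap.toContinuousLinearMap L1).det = LinearMap.det L1 := rfl
    rw [h2] at this
    exact this.trans ((le_abs_self K).trans (by linarith))
  rw [hL1, LinearMap.det_smul, norm_mul, norm_pow, Complex.norm_real, Real.norm_of_nonneg hB.le,
    mul_comm]
  gcongr

/-- `|det L| ≤ K B^(n-1) b` if in addition one functional is small on the range. -/
theorem det_small2 (C' : ℝ) : ∃ K : ℝ, 0 < K ∧ ∀ (B b : ℝ), 0 < B → 0 < b →
    ∀ (L : E →ₗ[ℂ] E) (l : E →ₗ[ℂ] ℂ) (e : E),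
    (∀ ξ, ‖L ξ‖ ≤ B * ‖ξ‖) → l e = 1 → ‖e‖ ≤ C' → (∀ ξ, ‖l (L ξ)‖ ≤ b * ‖ξ‖) →
    ‖LinearMap.det L‖ * B ≤ K * B ^ (Module.finrank ℂ E) * b := by
  classical
  obtain ⟨K, hK, hdet⟩ := det_bound (E := E)
  refine ⟨K * (1 + |C'|) ^ (Module.finrank ℂ E), by positivity, ?_⟩
  intro B b hB hb L l e hL hle he hsmall
  -- the transvection-like map
  let t : ℂ := ((B / b : ℝ) : ℂ)
  have htn : ‖t‖ = B / b := by
    simp only [t, Complex.norm_real]
    exact Real.norm_of_nonneg (by positivity)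
  let V : E →ₗ[ℂ] E := LinearMap.transvection (t • l) e
  have hV : LinearMap.det V = 1 + t := by
    simp only [V]
    rw [LinearMap.transvection.det, LinearMap.smul_apply, hle, smul_eq_mul, mul_one]
  have he' : ‖e‖ ≤ |C'| := he.trans (le_abs_self C')
  have hVL : ∀ ξ, ‖(V ∘ₗ L) ξ‖ ≤ (B * (1 + |C'|)) * ‖ξ‖ := by
    intro ξ
    have h1 : (V ∘ₗ L) ξ = L ξ + (t * l (L ξ)) • e := rfl
    rw [h1]
    calc ‖L ξ + (t * l (L ξ)) • e‖ ≤ ‖L ξ‖ + ‖(t * l (L ξ)) • e‖ := norm_add_le _ _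
      _ ≤ B * ‖ξ‖ + (B / b * (b * ‖ξ‖)) * |C'| := by
          rw [norm_smul, norm_mul, htn]
          gcongr
          · exact hL ξ
          · exact hsmall ξ
      _ = (B * (1 + |C'|)) * ‖ξ‖ := by field_simp
  have h2 := hdet (B * (1 + |C'|)) (by positivity) (V ∘ₗ L) hVL
  rw [LinearMap.det_comp, hV, norm_mul] at h2
  have h3 : B / b ≤ ‖1 + t‖ := by
    have : 1 + t = ((1 + B / b : ℝ) : ℂ) := by simp only [t]; push_cast; ring
    rw [this, Complex.norm_real, Real.norm_of_nonneg (by positivity)]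
    linarith
  have h4 : B / b * ‖LinearMap.det L‖ ≤ K * (B * (1 + |C'|)) ^ Module.finrank ℂ E :=
    (mul_le_mul_of_nonneg_right h3 (norm_nonneg _)).trans h2
  have h5 : ‖LinearMap.det L‖ * B = (B / b * ‖LinearMap.det L‖) * b := by field_simp
  rw [h5]
  calc (B / b * ‖LinearMap.det L‖) * b
      ≤ (K * (B * (1 + |C'|)) ^ Module.finrank ℂ E) * b := by gcongr
    _ = K * (1 + |C'|) ^ Module.finrank ℂ E * B ^ Module.finrank ℂ E * b := by
        rw [mul_pow]; ring

end Crest.Agent.R174.GRDetSmall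
end

-- ▼ part R174/GRT4
section

/-! # R174 P3: T4 (localisation) from T1 and the localisation data. -/

set_option autoImplicit false
open MeasureTheory
open scoped Matrix.Norms.L2Operator

noncomputable section

namespace Crest.Agent.R174.GR.T4P

open Crest.Agent.R174.GR Crest.Agent.R174.GRDetSmall

variable {ι A Q : Type} [Fintype ι] [LinearOrder ι] [Fintype A] [DecidableEq A]
  [Fintype Q] [DecidableEq Q]

/-- `Ring.inverse` in a product -/
theorem pi_ringInverse {κ : Type} {B : κ → Type} [∀ i, Ring (B i)] {X : (i : κ) → B i}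
    (hX : IsUnit X) (i : κ) : Ring.inverse X i = Ring.inverse (X i) := by
  obtain ⟨u, rfl⟩ := hX
  rw [Ring.inverse_unit]
  let v : (B i)ˣ := ⟨(u : (i : κ) → B i) i, ((u⁻¹ : ((i : κ) → B i)ˣ) : (i : κ) → B i) i,
    by have := congrFun u.mul_inv i; simpa using this,
    by have := congrFun u.inv_mul i; simpa using this⟩
  exact (Ring.inverse_unit v).symm

theorem pi_isUnit {κ : Type} {B : κ → Type} [∀ i, Ring (B i)] {X : (i : κ) → B i}
    (hX : ∀ i, IsUnit (X i)) : IsUnit X := by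
  choose u hu using hX
  refine ⟨⟨X, fun i => ((u i)⁻¹ : (B i)ˣ), ?_, ?_⟩, rfl⟩
  · funext i; simp [← hu i]
  · funext i; simp [← hu i]

theorem norm_unitary_le_one {B : Type} [NormedRing B] [StarRing B] [CStarRing B] {u : B}
    (hu : u ∈ unitary B) : ‖u‖ ≤ 1 := by
  rcases subsingleton_or_nontrivial B with h | h
  · simp [Subsingleton.elim u 0]
  · exact (CStarRing.norm_of_mem_unitary hu).le

/-- the quadratic form of a compression -/
theorem quad_compress {N F : Type} [Fintype N] [DecidableEq N] [Fintype F] [DecidableEq F]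
    (U Y : Matrix N N ℂ) (r : F → N) (c : F → ℂ) :
    dotProduct (star c) (((star U * Y * U).submatrix r r).mulVec c)
      = dotProduct (star ((U.submatrix id r).mulVec c)) (Y.mulVec ((U.submatrix id r).mulVec c)) := by
  have h1 : (star U * Y * U).submatrix r r
      = (U.submatrix id r).conjTranspose * Y * (U.submatrix id r) := by
    rw [← Matrix.submatrix_mul_equiv (star U * Y) U r (Equiv.refl N) r,
      ← Matrix.submatrix_mul_equiv (star U) Y r (Equiv.refl N) (Equiv.refl N)]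
    rfl
  rw [h1, ← Matrix.mulVec_mulVec, ← Matrix.mulVec_mulVec, Matrix.star_mulVec,
    Matrix.dotProduct_mulVec]

theorem sum_sq_compress {N F : Type} [Fintype N] [DecidableEq N] [Fintype F] [DecidableEq F]
    (U : Matrix N N ℂ) (hU : U ∈ unitary (Matrix N N ℂ)) (r : F → N) (hr : Function.Injective r)
    (c : F → ℂ) (hc : dotProduct (star c) c = 1) :
    ∑ j, ‖(U.submatrix id r).mulVec c j‖ ^ 2 = 1 := by
  have h := quad_compress U 1 r c
  rw [mul_one, (Unitary.mem_iff.1 hU).1, Matrix.one_mulVec] at h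
  have h1 : (1 : Matrix N N ℂ).submatrix r r = 1 := by
    ext a b
    rw [Matrix.submatrix_apply, Matrix.one_apply, Matrix.one_apply]
    simp [hr.eq_iff]
  rw [h1, Matrix.one_mulVec, hc] at h
  have h2 : dotProduct (star ((U.submatrix id r).mulVec c)) ((U.submatrix id r).mulVec c)
      = ((∑ j, ‖(U.submatrix id r).mulVec c j‖ ^ 2 : ℝ) : ℂ) := by
    unfold dotProduct
    push_cast
    refine Finset.sum_congr rfl fun j _ => ?_
    rw [Pi.star_apply, RCLike.star_def, mul_comm, Complex.mul_conj, Complex.normSq_eq_norm_sq]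
    push_cast; rfl
  rw [h2] at h
  exact_mod_cast h.symm

/-- quadratic functional on `KA` -/
def quadL (S : Sys ι A Q) (x : ι) (c : S.Fa x → ℂ) : S.KA →ₗ[ℂ] ℂ where
  toFun Y := dotProduct (star c) ((Y x).mulVec c)
  map_add' Y Z := by rw [Pi.add_apply, Matrix.add_mulVec, dotProduct_add]
  map_smul' r Y := by rw [Pi.smul_apply, Matrix.smul_mulVec, dotProduct_smul]; rfl

theorem exists_e (S : Sys ι A Q) : ∃ C' : ℝ, ∀ (x : ι) (c : S.Fa x → ℂ),
    dotProduct (star c) c = 1 → ∃ e : S.KA, quadL S x c e = 1 ∧ ‖e‖ ≤ C' := by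
  classical
  refine ⟨∑ x : ι, ∑ a : S.Fa x, ∑ b : S.Fa x, ‖(Matrix.single a b (1:ℂ))‖, ?_⟩
  intro x c hc
  have hcn : ∀ a, ‖c a‖ ≤ 1 := by
    intro a
    have h2 : dotProduct (star c) c = ((∑ j, ‖c j‖ ^ 2 : ℝ) : ℂ) := by
      unfold dotProduct
      push_cast
      refine Finset.sum_congr rfl fun j _ => ?_
      rw [Pi.star_apply, RCLike.star_def, mul_comm, Complex.mul_conj, Complex.normSq_eq_norm_sq]
      push_cast; rfl
    rw [h2] at hc
    have h3 : (∑ j, ‖c j‖ ^ 2 : ℝ) = 1 := by exact_mod_cast hc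
    have h4 : ‖c a‖ ^ 2 ≤ 1 := by
      rw [← h3]
      exact Finset.single_le_sum (f := fun j => ‖c j‖ ^ 2) (fun j _ => by positivity)
        (Finset.mem_univ a)
    nlinarith [norm_nonneg (c a)]
  refine ⟨Pi.single x (Matrix.vecMulVec c (star c)), ?_, ?_⟩
  · change dotProduct (star c) (((Pi.single x (Matrix.vecMulVec c (star c)) : S.KA) x).mulVec c) = 1
    rw [Pi.single_eq_same, Matrix.vecMulVec_mulVec]
    simp [hc]
  · have h1 : ‖Matrix.vecMulVec c (star c)‖
        ≤ ∑ a : S.Fa x, ∑ b : S.Fa x, ‖(Matrix.single a b (1:ℂ))‖ := by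
      have : Matrix.vecMulVec c (star c)
          = ∑ a, ∑ b, (c a * star (c b)) • (Matrix.single a b (1:ℂ)) := by
        conv_lhs => rw [Matrix.matrix_eq_sum_single (Matrix.vecMulVec c (star c))]
        refine Finset.sum_congr rfl fun a _ => Finset.sum_congr rfl fun b _ => ?_
        rw [Matrix.smul_single, smul_eq_mul, mul_one]
        rfl
      rw [this]
      refine (norm_sum_le _ _).trans (Finset.sum_le_sum fun a _ => ?_)
      refine (norm_sum_le _ _).trans (Finset.sum_le_sum fun b _ => ?_)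
      rw [norm_smul, norm_mul, norm_star]
      have h5 := mul_le_mul (hcn a) (hcn b) (norm_nonneg _) zero_le_one
      rw [one_mul] at h5
      exact (mul_le_mul_of_nonneg_right h5 (norm_nonneg _)).trans (one_mul _).le
    have h2 : (0:ℝ) ≤ ∑ x : ι, ∑ a : S.Fa x, ∑ b : S.Fa x, ‖(Matrix.single a b (1:ℂ))‖ :=
      Finset.sum_nonneg fun x _ => Finset.sum_nonneg fun a _ => Finset.sum_nonneg fun b _ =>
        norm_nonneg _
    rw [pi_norm_le_iff_of_nonneg h2]
    intro y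
    by_cases hy : y = x
    · subst hy
      rw [Pi.single_eq_same]
      refine h1.trans ?_
      exact Finset.single_le_sum
        (f := fun x : ι => ∑ a : S.Fa x, ∑ b : S.Fa x, ‖(Matrix.single a b (1:ℂ))‖)
        (fun x _ => Finset.sum_nonneg fun a _ => Finset.sum_nonneg fun b _ =>
        norm_nonneg _) (Finset.mem_univ y)
    · rw [Pi.single_eq_of_ne hy, norm_zero]; exact h2

/-- the map `R X = M* J(X)` -/
def Rm (S : Sys ι A Q) (M : S.VA) (X : S.KA) : S.VA := star M * S.Jm X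

theorem Rm_unitary (S : Sys ι A Q) {M : S.VA} (hM : M ∈ unitary S.VA) {X : S.KA}
    (hX : X ∈ unitary S.KA) : Rm S M X ∈ unitary S.VA :=
  mul_mem (Unitary.star_mem hM) (S.Jm_unitary hX)

theorem Rm_contDiffAt (S : Sys ι A Q) (M : S.VA) {X : S.KA} (hX : X ∈ unitary S.KA)
    (n : WithTop ℕ∞) : ContDiffAt ℂ n (Rm S M) X := by
  have h1 : ContDiffAt ℂ n S.Jm X :=
    S.Jm_contDiffAt n (fun i => isUnit_of_unitary (pi_unitary.1 hX i))
  exact contDiffAt_const.mul h1

theorem finrank_ker_eq {N : Type} [Fintype N] [DecidableEq N] (M J : Matrix N N ℂ)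
    (hM : M ∈ unitary (Matrix N N ℂ)) :
    LinearMap.ker (Matrix.mulVecLin (star M * J - 1)) = LinearMap.ker (Matrix.mulVecLin (J - M)) := by
  ext v
  rw [LinearMap.mem_ker, LinearMap.mem_ker, Matrix.mulVecLin_apply, Matrix.mulVecLin_apply]
  have h1 : star M * J - 1 = star M * (J - M) := by
    rw [mul_sub, (Unitary.mem_iff.1 hM).1]
  have h2 : J - M = M * (star M * J - 1) := by
    rw [mul_sub, ← mul_assoc, (Unitary.mem_iff.1 hM).2, one_mul, mul_one]
  constructor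
  · intro h
    rw [h2, ← Matrix.mulVec_mulVec, h, Matrix.mulVec_zero]
  · intro h
    rw [h1, ← Matrix.mulVec_mulVec, h, Matrix.mulVec_zero]

/-- norm bound of a compression operator -/
theorem Cop_bound {𝔸 𝕍 : Type} [NormedRing 𝔸] [StarRing 𝔸] [CStarRing 𝔸] [NormedAlgebra ℂ 𝔸]
    [StarModule ℂ 𝔸] [FiniteDimensional ℂ 𝔸]
    [NormedRing 𝕍] [StarRing 𝕍] [CStarRing 𝕍] [NormedAlgebra ℂ 𝕍]
    [StarModule ℂ 𝕍] [FiniteDimensional ℂ 𝕍] (ρ : 𝕍 →ₗ[ℂ] 𝔸) :
    ∃ C : ℝ, 0 < C ∧ ∀ U ∈ unitary 𝕍, ∀ Y, ‖Cop ρ U Y‖ ≤ C * ‖Y‖ := by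
  refine ⟨‖LinearMap.toContinuousLinearMap ρ‖ + 1, by positivity, ?_⟩
  intro U hU Y
  have h1 : Cop ρ U Y = (LinearMap.toContinuousLinearMap ρ) (star U * Y * U) := rfl
  rw [h1]
  have h2 : ‖star U * Y * U‖ ≤ ‖Y‖ := by
    have a1 := norm_unitary_le_one hU
    have a2 := norm_unitary_le_one (Unitary.star_mem hU)
    calc ‖star U * Y * U‖ ≤ ‖star U‖ * ‖Y‖ * ‖U‖ :=
          (norm_mul_le _ _).trans (by gcongr; exact norm_mul_le _ _)
      _ ≤ 1 * ‖Y‖ * 1 := by gcongr
      _ = ‖Y‖ := by ring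
  calc ‖(LinearMap.toContinuousLinearMap ρ) (star U * Y * U)‖
      ≤ ‖LinearMap.toContinuousLinearMap ρ‖ * ‖star U * Y * U‖ :=
        ContinuousLinearMap.le_opNorm _ _
    _ ≤ (‖LinearMap.toContinuousLinearMap ρ‖ + 1) * ‖Y‖ := by
        gcongr
        linarith

/-- uniform bound for `Aop` -/
theorem Aop_bound {𝔸 𝕍 : Type} [NormedRing 𝔸] [StarRing 𝔸] [CStarRing 𝔸] [NormedAlgebra ℂ 𝔸]
    [StarModule ℂ 𝔸] [FiniteDimensional ℂ 𝔸]
    [NormedRing 𝕍] [StarRing 𝕍] [CStarRing 𝕍] [NormedAlgebra ℂ 𝕍]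
    [StarModule ℂ 𝕍] [FiniteDimensional ℂ 𝕍] (Φ : 𝔸 → 𝕍)
    (hΦ : ∀ σ ∈ unitary 𝔸, ContDiffAt ℂ 1 Φ σ) (hΦu : ∀ σ ∈ unitary 𝔸, Φ σ ∈ unitary 𝕍) :
    ∃ C : ℝ, 0 < C ∧ ∀ σ ∈ unitary 𝔸, ∀ ξ, ‖Aop Φ σ ξ‖ ≤ C * ‖ξ‖ := by
  have hprop : ProperSpace 𝔸 := FiniteDimensional.proper ℂ _
  have hcomp : IsCompact (unitary 𝔸 : Set 𝔸) := by
    refine Metric.isCompact_of_isClosed_isBounded isClosed_unitary ?_
    refine (Metric.isBounded_closedBall (x := (0 : 𝔸)) (r := 1)).subset ?_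
    intro u hu
    rw [mem_closedBall_zero_iff]
    exact norm_unitary_le_one hu
  have hcont : ContinuousOn (fun σ => fderiv ℂ Φ σ) (unitary 𝔸 : Set 𝔸) := by
    intro σ hσ
    have h1 : ContDiffAt ℂ 1 Φ σ := hΦ σ hσ
    exact (h1.continuousAt_fderiv (by norm_num)).continuousWithinAt
  obtain ⟨C, hC⟩ := hcomp.exists_bound_of_continuousOn hcont
  refine ⟨|C| + 1, by positivity, ?_⟩
  intro σ hσ ξ
  change ‖fderiv ℂ Φ σ (ξ * σ) * Ring.inverse (Φ σ)‖ ≤ _
  have h1 : ‖Ring.inverse (Φ σ)‖ ≤ 1 := by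
    rw [ringInverse_unitary (hΦu σ hσ)]
    exact norm_unitary_le_one (Unitary.star_mem (hΦu σ hσ))
  have h2 : ‖ξ * σ‖ ≤ ‖ξ‖ := by
    calc ‖ξ * σ‖ ≤ ‖ξ‖ * ‖σ‖ := norm_mul_le _ _
      _ ≤ ‖ξ‖ * 1 := by gcongr; exact norm_unitary_le_one hσ
      _ = ‖ξ‖ := mul_one _
  calc ‖fderiv ℂ Φ σ (ξ * σ) * Ring.inverse (Φ σ)‖
      ≤ ‖fderiv ℂ Φ σ (ξ * σ)‖ * ‖Ring.inverse (Φ σ)‖ := norm_mul_le _ _
    _ ≤ (‖fderiv ℂ Φ σ‖ * ‖ξ * σ‖) * 1 := by
        gcongr
        exact ContinuousLinearMap.le_opNorm _ _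
    _ ≤ (|C| + 1) * ‖ξ‖ := by
        rw [mul_one]
        have := (hC σ hσ).trans (le_abs_self C)
        gcongr
        linarith

/-- component formula for a function applied componentwise to `R`. -/
theorem Aop_pi {𝔸 : Type} [NormedRing 𝔸] [NormedAlgebra ℂ 𝔸]
    {κ : Type} [Fintype κ] {B : κ → Type} [∀ i, NormedRing (B i)] [∀ i, NormedAlgebra ℂ (B i)]
    (R : 𝔸 → (i : κ) → B i) (h : (i : κ) → B i → B i) (σ : 𝔸)
    (hR : DifferentiableAt ℂ R σ) (hh : ∀ i, DifferentiableAt ℂ (h i) (R σ i))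
    (hRu : IsUnit (R σ)) (hhu : ∀ i, IsUnit (h i (R σ i))) (ξ : 𝔸) (i : κ) :
    Aop (fun X => (fun i => h i (R X i) : (i : κ) → B i)) σ ξ i
      = fderiv ℂ (h i) (R σ i) ((Aop R σ ξ) i * R σ i) * Ring.inverse (h i (R σ i)) := by
  have hRi : ∀ i, HasFDerivAt (fun X => R X i)
      ((ContinuousLinearMap.proj (R := ℂ) (φ := B) i).comp (fderiv ℂ R σ)) σ := by
    intro i
    exact (hasFDerivAt_pi'.1 hR.hasFDerivAt) i
  have hcomp : ∀ i, HasFDerivAt (fun X => h i (R X i))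
      ((fderiv ℂ (h i) (R σ i)).comp
        ((ContinuousLinearMap.proj (R := ℂ) (φ := B) i).comp (fderiv ℂ R σ))) σ := by
    intro i
    exact (hh i).hasFDerivAt.comp σ (hRi i)
  have hpi : HasFDerivAt (fun X => (fun i => h i (R X i) : (i : κ) → B i))
      (ContinuousLinearMap.pi fun i => (fderiv ℂ (h i) (R σ i)).comp
        ((ContinuousLinearMap.proj (R := ℂ) (φ := B) i).comp (fderiv ℂ R σ))) σ :=
    hasFDerivAt_pi.2 hcomp
  have hΦu : IsUnit (fun i => h i (R σ i) : (i : κ) → B i) := pi_isUnit hhu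
  have e1 : Aop (fun X => (fun i => h i (R X i) : (i : κ) → B i)) σ ξ
      = fderiv ℂ (fun X => (fun i => h i (R X i) : (i : κ) → B i)) σ (ξ * σ)
        * Ring.inverse (fun i => h i (R σ i) : (i : κ) → B i) := rfl
  have e2 : Aop R σ ξ * R σ = fderiv ℂ R σ (ξ * σ) := by
    change fderiv ℂ R σ (ξ * σ) * Ring.inverse (R σ) * R σ = _
    rw [mul_assoc, Ring.inverse_mul_cancel _ hRu, mul_one]
  have e3 : (Aop R σ ξ) i * R σ i = (fderiv ℂ R σ (ξ * σ)) i := congrFun e2 i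
  rw [e1, hpi.fderiv, Pi.mul_apply, pi_ringInverse hΦu, e3]
  rfl

end Crest.Agent.R174.GR.T4P
end
end

-- ▼ part R174/GRT4Main

/-! # R174 P3: T4 (localisation). -/

set_option autoImplicit false
open MeasureTheory
open scoped Matrix.Norms.L2Operator

noncomputable section

namespace Crest.Agent.R174.GR.T4P

open Crest.Agent.R174.GR Crest.Agent.R174.GRDetSmall Crest.Agent.R174.GR.Delta

variable {ι A Q : Type} [Fintype ι] [LinearOrder ι] [Fintype A] [DecidableEq A]
  [Fintype Q] [DecidableEq Q]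

/-- reference port -/
def rref (S : Sys ι A Q) (q0 : ι → Q) (hq : ∀ x, S.rel (q0 x) = x ∧ S.var (q0 x) = x) (x : ι)
    (a : S.Fa x) : S.Po x := ⟨(a.1, q0 x), by rw [(hq x).1]; exact a.2, (hq x).2⟩

theorem rref_inj (S : Sys ι A Q) (q0 : ι → Q) (hq : ∀ x, S.rel (q0 x) = x ∧ S.var (q0 x) = x)
    (x : ι) : Function.Injective (rref S q0 hq x) := by
  intro a b hab
  have := congrArg (fun p : S.Po x => p.1.1) hab
  exact Subtype.ext this

/-- pointwise bound of the integrand -/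
theorem pointwise (S : Sys ι A Q) (q0 : ι → Q) (hq : ∀ x, S.rel (q0 x) = x ∧ S.var (q0 x) = x)
    (M : S.VA) (hM : M ∈ unitary S.VA) (K δ B b : ℝ) (hB : 1 ≤ B) (hb : 0 ≤ b)
    (H : (x : ι) → ℂ × Matrix (S.Po x) (S.Po x) ℂ → Matrix (S.Po x) (S.Po x) ℂ)
    (hH : ∀ x, LocData (S.Po x) K δ B b (H x))
    (CR : ℝ) (hCR0 : 0 < CR)
    (hCR : ∀ σ ∈ unitary S.KA, ∀ ξ, ‖Aop (Rm S M) σ ξ‖ ≤ CR * ‖ξ‖)
    (Cr : ℝ) (hCr0 : 0 < Cr)
    (hCr : ∀ U ∈ unitary S.VA, ∀ Y, ‖Cop (S.refR q0 hq) U Y‖ ≤ Cr * ‖Y‖)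
    (σ : S.KA) (hσ : σ ∈ unitary S.KA) (U : S.VA) (hU : U ∈ unitary S.VA)
    (W : S.VA) (hW : W ∈ unitary S.VA) (d : (x : ι) → S.Po x → ℂ)
    (hdiag : ∀ x, Rm S M σ x = W x * Matrix.diagonal (d x) * star (W x))
    (x : ι) (hx : (Finset.univ.filter (fun j => ‖d x j - 1‖ < δ)).card < Fintype.card (S.Fa x)) :
    (∀ ξ, ‖(Cop (S.refR q0 hq) U ∘ₗ Aop (fun X => (fun x => H x (1, Rm S M X x) : S.VA)) σ) ξ‖
      ≤ (Cr * (|K| * CR) * B) * ‖ξ‖) ∧
    ∃ c : S.Fa x → ℂ, dotProduct (star c) c = 1 ∧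
      ∀ ξ, ‖quadL S x c
        ((Cop (S.refR q0 hq) U ∘ₗ Aop (fun X => (fun x => H x (1, Rm S M X x) : S.VA)) σ) ξ)‖
      ≤ (|K| * CR * b) * ‖ξ‖ := by
  classical
  have hR1 : ContDiffAt ℂ 1 (Rm S M) σ := Rm_contDiffAt S M hσ 1
  have hRd : DifferentiableAt ℂ (Rm S M) σ := hR1.differentiableAt (by norm_num)
  have hRu : Rm S M σ ∈ unitary S.VA := Rm_unitary S hM hσ
  have hRux : ∀ x, Rm S M σ x ∈ unitary (Matrix (S.Po x) (S.Po x) ℂ) := pi_unitary.1 hRu
  have hone : ((1 : ℝ) : ℂ) = 1 := Complex.ofReal_one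
  have hhd : ∀ x, DifferentiableAt ℂ (fun Z => H x (1, Z)) (Rm S M σ x) := by
    intro y
    have h1 := (hH y).smooth 1 ⟨zero_le_one, le_refl 1⟩ (Rm S M σ y) (hRux y)
    rw [hone] at h1
    have h2 : DifferentiableAt ℂ (H y) (1, Rm S M σ y) := h1.differentiableAt (by simp)
    exact h2.comp (Rm S M σ y) ((differentiableAt_const _).prodMk differentiableAt_id)
  have hhu : ∀ x, IsUnit (H x (1, Rm S M σ x)) := by
    intro y
    have h1 := (hH y).unit 1 ⟨zero_le_one, le_refl 1⟩ (Rm S M σ y) (hRux y)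
    rwa [hone] at h1
  have hform : ∀ (ξ : S.KA) (y : ι),
      Aop (fun X => (fun x => H x (1, Rm S M X x) : S.VA)) σ ξ y
      = fderiv ℂ (fun Z => H y (1, Z)) (Rm S M σ y) ((Aop (Rm S M) σ ξ) y * Rm S M σ y)
        * Ring.inverse (H y (1, Rm S M σ y)) := fun ξ y =>
    Aop_pi (Rm S M) (fun x Z => H x (1, Z)) σ hRd hhd (isUnit_of_unitary hRu) hhu ξ y
  have hAn : ∀ (ξ : S.KA) (y : ι), ‖(Aop (Rm S M) σ ξ) y‖ ≤ CR * ‖ξ‖ := fun ξ y =>
    (norm_le_pi_norm _ y).trans (hCR σ hσ ξ)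
  have hAn2 : ∀ ξ : S.KA, ‖Aop (fun X => (fun x => H x (1, Rm S M X x) : S.VA)) σ ξ‖
      ≤ (|K| * CR) * B * ‖ξ‖ := by
    intro ξ
    rw [pi_norm_le_iff_of_nonneg (by positivity)]
    intro y
    rw [hform ξ y]
    refine ((hH y).bound _ (hRux y) _).trans ?_
    calc K * B * ‖(Aop (Rm S M) σ ξ) y‖ ≤ |K| * B * (CR * ‖ξ‖) := by
          refine mul_le_mul ?_ (hAn ξ y) (norm_nonneg _) (by positivity)
          exact mul_le_mul_of_nonneg_right (le_abs_self K) (by linarith)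
      _ = (|K| * CR) * B * ‖ξ‖ := by ring
  refine ⟨?_, ?_⟩
  · intro ξ
    change ‖Cop (S.refR q0 hq) U (Aop (fun X => (fun x => H x (1, Rm S M X x) : S.VA)) σ ξ)‖ ≤ _
    refine (hCr U hU _).trans ?_
    calc Cr * ‖Aop (fun X => (fun x => H x (1, Rm S M X x) : S.VA)) σ ξ‖
        ≤ Cr * ((|K| * CR) * B * ‖ξ‖) := by gcongr; exact hAn2 ξ
      _ = (Cr * (|K| * CR) * B) * ‖ξ‖ := by ring
  · obtain ⟨c, hc1, hc2⟩ := exists_orth (rref S q0 hq x) (star (W x) * U x)
      (Finset.univ.filter (fun j => ‖d x j - 1‖ < δ)) hx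
    refine ⟨c, hc1, ?_⟩
    intro ξ
    set w : S.Po x → ℂ := ((U x).submatrix id (rref S q0 hq x)).mulVec c with hw
    have hUx : U x ∈ unitary (Matrix (S.Po x) (S.Po x) ℂ) := pi_unitary.1 hU x
    have hWx : W x ∈ unitary (Matrix (S.Po x) (S.Po x) ℂ) := pi_unitary.1 hW x
    have hwn : ∑ j, ‖w j‖ ^ 2 = 1 :=
      sum_sq_compress (U x) hUx (rref S q0 hq x) (rref_inj S q0 hq x) c hc1
    have hworth : ∀ j, ‖d x j - 1‖ < δ → (star (W x)).mulVec w j = 0 := by
      intro j hj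
      have h1 := hc2 j (Finset.mem_filter.2 ⟨Finset.mem_univ _, hj⟩)
      rw [hw, Matrix.mulVec_mulVec]
      have h2 : star (W x) * (U x).submatrix id (rref S q0 hq x)
          = (star (W x) * U x).submatrix id (rref S q0 hq x) := by
        rw [← Matrix.submatrix_mul_equiv (star (W x)) (U x) id (Equiv.refl _) (rref S q0 hq x)]
        rfl
      rw [h2]
      exact h1
    have e1 : quadL S x c
        ((Cop (S.refR q0 hq) U ∘ₗ Aop (fun X => (fun x => H x (1, Rm S M X x) : S.VA)) σ) ξ)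
        = dotProduct (star w)
          ((Aop (fun X => (fun x => H x (1, Rm S M X x) : S.VA)) σ ξ x).mulVec w) := by
      exact quad_compress (U x) (Aop (fun X => (fun x => H x (1, Rm S M X x) : S.VA)) σ ξ x)
        (rref S q0 hq x) c
    rw [e1, hform ξ x]
    refine ((hH x).small _ (hRux x) (W x) hWx (d x) (hdiag x) _ w hworth).trans ?_
    rw [hwn, mul_one]
    calc K * b * ‖(Aop (Rm S M) σ ξ) x‖ ≤ |K| * b * (CR * ‖ξ‖) := by
          refine mul_le_mul ?_ (hAn ξ x) (norm_nonneg _) (by positivity)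
          exact mul_le_mul_of_nonneg_right (le_abs_self K) hb
      _ = (|K| * CR * b) * ‖ξ‖ := by ring

theorem t4 (S : Sys ι A Q) (hT1 : T1 S.KA S.VA)
    (hT0 : ∀ ξ : S.KA, LinearMap.trace ℂ S.KA (LinearMap.mulLeft ℂ ξ - LinearMap.mulRight ℂ ξ) = 0)
    (hLoc : LocFam (fun x : ι => S.Po x)) (hDiag : ∀ x, DiagProp (S.Po x)) : T4 S := by
  classical
  intro M hM hker q0 hq
  change DD (S.refR q0 hq) (Rm S M) = 0
  -- diagonalisation
  have hdiagall : ∀ σ ∈ unitary S.KA, ∃ W ∈ unitary S.VA, ∃ d : (x : ι) → S.Po x → ℂ,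
      (∀ x j, ‖d x j‖ = 1) ∧ ∀ x, Rm S M σ x = W x * Matrix.diagonal (d x) * star (W x) := by
    intro σ hσ
    have hR := pi_unitary.1 (Rm_unitary S hM hσ)
    have h1 := fun x => hDiag x (Rm S M σ x) (hR x)
    choose W hW d hd hWd using h1
    exact ⟨W, pi_unitary.2 hW, d, hd, hWd⟩
  -- the uniform arc
  have hRcont : Continuous (fun σ : UG S.KA => Rm S M σ.val) := by
    rw [continuous_iff_continuousAt]
    intro σ
    have h1 : ContinuousAt (Rm S M) σ.val := (Rm_contDiffAt S M σ.val_mem 1).continuousAt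
    exact h1.comp (f := UG.val) (UG.continuous_val.continuousAt)
  have hker' : ∀ σ : UG S.KA, ∃ x : ι,
      Module.finrank ℂ (LinearMap.ker (Matrix.mulVecLin (Rm S M σ.val x - 1)))
        < Fintype.card (S.Fa x) := by
    intro σ
    obtain ⟨x, hx⟩ := hker σ.val σ.val_mem
    refine ⟨x, ?_⟩
    have h1 : Rm S M σ.val x = star (M x) * S.Jm σ.val x := rfl
    rw [h1, finrank_ker_eq _ _ (pi_unitary.1 hM x)]
    exact hx
  obtain ⟨δ, hδ, harc⟩ := exists_delta S (fun σ => Rm S M σ.val) hRcont hker'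
  obtain ⟨K, hK⟩ := hLoc
  obtain ⟨CR, hCR0, hCR⟩ := Aop_bound (Rm S M) (fun σ hσ => Rm_contDiffAt S M hσ 1)
    (fun σ hσ => Rm_unitary S hM hσ)
  obtain ⟨Cr, hCr0, hCr⟩ := Cop_bound (S.refR q0 hq)
  obtain ⟨C', hC'⟩ := exists_e S
  obtain ⟨Kd, hKd, hdet⟩ := det_small2 (E := S.KA) C'
  set n := Module.finrank ℂ S.KA with hn
  set c1 : ℝ := Cr * (|K| * CR) + 1 with hc1
  set c2 : ℝ := |K| * CR + 1 with hc2
  have hc1pos : 1 ≤ c1 := by rw [hc1]; nlinarith [mul_nonneg hCr0.le (mul_nonneg (abs_nonneg K) hCR0.le)]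
  have hc2pos : 1 ≤ c2 := by rw [hc2]; nlinarith [mul_nonneg (abs_nonneg K) hCR0.le]
  -- the bound for every ε
  have main : ∀ ε : ℝ, 0 < ε → ‖DD (S.refR q0 hq) (Rm S M)‖ ≤ Kd * c1 ^ n * c2 * (2 * ε) := by
    intro ε hε
    obtain ⟨B, b, hB, hb, hBb, hH⟩ := hK δ hδ n ε hε
    choose H hH using hH
    have hBpos : 0 < B := by linarith
    -- homotopy
    have hhom : DD (S.refR q0 hq) (Rm S M)
        = DD (S.refR q0 hq) (fun X => (fun x => H x (1, Rm S M X x) : S.VA)) := by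
      have h := hT1 hT0 (S.refR q0 hq) (fun p => (fun x => H x (p.1, Rm S M p.2 x) : S.VA)) ?_ ?_
      · have e0 : (fun X : S.KA => (fun x => H x ((0 : ℂ), Rm S M X x) : S.VA)) = Rm S M := by
          funext X x
          exact (hH x).zero _
        rw [← h]
        exact congrArg (DD (S.refR q0 hq)) e0.symm
      · intro s hs σ hσ
        rw [contDiffAt_pi]
        intro x
        have hRx : Rm S M σ x ∈ unitary (Matrix (S.Po x) (S.Po x) ℂ) :=
          pi_unitary.1 (Rm_unitary S hM hσ) x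
        have h1 := (hH x).smooth s hs (Rm S M σ x) hRx
        have h2 : ContDiffAt ℂ ⊤ (fun p : ℂ × S.KA => (p.1, Rm S M p.2 x)) ((s : ℂ), σ) := by
          refine ContDiffAt.prodMk contDiffAt_fst ?_
          have h3 : ContDiffAt ℂ ⊤ (Rm S M) σ := Rm_contDiffAt S M hσ ⊤
          have h4 : ContDiffAt ℂ ⊤ (fun X => Rm S M X x) σ := contDiffAt_pi.1 h3 x
          exact ContDiffAt.comp ((s : ℂ), σ) h4 contDiffAt_snd
        exact ContDiffAt.comp ((s : ℂ), σ) h1 h2
      · intro s hs σ hσ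
        refine pi_isUnit fun x => ?_
        exact (hH x).unit s hs (Rm S M σ x) (pi_unitary.1 (Rm_unitary S hM hσ) x)
    rw [hhom]
    -- pointwise bound
    have hbd : ∀ (σ : UG S.KA) (U : UG S.VA),
        ‖LinearMap.det (Cop (S.refR q0 hq) U.val ∘ₗ
          Aop (fun X => (fun x => H x (1, Rm S M X x) : S.VA)) σ.val)‖
          ≤ Kd * c1 ^ n * c2 * (2 * ε) := by
      intro σ U
      obtain ⟨W, hW, d, hd1, hd2⟩ := hdiagall σ.val σ.val_mem
      obtain ⟨x, hx⟩ := harc σ ⟨W, hW⟩ d hd1 hd2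
      obtain ⟨h1, c, hc, h2⟩ := pointwise S q0 hq M hM K δ B b hB hb H hH CR hCR0 hCR Cr hCr0 hCr
        σ.val σ.val_mem U.val U.val_mem W hW d hd2 x hx
      obtain ⟨e, he1, he2⟩ := hC' x c hc
      have hBn : 0 < B ^ n := by positivity
      have hb' : 0 < b + ε / B ^ n := by positivity
      have h3 := hdet (c1 * B) (c2 * (b + ε / B ^ n)) (by positivity) (by positivity)
        (Cop (S.refR q0 hq) U.val ∘ₗ Aop (fun X => (fun x => H x (1, Rm S M X x) : S.VA)) σ.val)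
        (quadL S x c) e ?_ he1 he2 ?_
      · have hc1B : 1 ≤ c1 * B := by nlinarith
        have h4 : ‖LinearMap.det (Cop (S.refR q0 hq) U.val ∘ₗ
            Aop (fun X => (fun x => H x (1, Rm S M X x) : S.VA)) σ.val)‖
            ≤ ‖LinearMap.det (Cop (S.refR q0 hq) U.val ∘ₗ
            Aop (fun X => (fun x => H x (1, Rm S M X x) : S.VA)) σ.val)‖ * (c1 * B) :=
          le_mul_of_one_le_right (norm_nonneg _) hc1B
        refine h4.trans (h3.trans ?_)
        calc Kd * (c1 * B) ^ n * (c2 * (b + ε / B ^ n))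
            = Kd * c1 ^ n * c2 * (B ^ n * b + ε) := by
              rw [mul_pow]; field_simp
          _ ≤ Kd * c1 ^ n * c2 * (2 * ε) := by
              gcongr
              linarith
      · intro ξ
        refine (h1 ξ).trans ?_
        gcongr
        rw [hc1]; linarith
      · intro ξ
        refine (h2 ξ).trans ?_
        gcongr
        · rw [hc2]; linarith
        · have : 0 ≤ ε / B ^ n := by positivity
          linarith
    unfold DD
    have hin : ∀ σ : UG S.KA, ‖∫ U : UG S.VA, LinearMap.det (Cop (S.refR q0 hq) U.val ∘ₗ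
        Aop (fun X => (fun x => H x (1, Rm S M X x) : S.VA)) σ.val) ∂(haarU S.VA)‖
        ≤ Kd * c1 ^ n * c2 * (2 * ε) := by
      intro σ
      have := norm_integral_le_of_norm_le_const (μ := haarU S.VA)
        (f := fun U : UG S.VA => LinearMap.det (Cop (S.refR q0 hq) U.val ∘ₗ
        Aop (fun X => (fun x => H x (1, Rm S M X x) : S.VA)) σ.val))
        (Filter.Eventually.of_forall (hbd σ))
      simpa using this
    have := norm_integral_le_of_norm_le_const (μ := haarU S.KA)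
        (f := fun σ : UG S.KA => ∫ U : UG S.VA, LinearMap.det (Cop (S.refR q0 hq) U.val ∘ₗ
        Aop (fun X => (fun x => H x (1, Rm S M X x) : S.VA)) σ.val) ∂(haarU S.VA))
        (Filter.Eventually.of_forall hin)
    simpa using this
  -- let ε → 0
  by_contra hne
  have hpos : 0 < ‖DD (S.refR q0 hq) (Rm S M)‖ := norm_pos_iff.2 hne
  set Cst : ℝ := Kd * c1 ^ n * c2 with hCst
  have hCpos : 0 < Cst := by positivity
  have h := main (‖DD (S.refR q0 hq) (Rm S M)‖ / (4 * Cst)) (by positivity)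
  have h2 : Cst * (2 * (‖DD (S.refR q0 hq) (Rm S M)‖ / (4 * Cst)))
      = ‖DD (S.refR q0 hq) (Rm S M)‖ / 2 := by field_simp; ring
  rw [h2] at h
  linarith

end Crest.Agent.R174.GR.T4P
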