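import Mathlib
import Crest.Agent.R174.GRDefs
import Crest.Agent.R174.HInvAlg

-- ▼ part R174/GRHaar
section

/-!
# R174 (KLH), block P3, G1: Haar integrals of derivatives; T2 (constants); T0 (trace of ad).
-/

set_option autoImplicit false
open MeasureTheory Topology Set

noncomputable section

namespace Crest.Agent.R174.GRHaar
open Crest.Agent.R174.GR

section general

variable {K : Type*} [TopologicalSpace K] [CompactSpace K] [MeasurableSpace K] [BorelSpace K]
variable {E : Type*} [NormedAddCommGroup E] [SecondCountableTopology E]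

/-- continuous functions on a compact space are integrable for finite measures. -/
theorem integrable_of_continuous (μ : Measure K) [IsFiniteMeasure μ] {f : K → E}
    (hf : Continuous f) : Integrable f μ := by
  obtain ⟨C, hC⟩ := (isCompact_range hf).isBounded.exists_norm_le
  exact (integrable_const C).mono' hf.aestronglyMeasurable
    (Filter.Eventually.of_forall fun x => hC _ ⟨x, rfl⟩)

variable [NormedSpace ℝ E]

omit [SecondCountableTopology E] in
/-- Continuity of parameter integrals over a compact space. -/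
theorem continuousOn_integral (μ : Measure K) [IsFiniteMeasure μ] {X : Type*} [TopologicalSpace X]
    {s : Set X} {F : X → K → E}
    (hF : ContinuousOn (fun p : X × K => F p.1 p.2) (s ×ˢ univ)) :
    ContinuousOn (fun x => ∫ σ, F x σ ∂μ) s :=
  continuousOn_integral_of_compact_support isCompact_univ hF (fun _ _ _ h => absurd (mem_univ _) h)

/-- Differentiation of parameter integrals over a compact space. -/
theorem hasDerivAt_integral (μ : Measure K) [IsFiniteMeasure μ] {F F' : ℝ → K → E} {s : Set ℝ}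
    {t₀ : ℝ} (hs : s ∈ 𝓝 t₀)
    (hF : ∀ t ∈ s, ∀ σ, HasDerivAt (fun t => F t σ) (F' t σ) t)
    (hFc : ∀ t ∈ s, Continuous (F t))
    (hF'c : ContinuousOn (fun p : ℝ × K => F' p.1 p.2) (s ×ˢ univ)) :
    HasDerivAt (fun t => ∫ σ, F t σ ∂μ) (∫ σ, F' t₀ σ ∂μ) t₀ := by
  obtain ⟨ε, hε, hball⟩ := Metric.nhds_basis_closedBall.mem_iff.1 hs
  have hcomp : IsCompact (Metric.closedBall t₀ ε ×ˢ (univ : Set K)) :=
    (isCompact_closedBall t₀ ε).prod isCompact_univ
  have hcont : ContinuousOn (fun p : ℝ × K => F' p.1 p.2) (Metric.closedBall t₀ ε ×ˢ univ) :=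
    hF'c.mono (prod_mono hball (Subset.refl _))
  obtain ⟨C, hC⟩ := (hcomp.image_of_continuousOn hcont).isBounded.exists_norm_le
  have hF'0 : Continuous (F' t₀) := by
    have h1 : ContinuousOn (fun σ : K => F' t₀ σ) univ := by
      refine hF'c.comp (f := fun σ : K => (t₀, σ)) (by fun_prop) ?_
      intro σ _
      exact ⟨mem_of_mem_nhds hs, mem_univ _⟩
    exact continuousOn_univ.1 h1
  refine (hasDerivAt_integral_of_dominated_loc_of_deriv_le (bound := fun _ => C)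
    (Metric.closedBall_mem_nhds t₀ hε) ?_ ?_ ?_ ?_ ?_ ?_).2
  · filter_upwards [hs] with t ht using (hFc t ht).aestronglyMeasurable
  · exact integrable_of_continuous μ (hFc t₀ (mem_of_mem_nhds hs))
  · exact hF'0.aestronglyMeasurable
  · exact Filter.Eventually.of_forall fun σ t ht => hC _ ⟨(t, σ), ⟨ht, mem_univ _⟩, rfl⟩
  · exact integrable_const C
  · exact Filter.Eventually.of_forall fun σ t ht => hF t (hball ht) σ

/-- The integral of a derivative along left translations is zero. -/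
theorem integral_deriv_eq_zero [Group K] [IsTopologicalGroup K] (μ : Measure K)
    [IsFiniteMeasure μ] [μ.IsMulLeftInvariant] {f : K → E} (hf : Continuous f) (γ : ℝ → K)
    {F' : ℝ → K → E}
    (hF : ∀ t σ, HasDerivAt (fun t => f (γ t * σ)) (F' t σ) t)
    (hF'c : Continuous (fun p : ℝ × K => F' p.1 p.2)) :
    ∫ σ, F' 0 σ ∂μ = 0 := by
  have h1 : HasDerivAt (fun t => ∫ σ, f (γ t * σ) ∂μ) (∫ σ, F' 0 σ ∂μ) 0 :=
    hasDerivAt_integral μ (s := univ) Filter.univ_mem (fun t _ σ => hF t σ)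
      (fun t _ => hf.comp (continuous_const_mul (γ t))) hF'c.continuousOn
  have h2 : (fun t => ∫ σ, f (γ t * σ) ∂μ) = fun _ => ∫ σ, f σ ∂μ := by
    funext t
    exact integral_mul_left_eq_self f (γ t)
  rw [h2] at h1
  exact h1.unique (hasDerivAt_const _ _)

end general

section unitary_part

variable {𝔸 : Type} [NormedRing 𝔸] [StarRing 𝔸] [CStarRing 𝔸] [NormedAlgebra ℂ 𝔸]
  [StarModule ℂ 𝔸] [FiniteDimensional ℂ 𝔸]
variable {E : Type*} [NormedAddCommGroup E] [NormedSpace ℂ E] [FiniteDimensional ℂ E]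

/-- the one parameter group of unitaries generated by a skew-adjoint element -/
def expU {ξ : 𝔸} (hξ : ξ ∈ skewAdjoint 𝔸) (t : ℝ) : UG 𝔸 :=
  ⟨NormedSpace.exp (t • ξ), by
    have : CompleteSpace 𝔸 := FiniteDimensional.complete ℂ 𝔸
    let _ : NormedAlgebra ℚ 𝔸 := NormedAlgebra.restrictScalars ℚ ℂ 𝔸
    refine NormedSpace.exp_mem_unitary_of_mem_skewAdjoint ?_
    rw [skewAdjoint.mem_iff] at hξ ⊢
    have h1 : t • ξ = (t : ℂ) • ξ := rfl
    rw [h1, star_smul, hξ]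
    simp⟩



theorem integral_fderiv_eq_zero_of_skew {F : 𝔸 → E}
    (hF : ∀ σ ∈ unitary 𝔸, ContDiffAt ℂ 1 F σ) {ξ : 𝔸} (hξ : ξ ∈ skewAdjoint 𝔸) :
    ∫ σ : UG 𝔸, fderiv ℂ F σ.val (ξ * σ.val) ∂(haarU 𝔸) = 0 := by
  have : CompleteSpace 𝔸 := FiniteDimensional.complete ℂ 𝔸
  have : ProperSpace E := FiniteDimensional.proper ℂ E
  have hFcont : Continuous fun σ : UG 𝔸 => F σ.val := by
    rw [continuous_iff_continuousAt]
    intro σ
    exact (hF σ.val σ.val_mem).continuousAt.comp UG.continuous_val.continuousAt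
  have hdcont : ∀ σ ∈ unitary 𝔸, ContinuousAt (fderiv ℂ F) σ := by
    intro σ hσ
    exact ((hF σ hσ).fderiv_right (m := 0) (by norm_num)).continuousAt
  have hexp : Continuous fun t : ℝ => NormedSpace.exp (t • ξ) :=
    continuous_iff_continuousAt.2 fun t => (hasDerivAt_exp_smul_const ξ t).continuousAt
  have key := integral_deriv_eq_zero (K := UG 𝔸) (haarU 𝔸) (f := fun σ => F σ.val) hFcont
    (expU hξ) (F' := fun t σ => fderiv ℂ F (NormedSpace.exp (t • ξ) * σ.val)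
      (ξ * (NormedSpace.exp (t • ξ) * σ.val))) ?_ ?_
  · simpa using key
  · intro t σ
    have hmem : NormedSpace.exp (t • ξ) * σ.val ∈ unitary 𝔸 := (expU hξ t * σ).val_mem
    have h1 : HasDerivAt (fun t : ℝ => NormedSpace.exp (t • ξ) * σ.val)
        (ξ * (NormedSpace.exp (t • ξ) * σ.val)) t := by
      have := (hasDerivAt_exp_smul_const' ξ t).mul_const σ.val
      simpa [mul_assoc] using this
    have h2 : HasFDerivAt F ((fderiv ℂ F (NormedSpace.exp (t • ξ) * σ.val)).restrictScalars ℝ)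
        (NormedSpace.exp (t • ξ) * σ.val) :=
      ((hF _ hmem).differentiableAt (by norm_num)).hasFDerivAt.restrictScalars ℝ
    exact h2.comp_hasDerivAt t h1
  · rw [continuous_iff_continuousAt]
    rintro ⟨t, σ⟩
    have hmem : NormedSpace.exp (t • ξ) * σ.val ∈ unitary 𝔸 := (expU hξ t * σ).val_mem
    have hc : Continuous fun p : ℝ × UG 𝔸 => NormedSpace.exp (p.1 • ξ) * p.2.val :=
      (hexp.comp continuous_fst).mul (UG.continuous_val.comp continuous_snd)
    have h1 : ContinuousAt (fun p : ℝ × UG 𝔸 =>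
        fderiv ℂ F (NormedSpace.exp (p.1 • ξ) * p.2.val)) (t, σ) :=
      ContinuousAt.comp (f := fun p : ℝ × UG 𝔸 => NormedSpace.exp (p.1 • ξ) * p.2.val)
        (hdcont _ hmem) hc.continuousAt
    exact h1.clm_apply ((continuous_const.mul hc).continuousAt)

/-- **G1**: for `F` complex differentiable near the unitary group, the Haar integral of the
derivative of `F` in direction `ξ σ` vanishes (for complex `ξ`). -/
theorem integral_fderiv_eq_zero {F : 𝔸 → E}
    (hF : ∀ σ ∈ unitary 𝔸, ContDiffAt ℂ 1 F σ) (ξ : 𝔸) :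
    ∫ σ : UG 𝔸, fderiv ℂ F σ.val (ξ * σ.val) ∂(haarU 𝔸) = 0 := by
  have : ProperSpace E := FiniteDimensional.proper ℂ E
  have hdcont : ∀ σ ∈ unitary 𝔸, ContinuousAt (fderiv ℂ F) σ := by
    intro σ hσ
    exact ((hF σ hσ).fderiv_right (m := 0) (by norm_num)).continuousAt
  have hc : ∀ η : 𝔸, Continuous fun σ : UG 𝔸 => fderiv ℂ F σ.val (η * σ.val) := by
    intro η
    rw [continuous_iff_continuousAt]
    intro σ
    have h1 : ContinuousAt (fun σ : UG 𝔸 => fderiv ℂ F σ.val) σ :=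
      ContinuousAt.comp (f := fun σ : UG 𝔸 => σ.val) (hdcont _ σ.val_mem)
        UG.continuous_val.continuousAt
    exact h1.clm_apply ((continuous_const.mul UG.continuous_val).continuousAt)
  -- decompose ξ
  set a : 𝔸 := (1 / 2 : ℂ) • (ξ - star ξ) with ha
  set b : 𝔸 := (Complex.I / 2) • (ξ + star ξ) with hb
  have ha' : a ∈ skewAdjoint 𝔸 := by
    rw [skewAdjoint.mem_iff, ha, star_smul, star_sub, star_star]
    have : star (1 / 2 : ℂ) = 1 / 2 := by simp
    rw [this, ← smul_neg, neg_sub]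
  have hb' : b ∈ skewAdjoint 𝔸 := by
    rw [skewAdjoint.mem_iff, hb, star_smul, star_add, star_star]
    have : star (Complex.I / 2 : ℂ) = -(Complex.I / 2) := by
      simp [neg_div]
    rw [this, neg_smul, add_comm]
  have hdec : ξ = a + (-Complex.I) • b := by
    rw [ha, hb, smul_smul]
    have : -Complex.I * (Complex.I / 2) = 1 / 2 := by
      have h := Complex.I_mul_I
      linear_combination (-1 / 2 : ℂ) * h
    rw [this, ← smul_add]
    have : ξ - star ξ + (ξ + star ξ) = (2 : ℂ) • ξ := by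
      rw [two_smul]; abel
    rw [this, smul_smul]; norm_num
  have h1 := integral_fderiv_eq_zero_of_skew hF ha'
  have h2 := integral_fderiv_eq_zero_of_skew hF hb'
  have h3 : (fun σ : UG 𝔸 => fderiv ℂ F σ.val (ξ * σ.val))
      = fun σ => fderiv ℂ F σ.val (a * σ.val) + (-Complex.I) • fderiv ℂ F σ.val (b * σ.val) := by
    funext σ
    calc fderiv ℂ F σ.val (ξ * σ.val)
        = fderiv ℂ F σ.val ((a + (-Complex.I) • b) * σ.val) := by rw [← hdec]
      _ = _ := by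
        rw [add_mul, map_add, smul_mul_assoc (-Complex.I) b σ.val,
          map_smul (fderiv ℂ F σ.val) (-Complex.I) (b * σ.val)]
  have h4 : Integrable (fun σ : UG 𝔸 => (-Complex.I) • fderiv ℂ F σ.val (b * σ.val)) (haarU 𝔸) :=
    (integrable_of_continuous _ (hc b)).smul _
  rw [h3, integral_add (integrable_of_continuous _ (hc a)) h4, integral_smul, h1, h2]
  simp

/-! ### T2 -/

variable {𝕍 : Type} [NormedRing 𝕍] [StarRing 𝕍] [CStarRing 𝕍] [NormedAlgebra ℂ 𝕍]
  [StarModule ℂ 𝕍] [FiniteDimensional ℂ 𝕍]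

omit [CStarRing 𝕍] [StarModule ℂ 𝕍] [FiniteDimensional ℂ 𝕍] [NormedAlgebra ℂ 𝕍] in
theorem ring_inverse_unitary_mul {M : 𝕍} (hM : M ∈ unitary 𝕍) (x : 𝕍) :
    Ring.inverse (M * x) = Ring.inverse x * star M := by
  have hMM : M * star M = 1 := Unitary.mul_star_self_of_mem hM
  have hMM' : star M * M = 1 := Unitary.star_mul_self_of_mem hM
  let u : 𝕍ˣ := ⟨M, star M, hMM, hMM'⟩
  by_cases hx : IsUnit x
  · obtain ⟨v, rfl⟩ := hx
    have h1 : M * (v : 𝕍) = ((u * v : 𝕍ˣ) : 𝕍) := rfl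
    rw [h1, Ring.inverse_unit, Ring.inverse_unit, mul_inv_rev, Units.val_mul]
    rfl
  · have h2 : ¬ IsUnit (M * x) := by
      intro h
      apply hx
      have : x = star M * (M * x) := by rw [← mul_assoc, hMM', one_mul]
      rw [this]
      exact (u⁻¹).isUnit.mul h
    rw [Ring.inverse_non_unit _ hx, Ring.inverse_non_unit _ h2, zero_mul]

omit [StarRing 𝔸] [CStarRing 𝔸] [StarModule ℂ 𝔸] [FiniteDimensional ℂ 𝔸] [CStarRing 𝕍]
  [StarModule ℂ 𝕍] [FiniteDimensional ℂ 𝕍] in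
theorem Aop_const_mul {Φ : 𝔸 → 𝕍} {M : 𝕍} (hM : M ∈ unitary 𝕍) {σ : 𝔸}
    (hΦ : DifferentiableAt ℂ Φ σ) (ξ : 𝔸) :
    Aop (fun X => M * Φ X) σ ξ = M * Aop Φ σ ξ * star M := by
  change fderiv ℂ (fun X => M * Φ X) σ (ξ * σ) * Ring.inverse (M * Φ σ)
    = M * (fderiv ℂ Φ σ (ξ * σ) * Ring.inverse (Φ σ)) * star M
  rw [fderiv_const_mul hΦ, ring_inverse_unitary_mul hM]
  simp [mul_assoc]

/-- a unitary element as an element of `UG` -/
def toUG (M : 𝕍) (hM : M ∈ unitary 𝕍) : UG 𝕍 := ⟨M, hM⟩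

theorem t2 : T2 𝔸 𝕍 := by
  intro ρ Φ M hM hΦ
  unfold DD
  congr 1
  funext σ
  have h1 : ∀ U : UG 𝕍, (Cop ρ U.val ∘ₗ Aop (fun X => M * Φ X) σ.val)
      = Cop ρ ((toUG (star M) (Unitary.star_mem hM) * U).val) ∘ₗ Aop Φ σ.val := by
    intro U
    ext ξ
    change ρ (star U.val * (Aop (fun X => M * Φ X) σ.val ξ) * U.val)
      = ρ (star (star M * U.val) * (Aop Φ σ.val ξ) * (star M * U.val))
    rw [Aop_const_mul hM (hΦ _ σ.val_mem), star_mul, star_star]
    simp only [mul_assoc]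
  simp only [h1]
  exact integral_mul_left_eq_self
    (fun U : UG 𝕍 => LinearMap.det (Cop ρ U.val ∘ₗ Aop Φ σ.val))
    (toUG (star M) (Unitary.star_mem hM))

end unitary_part

/-! ### T0 -/

section trace_part

theorem pi_basis_toMatrix {ι : Type*} [Fintype ι] [DecidableEq ι] {n : ι → Type*}
    [∀ i, Fintype (n i)] [∀ i, DecidableEq (n i)]
    (f : Module.End ℂ (∀ i, Matrix (n i) (n i) ℂ)) (p q : (i : ι) × (n i × n i)) :
    LinearMap.toMatrix (Pi.basis fun i => Matrix.stdBasis ℂ (n i) (n i))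
      (Pi.basis fun i => Matrix.stdBasis ℂ (n i) (n i)) f p q
      = f (Pi.single q.1 (Matrix.single q.2.1 q.2.2 1)) p.1 p.2.1 p.2.2 := by
  rcases q with ⟨j, k, l⟩
  rw [LinearMap.toMatrix_apply, Pi.basis_apply, Matrix.stdBasis_eq_single, Pi.basis_repr]
  rfl

theorem trace_ad_pi {ι : Type*} [Fintype ι] [DecidableEq ι] {n : ι → Type*}
    [∀ i, Fintype (n i)] [∀ i, DecidableEq (n i)] (ξ : ∀ i, Matrix (n i) (n i) ℂ) :
    LinearMap.trace ℂ (∀ i, Matrix (n i) (n i) ℂ)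
      (LinearMap.mulLeft ℂ ξ - LinearMap.mulRight ℂ ξ) = 0 := by
  rw [LinearMap.trace_eq_matrix_trace ℂ (Pi.basis fun i => Matrix.stdBasis ℂ (n i) (n i))]
  simp only [Matrix.trace, Matrix.diag, pi_basis_toMatrix, LinearMap.sub_apply,
    LinearMap.mulLeft_apply, LinearMap.mulRight_apply, Pi.sub_apply, Matrix.sub_apply,
    Pi.mul_apply, Pi.single_eq_same]
  rw [Fintype.sum_sigma]
  refine Finset.sum_eq_zero fun i _ => ?_
  rw [Fintype.sum_prod_type]
  simp only [Matrix.mul_single_apply_same, Matrix.single_mul_apply_same, mul_one, one_mul,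
    Finset.sum_sub_distrib]
  rw [Finset.sum_comm]
  simp

end trace_part

section concrete
open scoped Matrix.Norms.L2Operator

variable {ι A Q : Type} [Fintype ι] [LinearOrder ι] [Fintype A] [DecidableEq A]
  [Fintype Q] [DecidableEq Q]

/-- **T0** -/
theorem t0 (S : Sys ι A Q) (ξ : S.KA) :
    LinearMap.trace ℂ S.KA (LinearMap.mulLeft ℂ ξ - LinearMap.mulRight ℂ ξ) = 0 :=
  trace_ad_pi ξ


end concrete

end Crest.Agent.R174.GRHaar
end
end

-- ▼ part R174/HInvCalc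
section

/-!
R174, block G2 (calculus part of the homotopy invariance): Maurer-Cartan identity for
`Θ_X = (D_X Φ) Φ⁻¹` and derivative of `w (A_1, …, A_n)`.
-/

set_option autoImplicit false
set_option linter.unusedSectionVars false

namespace Crest.Agent.R174.HInv

open Function Finset

section MC

variable {H g : Type*} [NormedAddCommGroup H] [NormedSpace ℂ H]
  [NormedRing g] [NormedAlgebra ℂ g] [CompleteSpace g]

/-- `Θ_X = (D_X Φ) Φ⁻¹`. -/
noncomputable def theta (Φ : H → g) (X : H → H) (q : H) : g :=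
  fderiv ℂ Φ q (X q) * Ring.inverse (Φ q)

lemma theta_hasFDerivAt {Φ : H → g} {X : H → H} {p : H} (hΦ : ContDiffAt ℂ 2 Φ p)
    (hu : IsUnit (Φ p)) (hX : DifferentiableAt ℂ X p) :
    DifferentiableAt ℂ (theta Φ X) p ∧ ∀ v, fderiv ℂ (theta Φ X) p v =
      (fderiv ℂ (fderiv ℂ Φ) p v (X p) + fderiv ℂ Φ p (fderiv ℂ X p v)) * Ring.inverse (Φ p)
      - fderiv ℂ Φ p (X p) * Ring.inverse (Φ p) * (fderiv ℂ Φ p v) * Ring.inverse (Φ p) := by
  obtain ⟨u, hu⟩ := hu
  have h1 : HasFDerivAt Φ (fderiv ℂ Φ p) p := (hΦ.differentiableAt (by norm_num)).hasFDerivAt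
  have h2 : HasFDerivAt (fderiv ℂ Φ) (fderiv ℂ (fderiv ℂ Φ) p) p := by
    have : ContDiffAt ℂ 1 (fderiv ℂ Φ) p := hΦ.fderiv_right (by norm_num)
    exact (this.differentiableAt (by norm_num)).hasFDerivAt
  have h3 := h2.clm_apply hX.hasFDerivAt
  have h4 : HasFDerivAt (fun q => Ring.inverse (Φ q))
      ((-ContinuousLinearMap.mulLeftRight ℂ g ↑u⁻¹ ↑u⁻¹).comp (fderiv ℂ Φ p)) p := by
    have := (hasFDerivAt_ringInverse (𝕜 := ℂ) u)
    rw [hu] at this
    exact this.comp p h1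
  have h5 := h3.mul' h4
  have hinv : Ring.inverse (Φ p) = ((u⁻¹ : gˣ) : g) := by rw [← hu, Ring.inverse_unit]
  refine ⟨h5.differentiableAt, fun v => ?_⟩
  have e : fderiv ℂ (theta Φ X) p = _ := h5.fderiv
  rw [e]
  simp [hinv, ContinuousLinearMap.mulLeftRight_apply]
  noncomm_ring

/-- Maurer–Cartan identity. -/
lemma maurer_cartan {Φ : H → g} {X Y : H → H} {p : H} (hΦ : ContDiffAt ℂ 2 Φ p)
    (hu : IsUnit (Φ p)) (hX : DifferentiableAt ℂ X p) (hY : DifferentiableAt ℂ Y p) :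
    fderiv ℂ (theta Φ Y) p (X p) - fderiv ℂ (theta Φ X) p (Y p) =
      fderiv ℂ Φ p (fderiv ℂ Y p (X p) - fderiv ℂ X p (Y p)) * Ring.inverse (Φ p) +
      (theta Φ X p * theta Φ Y p - theta Φ Y p * theta Φ X p) := by
  rw [(theta_hasFDerivAt hΦ hu hY).2, (theta_hasFDerivAt hΦ hu hX).2]
  have hsymm : fderiv ℂ (fderiv ℂ Φ) p (X p) (Y p) = fderiv ℂ (fderiv ℂ Φ) p (Y p) (X p) := by
    have : IsSymmSndFDerivAt ℂ Φ p := hΦ.isSymmSndFDerivAt (by simp)
    exact this.eq _ _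
  rw [hsymm]
  unfold theta
  rw [map_sub]
  noncomm_ring

lemma theta_contDiffAt {Φ : H → g} {X : H → H} {p : H} {n : WithTop ℕ∞}
    (hΦ : ContDiffAt ℂ (n + 1) Φ p)
    (hu : IsUnit (Φ p)) (hX : ContDiffAt ℂ n X p) : ContDiffAt ℂ n (theta Φ X) p := by
  obtain ⟨u, hu⟩ := hu
  have h2 : ContDiffAt ℂ n (fderiv ℂ Φ) p := hΦ.fderiv_right le_rfl
  have h3 : ContDiffAt ℂ n (fun q => fderiv ℂ Φ q (X q)) p := h2.clm_apply hX
  have h4 : ContDiffAt ℂ n (fun q => Ring.inverse (Φ q)) p := by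
    have := contDiffAt_ringInverse (n := n) ℂ u
    rw [hu] at this
    exact this.comp p (hΦ.of_le le_self_add)
  exact h3.mul h4

end MC

section Alt

variable {ι H g : Type*} [Fintype ι] [DecidableEq ι] [NormedAddCommGroup H] [NormedSpace ℂ H]
  [NormedRing g] [NormedAlgebra ℂ g]

lemma alt_hasFDerivAt (w : g [⋀^ι]→L[ℂ] ℂ) {A : ι → H → g} {p : H}
    (hA : ∀ i, DifferentiableAt ℂ (A i) p) :
    DifferentiableAt ℂ (fun q => w (fun i => A i q)) p ∧
    ∀ v, fderiv ℂ (fun q => w (fun i => A i q)) p v =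
      ∑ i, w (update (fun i => A i p) i (fderiv ℂ (A i) p v)) := by
  have := HasFDerivAt.multilinear_comp (𝕜 := ℂ) (g := A) (x := p)
    w.toContinuousMultilinearMap (fun i => (hA i).hasFDerivAt)
  have h' : HasFDerivAt (fun q => w (fun i => A i q)) _ p := this
  refine ⟨h'.differentiableAt, fun v => ?_⟩
  rw [h'.fderiv]
  simp [ContinuousMultilinearMap.toContinuousLinearMap]

lemma alt_contDiffAt (w : g [⋀^ι]→L[ℂ] ℂ) {A : ι → H → g} {p : H} {n : WithTop ℕ∞}
    (hA : ∀ i, ContDiffAt ℂ n (A i) p) :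
    ContDiffAt ℂ n (fun q => w (fun i => A i q)) p := by
  have h1 : ContDiffAt ℂ n (fun q => (fun i => A i q)) p := contDiffAt_pi.2 hA
  have h2 : ContDiff ℂ n w.toContinuousMultilinearMap := w.toContinuousMultilinearMap.contDiff
  exact h2.contDiffAt.comp p h1

end Alt

end Crest.Agent.R174.HInv
end

-- ▼ part R174/HInvDiv
section

/-!
R174, block G2: the pointwise divergence identity
`∂_s w(A_1, …, A_n) = ∑ i, E_i (w(A_1, …, B at i, …, A_n))` on `ℂ × 𝔸`, where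
`A_i = (D_{(0, ξ_i σ)} Φ) Φ⁻¹`, `B = (D_{(1,0)} Φ) Φ⁻¹`.
-/

set_option autoImplicit false
set_option linter.unusedSectionVars false

namespace Crest.Agent.R174.HInv

open Function Finset

section

variable {ι 𝔸 g : Type*} [Fintype ι] [DecidableEq ι]
  [NormedRing 𝔸] [NormedAlgebra ℂ 𝔸]
  [NormedRing g] [NormedAlgebra ℂ g] [CompleteSpace g]

/-- the vector field `∂_s` on `ℂ × 𝔸`. -/
def X0 : ℂ × 𝔸 → ℂ × 𝔸 := fun _ => (1, 0)

/-- the vector field `(0, ξ σ)` on `ℂ × 𝔸`. -/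
def XX (ξ : 𝔸) : ℂ × 𝔸 → ℂ × 𝔸 := fun q => (0, ξ * q.2)

lemma XX_eq (ξ : 𝔸) : (XX ξ : ℂ × 𝔸 → ℂ × 𝔸) =
    (ContinuousLinearMap.inr ℂ ℂ 𝔸 ∘L (ContinuousLinearMap.mul ℂ 𝔸 ξ) ∘L
      ContinuousLinearMap.snd ℂ ℂ 𝔸 : ℂ × 𝔸 →L[ℂ] ℂ × 𝔸) := by
  funext q; simp [XX]

lemma XX_contDiff (ξ : 𝔸) (n : WithTop ℕ∞) : ContDiff ℂ n (XX ξ : ℂ × 𝔸 → ℂ × 𝔸) := by
  rw [XX_eq]; exact ContinuousLinearMap.contDiff _

lemma XX_fderiv (ξ : 𝔸) (p v : ℂ × 𝔸) : fderiv ℂ (XX ξ : ℂ × 𝔸 → ℂ × 𝔸) p v = (0, ξ * v.2) := by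
  rw [XX_eq, ContinuousLinearMap.fderiv]; simp

lemma X0_contDiff (n : WithTop ℕ∞) : ContDiff ℂ n (X0 : ℂ × 𝔸 → ℂ × 𝔸) := contDiff_const

lemma X0_fderiv (p v : ℂ × 𝔸) : fderiv ℂ (X0 : ℂ × 𝔸 → ℂ × 𝔸) p v = 0 := by
  have : (X0 : ℂ × 𝔸 → ℂ × 𝔸) = fun _ => (1, 0) := rfl
  rw [this]; simp

/-- the form `w` evaluated on `A_i = (D_{ξ_i σ} Φ) Φ⁻¹`. -/
noncomputable def wA (w : g [⋀^ι]→L[ℂ] ℂ) (b : ι → 𝔸) (Φ : ℂ × 𝔸 → g) (q : ℂ × 𝔸) : ℂ :=
  w (fun i => theta Φ (XX (b i)) q)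

/-- the form `w` evaluated on `A` with `B` at the place `i`. -/
noncomputable def wB (w : g [⋀^ι]→L[ℂ] ℂ) (b : ι → 𝔸) (Φ : ℂ × 𝔸 → g) (i : ι) (q : ℂ × 𝔸) : ℂ :=
  w (fun j => (update (fun j => theta Φ (XX (b j))) i (theta Φ X0)) j q)

lemma wA_contDiffAt (w : g [⋀^ι]→L[ℂ] ℂ) (b : ι → 𝔸) {Φ : ℂ × 𝔸 → g} {p : ℂ × 𝔸}
    {n : WithTop ℕ∞} (hΦ : ContDiffAt ℂ (n + 1) Φ p) (hu : IsUnit (Φ p)) :
    ContDiffAt ℂ n (wA w b Φ) p :=
  alt_contDiffAt w fun i => theta_contDiffAt hΦ hu (XX_contDiff (b i) n).contDiffAt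

lemma wB_contDiffAt (w : g [⋀^ι]→L[ℂ] ℂ) (b : ι → 𝔸) {Φ : ℂ × 𝔸 → g} {p : ℂ × 𝔸}
    {n : WithTop ℕ∞} (hΦ : ContDiffAt ℂ (n + 1) Φ p) (hu : IsUnit (Φ p)) (i : ι) :
    ContDiffAt ℂ n (wB w b Φ i) p := by
  refine alt_contDiffAt w fun j => ?_
  by_cases hj : j = i
  · subst hj
    rw [update_self]
    exact theta_contDiffAt hΦ hu (X0_contDiff n).contDiffAt
  · rw [update_of_ne hj]
    exact theta_contDiffAt hΦ hu (XX_contDiff (b j) n).contDiffAt

theorem div_identity (w : g [⋀^ι]→L[ℂ] ℂ) (hw : AdInv w.toAlternatingMap)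
    (b : Module.Basis ι ℂ 𝔸)
    (htr : ∀ ξ : 𝔸, LinearMap.trace ℂ 𝔸 (LinearMap.mulLeft ℂ ξ - LinearMap.mulRight ℂ ξ) = 0)
    {Φ : ℂ × 𝔸 → g} {p : ℂ × 𝔸} (hΦ : ContDiffAt ℂ 2 Φ p) (hu : IsUnit (Φ p)) :
    fderiv ℂ (wA w b Φ) p (1, 0) = ∑ i, fderiv ℂ (wB w b Φ i) p (0, b i * p.2) := by
  have hX : ∀ i, DifferentiableAt ℂ (XX (b i) : ℂ × 𝔸 → ℂ × 𝔸) p := fun i =>
    ((XX_contDiff (b i) 1).differentiable (by norm_num)).differentiableAt
  have hX0 : DifferentiableAt ℂ (X0 : ℂ × 𝔸 → ℂ × 𝔸) p :=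
    ((X0_contDiff 1).differentiable (by norm_num)).differentiableAt
  have hA : ∀ i, DifferentiableAt ℂ (theta Φ (XX (b i))) p := fun i =>
    (theta_hasFDerivAt hΦ hu (hX i)).1
  have hB : DifferentiableAt ℂ (theta Φ X0) p := (theta_hasFDerivAt hΦ hu hX0).1
  set A : ι → g := fun i => theta Φ (XX (b i)) p with hAdef
  set B : g := theta Φ X0 p with hBdef
  set d0A : ι → g := fun i => fderiv ℂ (theta Φ (XX (b i))) p (1, 0) with hd0
  set dB : ι → g := fun i => fderiv ℂ (theta Φ X0) p (0, b i * p.2) with hdB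
  set dA : ι → ι → g := fun i j => fderiv ℂ (theta Φ (XX (b j))) p (0, b i * p.2) with hdA
  set c : ι → ι → ι → ℂ := fun i j k => b.repr (b j * b i - b i * b j) k with hc
  have hL : fderiv ℂ (wA w b Φ) p (1, 0) = ∑ i, w (update A i (d0A i)) :=
    (alt_hasFDerivAt w hA).2 (1, 0)
  have hR : ∀ i, fderiv ℂ (wB w b Φ i) p (0, b i * p.2) =
      w (update A i (dB i)) + ∑ j ∈ univ.erase i, w (update (update A i B) j (dA i j)) := by
    intro i
    have hd : ∀ j, DifferentiableAt ℂ ((update (fun j => theta Φ (XX (b j))) i (theta Φ X0)) j) p := by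
      intro j
      by_cases hj : j = i
      · subst hj; rw [update_self]; exact hB
      · rw [update_of_ne hj]; exact hA j
    have h1 := (alt_hasFDerivAt w hd).2 (0, b i * p.2)
    have h2 : (fun j => (update (fun j => theta Φ (XX (b j))) i (theta Φ X0)) j p) =
        update A i B := by
      funext j
      by_cases hj : j = i
      · subst hj; simp [hBdef]
      · simp [hj, hAdef]
    have h3 : fderiv ℂ (wB w b Φ i) p (0, b i * p.2) = _ := h1
    rw [h3, h2, ← add_sum_erase univ _ (mem_univ i)]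
    congr 1
    · rw [update_self, update_idem]
    · refine sum_congr rfl fun j hj => ?_
      have hj' : j ≠ i := by simpa using hj
      rw [update_of_ne hj']
  rw [hL, sum_congr rfl fun i _ => hR i]
  refine alg_core w.toAlternatingMap hw A B dB d0A dA c ?_ ?_ ?_ ?_
  · intro i
    have := maurer_cartan hΦ hu hX0 (hX i)
    rw [XX_fderiv, X0_fderiv] at this
    simp only [X0, XX, mul_zero, sub_zero] at this
    have h0 : (fderiv ℂ Φ p) ((0 : ℂ), (0 : 𝔸)) = 0 := by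
      rw [← Prod.zero_eq_mk]; simp
    rw [h0, zero_mul, zero_add] at this
    rw [sub_eq_iff_eq_add] at this
    simp only [hd0, hdB, hBdef, hAdef]
    rw [this]
    rw [add_comm]
  · intro i j
    have := maurer_cartan hΦ hu (hX i) (hX j)
    rw [XX_fderiv, XX_fderiv] at this
    simp only [hdA, hAdef]
    have h4 : fderiv ℂ (theta Φ (XX (b j))) p (0, b i * p.2) -
        fderiv ℂ (theta Φ (XX (b i))) p (0, b j * p.2) = _ := this
    rw [h4]
    congr 1
    have h5 : (((0 : ℂ), b j * (XX (b i) p).2) - ((0 : ℂ), b i * (XX (b j) p).2) : ℂ × 𝔸) =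
        ∑ k, c i j k • ((0 : ℂ), b k * p.2) := by
      have h6 : b j * b i - b i * b j = ∑ k, c i j k • b k := (b.sum_repr _).symm
      have h7 : ∑ k, c i j k • ((0 : ℂ), b k * p.2) =
          (0, (∑ k, c i j k • b k) * p.2) := by
        rw [sum_mul]
        ext
        · simp [Prod.fst_sum]
        · simp [Prod.snd_sum]
      rw [h7, ← h6]
      simp [XX, sub_mul, mul_assoc]
    rw [h5, map_sum, sum_mul]
    refine sum_congr rfl fun k _ => ?_
    rw [map_smul, smul_mul_assoc]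
    rfl
  · intro i j k
    simp only [hc]
    rw [← neg_sub (b i * b j) (b j * b i), map_neg]
    simp
  · intro i
    have h8 := htr (b i)
    rw [LinearMap.trace_eq_matrix_trace ℂ b, Matrix.trace] at h8
    have h9 : ∀ j, c i j j = - (Matrix.diag (LinearMap.toMatrix b b
        (LinearMap.mulLeft ℂ (b i) - LinearMap.mulRight ℂ (b i))) j) := by
      intro j
      simp only [hc, Matrix.diag, LinearMap.toMatrix_apply]
      simp
    rw [sum_congr rfl fun j _ => h9 j, sum_neg_distrib, h8, neg_zero]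

end

end Crest.Agent.R174.HInv
end

-- ▼ part R174/HInvW
section

/-!
R174, block G3: the averaged determinant `w(v) = ∫_U det (ξ_i ↦ ρ (U* v_i U))` is a continuous
alternating form, infinitesimally Ad-invariant.
-/

set_option autoImplicit false
set_option linter.unusedSectionVars false

namespace Crest.Agent.R174.HInv

open Function Finset MeasureTheory
open Crest.Agent.R174.GR

noncomputable section

variable {𝔸 : Type} [NormedRing 𝔸] [StarRing 𝔸] [CStarRing 𝔸] [NormedAlgebra ℂ 𝔸]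
  [StarModule ℂ 𝔸] [FiniteDimensional ℂ 𝔸]
variable {𝕍 : Type} [NormedRing 𝕍] [StarRing 𝕍] [CStarRing 𝕍] [NormedAlgebra ℂ 𝕍]
  [StarModule ℂ 𝕍] [FiniteDimensional ℂ 𝕍]
variable {ι : Type} [Fintype ι] [hι : DecidableEq ι]

/-- the integrand -/
def wI (ρ : 𝕍 →ₗ[ℂ] 𝔸) (b : Module.Basis ι ℂ 𝔸) (v : ι → 𝕍) (U : 𝕍) : ℂ :=
  b.det (fun i => Cop ρ U (v i))

lemma wI_continuous (ρ : 𝕍 →ₗ[ℂ] 𝔸) (b : Module.Basis ι ℂ 𝔸) :
    Continuous fun p : (ι → 𝕍) × UG 𝕍 => wI ρ b p.1 p.2.val := by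
  unfold wI
  simp only [Module.Basis.det_apply]
  apply Continuous.matrix_det
  apply continuous_matrix
  intro i j
  simp only [Module.Basis.toMatrix_apply]
  have h1 : Continuous (fun x : 𝔸 => b.repr x i) :=
    (LinearMap.continuous_of_finiteDimensional (b.coord i))
  refine h1.comp ?_
  have h2 : Continuous ρ := LinearMap.continuous_of_finiteDimensional ρ
  change Continuous fun p : (ι → 𝕍) × UG 𝕍 => ρ (star p.2.val * p.1 j * p.2.val)
  refine h2.comp ?_
  have h3 : Continuous fun p : (ι → 𝕍) × UG 𝕍 => p.2.val := UG.continuous_val.comp continuous_snd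
  have h4 : Continuous fun p : (ι → 𝕍) × UG 𝕍 => p.1 j := (continuous_apply j).comp continuous_fst
  exact ((continuous_star.comp h3).mul h4).mul h3

lemma wI_continuous_right (ρ : 𝕍 →ₗ[ℂ] 𝔸) (b : Module.Basis ι ℂ 𝔸) (v : ι → 𝕍) :
    Continuous fun U : UG 𝕍 => wI ρ b v U.val :=
  (wI_continuous ρ b).comp (by fun_prop : Continuous fun U : UG 𝕍 => (v, U))

lemma integrable_UG {E : Type*} [NormedAddCommGroup E] [SecondCountableTopology E]
    {f : UG 𝕍 → E} (hf : Continuous f) :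
    Integrable f (haarU 𝕍) :=
  hf.integrable_of_hasCompactSupport (HasCompactSupport.of_compactSpace f)

/-- the averaged determinant as an alternating map -/
def wAlt (ρ : 𝕍 →ₗ[ℂ] 𝔸) (b : Module.Basis ι ℂ 𝔸) : 𝕍 [⋀^ι]→ₗ[ℂ] ℂ where
  toFun v := ∫ U : UG 𝕍, wI ρ b v U.val ∂(haarU 𝕍)
  map_update_add' := by
    intro dd v i x y
    obtain rfl : dd = hι := Subsingleton.elim _ _
    have h1 := integrable_UG (wI_continuous_right ρ b (update v i x))
    have h2 := integrable_UG (wI_continuous_right ρ b (update v i y))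
    refine Eq.trans ?_ (integral_add h1 h2)
    refine integral_congr_ae (Filter.Eventually.of_forall fun U => ?_)
    exact (b.det.compLinearMap (Cop ρ U.val)).map_update_add v i x y
  map_update_smul' := by
    intro dd v i c x
    obtain rfl : dd = hι := Subsingleton.elim _ _
    refine Eq.trans ?_ (integral_smul c _)
    refine integral_congr_ae (Filter.Eventually.of_forall fun U => ?_)
    exact (b.det.compLinearMap (Cop ρ U.val)).map_update_smul v i c x
  map_eq_zero_of_eq' := by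
    intro v i j hv hij
    have : ∀ U : UG 𝕍, wI ρ b v U.val = 0 := fun U =>
      (b.det.compLinearMap (Cop ρ U.val)).map_eq_zero_of_eq v hv hij
    simp [this]

/-- the averaged determinant as a continuous alternating map -/
def wC (ρ : 𝕍 →ₗ[ℂ] 𝔸) (b : Module.Basis ι ℂ 𝔸) : 𝕍 [⋀^ι]→L[ℂ] ℂ :=
  { wAlt ρ b with
    cont := by
      have h := continuous_parametric_integral_of_continuous (μ := haarU 𝕍)
        (f := fun (v : ι → 𝕍) (U : UG 𝕍) => wI ρ b v U.val) (wI_continuous ρ b) isCompact_univ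
      have h2 : Continuous fun v : ι → 𝕍 => ∫ U : UG 𝕍, wI ρ b v U.val ∂(haarU 𝕍) := by
        simpa using h
      exact h2 }

lemma wC_apply (ρ : 𝕍 →ₗ[ℂ] 𝔸) (b : Module.Basis ι ℂ 𝔸) (v : ι → 𝕍) :
    wC ρ b v = ∫ U : UG 𝕍, wI ρ b v U.val ∂(haarU 𝕍) := rfl

/-- invariance under unitary conjugation -/
lemma wC_conj (ρ : 𝕍 →ₗ[ℂ] 𝔸) (b : Module.Basis ι ℂ 𝔸) (v : ι → 𝕍) (V : 𝕍)
    (hV : V ∈ unitary 𝕍) : wC ρ b (fun i => V * v i * star V) = wC ρ b v := by
  rw [wC_apply, wC_apply]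
  let V' : UG 𝕍 := ⟨star V, Unitary.star_mem hV⟩
  rw [← integral_mul_left_eq_self (fun U : UG 𝕍 => wI ρ b v U.val) V']
  refine integral_congr_ae (Filter.Eventually.of_forall fun U => ?_)
  have h1 : (V' * U).val = star V * U.val := rfl
  simp only [wI, h1]
  congr 1
  funext i
  change ρ (star U.val * (V * v i * star V) * U.val) =
    ρ (star (star V * U.val) * v i * (star V * U.val))
  rw [star_mul, star_star]
  simp only [mul_assoc]

lemma wC_adInv_skew (ρ : 𝕍 →ₗ[ℂ] 𝔸) (b : Module.Basis ι ℂ 𝔸) (v : ι → 𝕍) (B : 𝕍)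
    (hB : B ∈ skewAdjoint 𝕍) : ∑ i, wC ρ b (update v i (B * v i - v i * B)) = 0 := by
  have : CompleteSpace 𝕍 := FiniteDimensional.complete ℂ 𝕍
  set F : ι → ℂ → 𝕍 := fun i z => NormedSpace.exp (z • B) * v i * NormedSpace.exp (z • (-B)) with hF
  have hF' : ∀ i, HasDerivAt (F i) (B * v i - v i * B) 0 := by
    intro i
    have h1 : HasDerivAt (fun z : ℂ => NormedSpace.exp (z • B)) B 0 := by
      have := hasDerivAt_exp_smul_const (𝕂 := ℂ) B 0
      simpa using this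
    have h2 : HasDerivAt (fun z : ℂ => NormedSpace.exp (z • (-B))) (-B) 0 := by
      have := hasDerivAt_exp_smul_const (𝕂 := ℂ) (-B) 0
      simpa using this
    have h3 := (h1.mul_const (v i)).mul h2
    have e : B * v i - v i * B = B * v i * NormedSpace.exp ((0 : ℂ) • -B) +
        NormedSpace.exp ((0 : ℂ) • B) * v i * -B := by
      rw [zero_smul, zero_smul, NormedSpace.exp_zero, mul_one, one_mul, mul_neg, sub_eq_add_neg]
    rw [e]
    exact h3
  have hF0 : ∀ i, F i 0 = v i := by intro i; simp [hF]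
  have hd := alt_hasFDerivAt (wC ρ b) (p := (0 : ℂ)) (fun i => (hF' i).differentiableAt)
  have hval : fderiv ℂ (fun z => wC ρ b (fun i => F i z)) 0 1 =
      ∑ i, wC ρ b (update v i (B * v i - v i * B)) := by
    rw [hd.2 1]
    refine sum_congr rfl fun i _ => ?_
    have e1 : (fun i => F i 0) = v := funext hF0
    rw [e1]
    have e2 : fderiv ℂ (F i) 0 1 = B * v i - v i * B := by
      have := (hF' i).deriv
      rw [← this]; rfl
    rw [e2]
  have hderiv : HasDerivAt (fun z => wC ρ b (fun i => F i z))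
      (∑ i, wC ρ b (update v i (B * v i - v i * B))) (0 : ℂ) := by
    rw [← hval]
    exact hd.1.hasDerivAt
  have hreal : HasDerivAt (fun t : ℝ => wC ρ b (fun i => F i (t : ℂ)))
      (∑ i, wC ρ b (update v i (B * v i - v i * B))) (0 : ℝ) := by
    have h0 : HasDerivAt (fun z => wC ρ b (fun i => F i z))
      (∑ i, wC ρ b (update v i (B * v i - v i * B))) ((0 : ℝ) : ℂ) := by simpa using hderiv
    exact h0.comp_ofReal
  have hconst : (fun t : ℝ => wC ρ b (fun i => F i (t : ℂ))) = fun _ => wC ρ b v := by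
    funext t
    have hsk : t • B ∈ skewAdjoint 𝕍 := skewAdjoint.smul_mem t hB
    letI : NormedAlgebra ℚ 𝕍 := NormedAlgebra.restrictScalars ℚ ℂ 𝕍
    have hu := NormedSpace.exp_mem_unitary_of_mem_skewAdjoint hsk
    have e1 : ∀ i, F i (t : ℂ) = NormedSpace.exp (t • B) * v i * star (NormedSpace.exp (t • B)) := by
      intro i
      simp only [hF]
      rw [NormedSpace.star_exp, skewAdjoint.mem_iff.1 hsk]
      simp
    simp_rw [e1]
    exact wC_conj ρ b v _ hu
  rw [hconst] at hreal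
  exact hreal.unique (hasDerivAt_const _ _)

/-- the averaged determinant is infinitesimally Ad-invariant. -/
theorem wC_adInv (ρ : 𝕍 →ₗ[ℂ] 𝔸) (b : Module.Basis ι ℂ 𝔸) :
    AdInv (wC ρ b).toAlternatingMap := by
  intro B v
  have hadd : ∀ B C : 𝕍, ∑ i, wC ρ b (update v i ((B + C) * v i - v i * (B + C))) =
      ∑ i, wC ρ b (update v i (B * v i - v i * B)) +
      ∑ i, wC ρ b (update v i (C * v i - v i * C)) := by
    intro B C
    rw [← sum_add_distrib]
    refine sum_congr rfl fun i _ => ?_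
    rw [← ContinuousAlternatingMap.map_update_add]
    congr 2
    noncomm_ring
  have hsmul : ∀ (c : ℂ) (B : 𝕍), ∑ i, wC ρ b (update v i ((c • B) * v i - v i * (c • B))) =
      c • ∑ i, wC ρ b (update v i (B * v i - v i * B)) := by
    intro c B
    rw [smul_sum]
    refine sum_congr rfl fun i _ => ?_
    rw [← ContinuousAlternatingMap.map_update_smul]
    congr 2
    rw [smul_sub, smul_mul_assoc, mul_smul_comm]
  set B1 : 𝕍 := (1/2 : ℂ) • (B - star B) with hB1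
  set B2 : 𝕍 := (-(Complex.I / 2)) • (B + star B) with hB2
  have h1 : B1 ∈ skewAdjoint 𝕍 := by
    rw [skewAdjoint.mem_iff, hB1, star_smul, star_sub, star_star]
    simp only [one_div, RCLike.star_def, map_inv₀, map_ofNat]
    rw [← smul_neg, neg_sub]
  have h2 : B2 ∈ skewAdjoint 𝕍 := by
    rw [skewAdjoint.mem_iff, hB2, star_smul, star_add, star_star]
    simp only [RCLike.star_def, map_neg, map_div₀, Complex.conj_I, map_ofNat]
    rw [← neg_smul, add_comm B]
    congr 1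
    ring
  have hB : B = B1 + Complex.I • B2 := by
    rw [hB1, hB2, smul_smul]
    have : Complex.I * (-(Complex.I / 2)) = 1/2 := by
      have := Complex.I_mul_I
      linear_combination (-1/2 : ℂ) * this
    rw [this, ← smul_add]
    have : B - star B + (B + star B) = (2 : ℂ) • B := by
      rw [two_smul]; abel
    rw [this, smul_smul]
    norm_num
  change ∑ i, wC ρ b (update v i (B * v i - v i * B)) = 0
  rw [hB, hadd B1 (Complex.I • B2), hsmul Complex.I B2, wC_adInv_skew ρ b v B1 h1,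
    wC_adInv_skew ρ b v B2 h2]
  simp

end

end Crest.Agent.R174.HInv
end

-- ▼ part R174/HInvMain

/-!
R174, block G2 + G3: homotopy invariance `T1`.
-/

set_option autoImplicit false
set_option linter.unusedSectionVars false

namespace Crest.Agent.R174.HInv

open Function Finset MeasureTheory
open Crest.Agent.R174.GR Crest.Agent.R174.GRHaar

noncomputable section

variable {𝔸 : Type} [NormedRing 𝔸] [StarRing 𝔸] [CStarRing 𝔸] [NormedAlgebra ℂ 𝔸]
  [StarModule ℂ 𝔸] [FiniteDimensional ℂ 𝔸]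
variable {𝕍 : Type} [NormedRing 𝕍] [StarRing 𝕍] [CStarRing 𝕍] [NormedAlgebra ℂ 𝕍]
  [StarModule ℂ 𝕍] [FiniteDimensional ℂ 𝕍]
variable {ι : Type} [Fintype ι] [hι : DecidableEq ι]

lemma det_comp_eq (ρ : 𝕍 →ₗ[ℂ] 𝔸) (b : Module.Basis ι ℂ 𝔸) (L : 𝔸 →ₗ[ℂ] 𝕍) (U : 𝕍) :
    LinearMap.det (Cop ρ U ∘ₗ L) = wI ρ b (fun i => L (b i)) U := by
  rw [← LinearMap.det_toMatrix b, wI, Module.Basis.det_apply]
  congr 1
  ext i j
  rw [LinearMap.toMatrix_apply, Module.Basis.toMatrix_apply]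
  rfl

lemma Aop_eq_theta {Ψ : ℂ × 𝔸 → 𝕍} {s : ℂ} {σ : 𝔸} (hΨ : DifferentiableAt ℂ Ψ (s, σ)) (ξ : 𝔸) :
    Aop (fun X => Ψ (s, X)) σ ξ = theta Ψ (XX ξ) (s, σ) := by
  have h1 : HasFDerivAt (fun X : 𝔸 => ((s, X) : ℂ × 𝔸)) (ContinuousLinearMap.inr ℂ ℂ 𝔸) σ :=
    hasFDerivAt_prodMk_right s σ
  have h2 : HasFDerivAt (fun X => Ψ (s, X))
      ((fderiv ℂ Ψ (s, σ)).comp (ContinuousLinearMap.inr ℂ ℂ 𝔸)) σ :=
    hΨ.hasFDerivAt.comp σ h1
  change fderiv ℂ (fun X => Ψ (s, X)) σ (ξ * σ) * Ring.inverse (Ψ (s, σ)) = _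
  rw [h2.fderiv]
  rfl

lemma DD_eq (ρ : 𝕍 →ₗ[ℂ] 𝔸) (b : Module.Basis ι ℂ 𝔸) {Ψ : ℂ × 𝔸 → 𝕍} {s : ℂ}
    (hΨ : ∀ σ ∈ unitary 𝔸, DifferentiableAt ℂ Ψ (s, σ)) :
    DD ρ (fun X => Ψ (s, X)) = ∫ σ : UG 𝔸, wA (wC ρ b) b Ψ (s, σ.val) ∂(haarU 𝔸) := by
  unfold DD
  refine integral_congr_ae (Filter.Eventually.of_forall fun σ => ?_)
  simp only
  rw [wA, wC_apply]
  refine integral_congr_ae (Filter.Eventually.of_forall fun U => ?_)
  simp only
  rw [det_comp_eq ρ b]
  congr 1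
  funext i
  exact Aop_eq_theta (hΨ _ σ.val_mem) (b i)

theorem t1 : T1 𝔸 𝕍 := by
  intro htr ρ Ψ hsm hu
  have hcA : CompleteSpace 𝔸 := FiniteDimensional.complete ℂ 𝔸
  have hcV : CompleteSpace 𝕍 := FiniteDimensional.complete ℂ 𝕍
  let b := Module.finBasis ℂ 𝔸
  set w := wC ρ b with hw
  have hsm' : ∀ (n : WithTop ℕ∞) (s : ℝ), s ∈ Set.Icc (0:ℝ) 1 → ∀ σ ∈ unitary 𝔸,
      ContDiffAt ℂ n Ψ ((s : ℂ), σ) := fun n s hs σ hσ => (hsm s hs σ hσ).of_le le_top
  -- the function of `s`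
  set F : ℝ → ℂ := fun s => ∫ σ : UG 𝔸, wA w b Ψ ((s : ℂ), σ.val) ∂(haarU 𝔸) with hF
  have hDD : ∀ s : ℝ, s ∈ Set.Icc (0:ℝ) 1 → DD ρ (fun X => Ψ ((s : ℂ), X)) = F s := by
    intro s hs
    exact DD_eq ρ b fun σ hσ => (hsm' 1 s hs σ hσ).differentiableAt (by norm_num)
  have hemb : Continuous fun p : ℝ × UG 𝔸 => ((p.1 : ℂ), p.2.val) :=
    (Complex.continuous_ofReal.comp continuous_fst).prodMk (UG.continuous_val.comp continuous_snd)
  have hwA : ∀ s : ℝ, s ∈ Set.Icc (0:ℝ) 1 → ∀ σ ∈ unitary 𝔸,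
      ContDiffAt ℂ 1 (wA w b Ψ) ((s : ℂ), σ) := fun s hs σ hσ =>
    wA_contDiffAt w b (hsm' (1 + 1) s hs σ hσ) (hu s hs σ hσ)
  have hwB : ∀ s : ℝ, s ∈ Set.Icc (0:ℝ) 1 → ∀ σ ∈ unitary 𝔸, ∀ i,
      ContDiffAt ℂ 1 (wB w b Ψ i) ((s : ℂ), σ) := fun s hs σ hσ i =>
    wB_contDiffAt w b (hsm' (1 + 1) s hs σ hσ) (hu s hs σ hσ) i
  -- continuity
  have hcont : ContinuousOn (fun p : ℝ × UG 𝔸 => wA w b Ψ ((p.1 : ℂ), p.2.val))
      (Set.Icc (0:ℝ) 1 ×ˢ Set.univ) := by
    intro p hp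
    have h1 : ContinuousAt (wA w b Ψ) ((p.1 : ℂ), p.2.val) :=
      (hwA p.1 hp.1 p.2.val p.2.val_mem).continuousAt
    exact (ContinuousAt.comp (f := fun p : ℝ × UG 𝔸 => ((p.1 : ℂ), p.2.val)) h1
      hemb.continuousAt).continuousWithinAt
  have hcont' : ContinuousOn (fun p : ℝ × UG 𝔸 => fderiv ℂ (wA w b Ψ) ((p.1 : ℂ), p.2.val) (1, 0))
      (Set.Icc (0:ℝ) 1 ×ˢ Set.univ) := by
    intro p hp
    have h1 : ContinuousAt (fderiv ℂ (wA w b Ψ)) ((p.1 : ℂ), p.2.val) :=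
      ((hwA p.1 hp.1 p.2.val p.2.val_mem).fderiv_right (m := 0) (by norm_num)).continuousAt
    have h2 : ContinuousAt (fun q => fderiv ℂ (wA w b Ψ) q (1, 0)) ((p.1 : ℂ), p.2.val) :=
      h1.clm_apply continuousAt_const
    exact (ContinuousAt.comp (f := fun p : ℝ × UG 𝔸 => ((p.1 : ℂ), p.2.val)) h2
      hemb.continuousAt).continuousWithinAt
  have hFc : ContinuousOn F (Set.Icc (0:ℝ) 1) :=
    continuousOn_integral (haarU 𝔸) (F := fun (s : ℝ) σ => wA w b Ψ ((s : ℂ), σ.val)) hcont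
  -- derivative zero
  have hFd : ∀ s ∈ Set.Ioo (0:ℝ) 1, HasDerivAt F 0 s := by
    intro s hs
    have hs' : s ∈ Set.Icc (0:ℝ) 1 := Set.Ioo_subset_Icc_self hs
    have hd := hasDerivAt_integral (haarU 𝔸) (F := fun s σ => wA w b Ψ ((s : ℂ), σ.val))
      (F' := fun s σ => fderiv ℂ (wA w b Ψ) ((s : ℂ), σ.val) (1, 0)) (s := Set.Icc (0:ℝ) 1)
      (t₀ := s) (Icc_mem_nhds hs.1 hs.2) ?_ ?_ hcont'
    · have hzero : ∫ σ : UG 𝔸, fderiv ℂ (wA w b Ψ) ((s : ℂ), σ.val) (1, 0) ∂(haarU 𝔸) = 0 := by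
        have e1 : ∀ σ : UG 𝔸, fderiv ℂ (wA w b Ψ) ((s : ℂ), σ.val) (1, 0) =
            ∑ i, fderiv ℂ (fun X => wB w b Ψ i ((s : ℂ), X)) σ.val (b i * σ.val) := by
          intro σ
          rw [div_identity w (wC_adInv ρ b) b htr (hsm' 2 s hs' _ σ.val_mem) (hu s hs' _ σ.val_mem)]
          refine sum_congr rfl fun i _ => ?_
          have h1 : HasFDerivAt (fun X : 𝔸 => (((s : ℂ), X) : ℂ × 𝔸))
              (ContinuousLinearMap.inr ℂ ℂ 𝔸) σ.val := hasFDerivAt_prodMk_right _ _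
          have h2 : HasFDerivAt (fun X => wB w b Ψ i ((s : ℂ), X))
              ((fderiv ℂ (wB w b Ψ i) ((s : ℂ), σ.val)).comp (ContinuousLinearMap.inr ℂ ℂ 𝔸))
              σ.val :=
            ((hwB s hs' _ σ.val_mem i).differentiableAt (by norm_num)).hasFDerivAt.comp σ.val h1
          rw [h2.fderiv]
          rfl
        have e2 : ∀ i, ∀ σ ∈ unitary 𝔸, ContDiffAt ℂ 1 (fun X => wB w b Ψ i ((s : ℂ), X)) σ := by
          intro i σ hσ
          have h3 : ContDiffAt ℂ 1 (fun X : 𝔸 => (((s : ℂ), X) : ℂ × 𝔸)) σ :=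
            contDiffAt_const.prodMk contDiffAt_id
          exact ContDiffAt.comp (f := fun X : 𝔸 => (((s : ℂ), X) : ℂ × 𝔸)) σ (hwB s hs' σ hσ i) h3
        have e3 : ∀ i, Continuous fun σ : UG 𝔸 =>
            fderiv ℂ (fun X => wB w b Ψ i ((s : ℂ), X)) σ.val (b i * σ.val) := by
          intro i
          rw [continuous_iff_continuousAt]
          intro σ
          have h4 : ContinuousAt (fderiv ℂ (fun X => wB w b Ψ i ((s : ℂ), X))) σ.val :=
            ((e2 i σ.val σ.val_mem).fderiv_right (m := 0) (by norm_num)).continuousAt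
          have h5 : ContinuousAt (fun σ : UG 𝔸 =>
              fderiv ℂ (fun X => wB w b Ψ i ((s : ℂ), X)) σ.val) σ :=
            ContinuousAt.comp (f := fun σ : UG 𝔸 => σ.val) h4 UG.continuous_val.continuousAt
          exact h5.clm_apply (continuousAt_const.mul UG.continuous_val.continuousAt)
        simp_rw [e1]
        rw [integral_finsetSum]
        · exact sum_eq_zero fun i _ => integral_fderiv_eq_zero (e2 i) (b i)
        · exact fun i _ => integrable_UG (e3 i)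
      rw [hzero] at hd
      exact hd
    · intro t ht σ
      have h1 : HasFDerivAt (wA w b Ψ) (fderiv ℂ (wA w b Ψ) ((t : ℂ), σ.val)) ((t : ℂ), σ.val) :=
        ((hwA t ht _ σ.val_mem).differentiableAt (by norm_num)).hasFDerivAt
      have h2 : HasDerivAt (fun z : ℂ => ((z, σ.val) : ℂ × 𝔸)) (1, 0) (t : ℂ) :=
        (hasDerivAt_id _).prodMk (hasDerivAt_const _ _)
      have h3 : HasDerivAt (fun z : ℂ => wA w b Ψ (z, σ.val))
          (fderiv ℂ (wA w b Ψ) ((t : ℂ), σ.val) (1, 0)) (t : ℂ) :=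
        HasFDerivAt.comp_hasDerivAt (f := fun z : ℂ => ((z, σ.val) : ℂ × 𝔸)) (t : ℂ) h1 h2
      exact h3.comp_ofReal
    · intro t ht
      rw [continuous_iff_continuousAt]
      intro σ
      have h1 : ContinuousAt (wA w b Ψ) ((t : ℂ), σ.val) := (hwA t ht _ σ.val_mem).continuousAt
      have h2 : Continuous fun σ : UG 𝔸 => (((t : ℂ), σ.val) : ℂ × 𝔸) :=
        continuous_const.prodMk UG.continuous_val
      exact ContinuousAt.comp (f := fun σ : UG 𝔸 => (((t : ℂ), σ.val) : ℂ × 𝔸)) h1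
        h2.continuousAt
  -- constant on the open interval
  have hconst : Set.EqOn F (fun _ => F (1/2)) (Set.Ioo (0:ℝ) 1) := by
    intro s hs
    have hdiff : DifferentiableOn ℝ F (Set.Ioo (0:ℝ) 1) := fun x hx =>
      (hFd x hx).differentiableAt.differentiableWithinAt
    exact isOpen_Ioo.is_const_of_deriv_eq_zero (𝕜 := ℝ) (s := Set.Ioo (0:ℝ) 1)
      isPreconnected_Ioo hdiff (fun x hx => (hFd x hx).deriv) hs (by norm_num)
  have hclos : Set.EqOn F (fun _ => F (1/2)) (Set.Icc (0:ℝ) 1) :=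
    hconst.of_subset_closure hFc continuousOn_const Set.Ioo_subset_Icc_self
      (by rw [closure_Ioo (by norm_num)])
  have h0 := hDD 0 (by norm_num)
  have h1 := hDD 1 (by norm_num)
  simp only [Complex.ofReal_zero, Complex.ofReal_one] at h0 h1
  rw [h0, h1, hclos (by norm_num : (0:ℝ) ∈ Set.Icc (0:ℝ) 1),
    hclos (by norm_num : (1:ℝ) ∈ Set.Icc (0:ℝ) 1)]

end

end Crest.Agent.R174.HInv
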