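import Mathlib
import Crest.Agent.R174.WD126

set_option autoImplicit false

/-!
# R174 : traces of powers of monomial matrices (helper126)
-/

namespace Crest.Agent.R174.WD

universe u

variable {G : Type u} [Group G] {P : Type} [Fintype P] [DecidableEq P]

theorem mono_mul (n1 n2 : P → P) (g1 g2 : P → G) (z1 z2 : P → ℂ) :
    mono n1 g1 z1 * mono n2 g2 z2 =
      mono (fun i => n1 (n2 i)) (fun i => g1 (n2 i) * g2 i) (fun i => z1 (n2 i) * z2 i) := by
  ext1 j i
  rw [Matrix.mul_apply]
  simp only [mono, Matrix.of_apply]
  rw [Finset.sum_eq_single (n2 i)]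
  · simp only [if_true]
    split_ifs with h
    · rw [MonoidAlgebra.single_mul_single]
    · rw [zero_mul]
  · intro k _ hk
    rw [if_neg hk, mul_zero]
  · intro h; exact absurd (Finset.mem_univ _) h

omit [Fintype P] in
theorem mono_one : mono (fun i : P => i) (fun _ => (1 : G)) (fun _ => (1 : ℂ)) = 1 := by
  ext1 j i
  simp only [mono, Matrix.of_apply, Matrix.one_apply]
  rfl

/-- accumulated group label (later factors on the left) -/
def gacc (nxt : P → P) (g : P → G) : ℕ → P → G
  | 0, _ => 1
  | q + 1, i => g (nxt^[q] i) * gacc nxt g q i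

/-- accumulated scalar -/
noncomputable def zacc (nxt : P → P) (z : P → ℂ) : ℕ → P → ℂ
  | 0, _ => 1
  | q + 1, i => z (nxt^[q] i) * zacc nxt z q i

theorem mono_pow (nxt : P → P) (g : P → G) (z : P → ℂ) (q : ℕ) :
    mono nxt g z ^ q = mono (nxt^[q]) (gacc nxt g q) (zacc nxt z q) := by
  induction q with
  | zero =>
    rw [pow_zero]
    exact mono_one.symm
  | succ q ih =>
    rw [pow_succ', ih, mono_mul]
    congr 1
    funext i
    exact (Function.iterate_succ_apply' nxt q i).symm

open Classical in
theorem trG_mono (nxt : P → P) (g : P → G) (z : P → ℂ) :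
    trG (mono nxt g z) = ∑ i, if nxt i = i then (if g i = 1 then z i else 0) else 0 := by
  unfold trG mono
  refine Finset.sum_congr rfl fun i _ => ?_
  simp only [Matrix.of_apply]
  by_cases h : nxt i = i
  · rw [if_pos h.symm, if_pos h, MonoidAlgebra.coeff_single, Finsupp.single_apply]
  · rw [if_neg (fun h' => h h'.symm), if_neg h]
    simp

section cyc

variable (nxt : P → P) (g : P → G) (z : P → ℂ)

omit [Fintype P] [DecidableEq P] in
theorem gacc_add (q1 q2 : ℕ) (i : P) :
    gacc nxt g (q1 + q2) i = gacc nxt g q2 (nxt^[q1] i) * gacc nxt g q1 i := by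
  induction q2 with
  | zero => simp [gacc]
  | succ q2 ih =>
    rw [← add_assoc, gacc, ih, gacc, ← mul_assoc, add_comm q1 q2, Function.iterate_add_apply]

omit [Fintype P] [DecidableEq P] in
theorem zacc_add (q1 q2 : ℕ) (i : P) :
    zacc nxt z (q1 + q2) i = zacc nxt z q2 (nxt^[q1] i) * zacc nxt z q1 i := by
  induction q2 with
  | zero => simp [zacc]
  | succ q2 ih =>
    rw [← add_assoc, zacc, ih, zacc, ← mul_assoc, add_comm q1 q2, Function.iterate_add_apply]

omit [Fintype P] [DecidableEq P] in
theorem gacc_mul (c : ℕ) (i : P) (hi : nxt^[c] i = i) (k : ℕ) :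
    gacc nxt g (c * k) i = gacc nxt g c i ^ k := by
  induction k with
  | zero => simp [gacc]
  | succ k ih =>
    rw [Nat.mul_succ, add_comm, gacc_add, hi, ih, pow_succ]

omit [Fintype P] [DecidableEq P] in
theorem zacc_mul (c : ℕ) (i : P) (hi : nxt^[c] i = i) (k : ℕ) :
    zacc nxt z (c * k) i = zacc nxt z c i ^ k := by
  induction k with
  | zero => simp [zacc]
  | succ k ih =>
    rw [Nat.mul_succ, add_comm, zacc_add, hi, ih, pow_succ]

omit [Fintype P] [DecidableEq P] in
theorem gacc_next (c : ℕ) (i : P) (hi : nxt^[c] i = i) :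
    gacc nxt g c (nxt i) = g i * gacc nxt g c i * (g i)⁻¹ := by
  have h1 := gacc_add nxt g 1 c i
  have h2 := gacc_add nxt g c 1 i
  have h3 : ∀ j, gacc nxt g 1 j = g j := fun j => by simp [gacc]
  rw [h3, Function.iterate_one] at h1
  rw [h3, hi, add_comm, h1] at h2
  rw [← h2]; group

omit [Fintype P] [DecidableEq P] in
theorem zacc_next (hz : ∀ i, z i ≠ 0) (c : ℕ) (i : P) (hi : nxt^[c] i = i) :
    zacc nxt z c (nxt i) = zacc nxt z c i := by
  have h1 := zacc_add nxt z 1 c i
  have h2 := zacc_add nxt z c 1 i
  have h3 : ∀ j, zacc nxt z 1 j = z j := fun j => by simp [zacc]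
  rw [h3, Function.iterate_one] at h1
  rw [h3, hi, add_comm, h1, mul_comm] at h2
  exact mul_left_cancel₀ (hz i) h2

omit [Fintype P] [DecidableEq P] in
theorem iterate_getElem {C : List P} (hC : C ≠ []) (hcyc : C.map nxt = C.rotate 1) (q : ℕ) :
    ∀ j : ℕ, nxt^[q] (C[j % C.length]'(Nat.mod_lt _ (List.length_pos_iff.2 hC))) =
      C[(j + q) % C.length]'(Nat.mod_lt _ (List.length_pos_iff.2 hC)) := by
  have hpos := List.length_pos_iff.2 hC
  have key : ∀ j (hj : j < C.length), nxt (C[j]) = C[(j + 1) % C.length]'(Nat.mod_lt _ hpos) := by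
    intro j hj
    have h1 : (C.map nxt)[j]'(by simpa using hj) = (C.rotate 1)[j]'(by simpa using hj) := by
      simp only [hcyc]
    rw [List.getElem_map, List.getElem_rotate] at h1
    exact h1
  induction q with
  | zero => intro j; simp
  | succ q ih =>
    intro j
    rw [Function.iterate_succ_apply', ih, key _ (Nat.mod_lt _ hpos)]
    congr 1
    rw [Nat.mod_add_mod, add_assoc]

omit [Fintype P] [DecidableEq P] in
theorem gacc_head {C : List P} (hC : C ≠ []) (hcyc : C.map nxt = C.rotate 1) :
    ∀ q (hq : q ≤ C.length), gacc nxt g q (C[0]'(List.length_pos_iff.2 hC)) =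
      ((C.take q).map g).reverse.prod := by
  have hpos := List.length_pos_iff.2 hC
  intro q
  induction q with
  | zero => intro _; simp [gacc]
  | succ q ih =>
    intro hq
    rw [gacc, ih (by omega)]
    have h1 := iterate_getElem nxt hC hcyc q 0
    simp only [Nat.zero_mod, zero_add] at h1
    rw [h1]
    have h2 : q % C.length = q := Nat.mod_eq_of_lt (by omega)
    rw [List.take_succ_eq_append_getElem (by omega : q < C.length), List.map_append,
      List.reverse_append, List.prod_append]
    simp only [h2, List.map_cons, List.map_nil, List.reverse_cons, List.reverse_nil, List.nil_append,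
      List.prod_cons, List.prod_nil, mul_one]

omit [Fintype P] [DecidableEq P] in
theorem zacc_head {C : List P} (hC : C ≠ []) (hcyc : C.map nxt = C.rotate 1) :
    ∀ q (hq : q ≤ C.length), zacc nxt z q (C[0]'(List.length_pos_iff.2 hC)) =
      ((C.take q).map z).prod := by
  have hpos := List.length_pos_iff.2 hC
  intro q
  induction q with
  | zero => intro _; simp [zacc]
  | succ q ih =>
    intro hq
    rw [zacc, ih (by omega)]
    have h1 := iterate_getElem nxt hC hcyc q 0
    simp only [Nat.zero_mod, zero_add] at h1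
    rw [h1]
    have h2 : q % C.length = q := Nat.mod_eq_of_lt (by omega)
    rw [List.take_succ_eq_append_getElem (by omega : q < C.length), List.map_append,
      List.prod_append]
    simp only [h2, List.map_cons, List.map_nil, List.prod_cons, List.prod_nil, mul_one]
    rw [mul_comm]

open Classical in
/-- the contribution of a cycle of length `c`, with label `h` and scalar `ζ`, to the trace of the
`q`-th power -/
noncomputable def cterm (c : ℕ) (h : G) (ζ : ℂ) (q : ℕ) : ℂ :=
  if c ∣ q then (c : ℂ) * (if h ^ (q / c) = 1 then ζ ^ (q / c) else 0) else 0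

open Classical in
omit [Fintype P] in
theorem cyc_sum {C : List P} (hC : C ≠ []) (hnd : C.Nodup) (hcyc : C.map nxt = C.rotate 1)
    (hz : ∀ i, z i ≠ 0) (q : ℕ) :
    (C.map fun i => if nxt^[q] i = i then (if gacc nxt g q i = 1 then zacc nxt z q i else 0) else 0).sum
      = cterm C.length ((C.map g).reverse.prod) ((C.map z).prod) q := by
  have hpos := List.length_pos_iff.2 hC
  -- every element is `C[j]`
  have hper : ∀ j (hj : j < C.length), nxt^[C.length] (C[j]) = C[j] := by
    intro j hj
    have h := iterate_getElem nxt hC hcyc C.length j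
    simp only [Nat.mod_eq_of_lt hj, Nat.add_mod_right] at h
    exact h
  have hG : ∀ j (hj : j < C.length), ∀ k : ℕ, (gacc nxt g C.length (C[j])) ^ k = 1 ↔
      ((C.map g).reverse.prod) ^ k = 1 := by
    intro j
    induction j with
    | zero =>
      intro hj k
      rw [gacc_head nxt g hC hcyc C.length le_rfl, List.take_length]
    | succ j ih =>
      intro hj k
      have h1 := iterate_getElem nxt hC hcyc 1 j
      simp only [Nat.mod_eq_of_lt (by omega : j < C.length), Nat.mod_eq_of_lt hj,
        Function.iterate_one] at h1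
      rw [← h1, gacc_next nxt g _ _ (hper j (by omega)), conj_pow, ← ih (by omega) k]
      constructor
      · intro h
        rw [mul_inv_eq_one, mul_eq_left] at h
        exact h
      · intro h; rw [h]; simp
  have hZ : ∀ j (hj : j < C.length), zacc nxt z C.length (C[j]) = (C.map z).prod := by
    intro j
    induction j with
    | zero =>
      intro hj
      rw [zacc_head nxt z hC hcyc C.length le_rfl, List.take_length]
    | succ j ih =>
      intro hj
      have h1 := iterate_getElem nxt hC hcyc 1 j
      simp only [Nat.mod_eq_of_lt (by omega : j < C.length), Nat.mod_eq_of_lt hj,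
        Function.iterate_one] at h1
      rw [← h1, zacc_next nxt z hz _ _ (hper j (by omega)), ih (by omega)]
  have hterm : ∀ i ∈ C, (if nxt^[q] i = i then (if gacc nxt g q i = 1 then zacc nxt z q i else 0)
      else 0) = (if C.length ∣ q then (if ((C.map g).reverse.prod) ^ (q / C.length) = 1 then
        ((C.map z).prod) ^ (q / C.length) else 0) else 0) := by
    intro i hi
    obtain ⟨j, hj, rfl⟩ := List.getElem_of_mem hi
    have h1 := iterate_getElem nxt hC hcyc q j
    simp only [Nat.mod_eq_of_lt hj] at h1
    by_cases hd : C.length ∣ q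
    · obtain ⟨k, rfl⟩ := hd
      have h2 : nxt^[C.length * k] (C[j]) = C[j] := by
        rw [h1]
        simp [Nat.mod_eq_of_lt hj]
      rw [if_pos h2, if_pos (Dvd.intro k rfl), gacc_mul nxt g _ _ (hper j hj),
        zacc_mul nxt z _ _ (hper j hj), hZ j hj, Nat.mul_div_cancel_left k hpos]
      simp only [hG j hj k]
    · rw [if_neg hd, if_neg]
      intro h2
      rw [h1] at h2
      have h3 := (List.Nodup.getElem_inj_iff hnd).1 h2
      apply hd
      have h4 : (j + q) % C.length = j % C.length := by rw [h3, Nat.mod_eq_of_lt hj]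
      have h5 := (Nat.modEq_iff_dvd' (Nat.le_add_right j q)).1 (show j ≡ j + q [MOD C.length] from h4.symm)
      simpa using h5
  rw [List.map_congr_left hterm]
  unfold cterm
  split_ifs <;> simp

/-- **Trace of the powers of a monomial matrix** whose cycles are listed. -/
theorem trG_mono_pow (cs : List (List P)) (hnd : cs.flatten.Nodup) (hall : ∀ i, i ∈ cs.flatten)
    (hcyc : ∀ C ∈ cs, C ≠ [] ∧ C.map nxt = C.rotate 1) (hz : ∀ i, z i ≠ 0) (q : ℕ) :
    trG (mono nxt g z ^ q) =
      (cs.map fun C => cterm C.length ((C.map g).reverse.prod) ((C.map z).prod) q).sum := by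
  classical
  rw [mono_pow, trG_mono]
  have h1 : (Finset.univ : Finset P) = cs.flatten.toFinset := by
    ext i; simp only [Finset.mem_univ, true_iff, List.mem_toFinset]; exact hall i
  rw [h1, List.sum_toFinset _ hnd, List.map_flatten, List.sum_flatten, List.map_map]
  congr 1
  apply List.map_congr_left
  intro C hC
  have hndC : C.Nodup := (List.nodup_flatten.1 hnd).1 C hC
  simp only [Function.comp]
  rw [← cyc_sum nxt g z (hcyc C hC).1 hndC (hcyc C hC).2 hz q]

end cyc

end Crest.Agent.R174.WD
private theorem rz_b353ab454b : type_of% @_root_.Crest.Agent.R174.WD.gacc.eq_def := @_root_.Crest.Agent.R174.WD.gacc.eq_def -- L38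
private theorem rz_0790e319bf : type_of% @_root_.Crest.Agent.R174.WD.gacc.eq_1 := @_root_.Crest.Agent.R174.WD.gacc.eq_1 -- L38
private theorem rz_bad736177b : type_of% @_root_.Crest.Agent.R174.WD.zacc.eq_def := @_root_.Crest.Agent.R174.WD.zacc.eq_def -- L43
private theorem rz_53614244d1 : type_of% @_root_.Crest.Agent.R174.WD.zacc.eq_1 := @_root_.Crest.Agent.R174.WD.zacc.eq_1 -- L43
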