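import Mathlib
import Crest.Agent.R174.Lim259
import Crest.Agent.R174.Mono126
import Crest.Agent.R174.Red259
import Crest.Agent.R174.WD126

-- ▼ part R174/Glue83c
section

set_option autoImplicit false

/-!
# R174, W7b (helper83): generalised limit inequality, bridge from `cterm` to `imT`
-/

open Finset Filter Topology

namespace Crest.Agent.R174.Glue

open Crest.Agent.R174.W6 Crest.Agent.R174.Lim

/-- `limit_ineq` of `Lim259` with variable phases `-e v`, `0 < e v ≤ ε < 1`. -/
theorem limit_ineq' {ιX ιY : Type*} [Fintype ιX] [DecidableEq ιX] [Fintype ιY] (v0 : ιX)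
    (cX mX : ιX → ℕ) (βX : ιX → ℝ) (hcX : ∀ v, 0 < cX v) (hm : ∀ v, v ≠ v0 → mX v = 1)
    (hm0 : mX v0 ≠ 1) (ε : ℝ) (hε1 : ε < 1)
    (hβX : ∀ v, v ≠ v0 → ∃ e : ℝ, 0 < e ∧ e ≤ ε ∧ βX v = -e)
    (cY : ιY → ℕ) (βY : ιY → ℝ) (hcY : ∀ v, 0 < cY v)
    (hβY0 : ∀ v, 0 < βY v) (hβY1 : ∀ v, βY v < 1) (D : ℝ)
    (hineq : ∀ K : ℕ, 0 < K → SK (imT cY (fun _ => 1) βY) K ≤ SK (imT cX mX βX) K + D) :
    ∑ v, (1 / 2 - βY v) ≤ -((Fintype.card ιX : ℝ) - 1) * (1 / 2 - ε) + 1 / 4 + D := by
  classical
  -- the common modulus
  set L : ℕ := (∏ v, cY v) * ∏ v, (if mX v = 0 then 1 else cX v * mX v) with hLdef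
  have hL : 0 < L := by
    apply Nat.mul_pos
    · exact Finset.prod_pos fun v _ => hcY v
    · apply Finset.prod_pos
      intro v _
      split_ifs with h
      · exact one_pos
      · exact Nat.mul_pos (hcX v) (Nat.pos_of_ne_zero h)
  have hdY : ∀ v, cY v * 1 ∣ L := by
    intro v
    rw [mul_one]
    exact (Finset.dvd_prod_of_mem cY (mem_univ v)).mul_right _
  have hdX : ∀ v, mX v ≠ 0 → cX v * mX v ∣ L := by
    intro v h
    have h1 : (if mX v = 0 then 1 else cX v * mX v) ∣ ∏ v, (if mX v = 0 then 1 else cX v * mX v) :=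
      Finset.dvd_prod_of_mem (fun v => if mX v = 0 then 1 else cX v * mX v) (mem_univ v)
    rw [if_neg h] at h1
    exact h1.mul_left _
  -- limit of Y
  have hY : Tendsto (fun k : ℕ => SK (imT cY (fun _ => 1) βY) (L * (k + 1))) atTop
      (𝓝 (∑ v, (1 / 2 - βY v))) := by
    have h1 : ∀ k : ℕ, SK (imT cY (fun _ => 1) βY) (L * (k + 1)) =
        ∑ v, (1 / ((1 : ℕ) : ℝ)) * ces (((1 : ℕ) : ℝ) * βY v) (L * (k + 1) / (cY v * 1)) := by
      intro k
      exact SK_imT cY (fun _ => 1) βY hcY _ (by positivity) (fun v _ => (hdY v).mul_right _)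
    simp only [h1]
    apply tendsto_finsetSum
    intro v _
    have h2 := tendsto_one (cY v) 1 (hcY v) one_pos L hL (hdY v) (βY v) (1 / 2 - βY v)
      (by simpa using tendsto_ces (βY v) (hβY0 v) (hβY1 v))
    simpa using h2
  -- limits of X
  have hXv : ∀ v, ∃ l : ℝ, (v ≠ v0 → l ≤ -(1 / 2 - ε)) ∧ (v = v0 → l ≤ 1 / 4) ∧
      Tendsto (fun k : ℕ => (1 / (mX v : ℝ)) * ces (mX v * βX v) (L * (k + 1) / (cX v * mX v))) atTop
        (𝓝 l) := by
    intro v
    by_cases hv : v = v0
    · by_cases h0 : mX v = 0
      · refine ⟨0, fun h => absurd hv h, fun _ => by norm_num, ?_⟩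
        simp [h0]
      · obtain ⟨l, hl, hl'⟩ := exists_tendsto_ces (mX v * βX v)
        refine ⟨(1 / (mX v : ℝ)) * l, fun h => absurd hv h, fun _ => ?_,
          tendsto_one (cX v) (mX v) (hcX v) (Nat.pos_of_ne_zero h0) L hL (hdX v h0) _ _ hl'⟩
        have h2 : 2 ≤ mX v := by
          have : mX v ≠ 1 := by rw [hv]; exact hm0
          omega
        have h3 : (2 : ℝ) ≤ mX v := by exact_mod_cast h2
        have h4 : 0 < (1 / (mX v : ℝ)) := by positivity
        have h5 : (1 / (mX v : ℝ)) ≤ 1 / 2 := by
          apply one_div_le_one_div_of_le <;> linarith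
        nlinarith
    · obtain ⟨e, he0, he1, he⟩ := hβX v hv
      refine ⟨-(1 / 2 - e), fun _ => by linarith, fun h => absurd h hv, ?_⟩
      have h1 := hm v hv
      have h2 : ces (((mX v : ℕ) : ℝ) * βX v) = ces (1 - e) := by
        funext K
        have : ((mX v : ℕ) : ℝ) * βX v = (1 - e) + ((-1 : ℤ) : ℝ) := by
          rw [h1, he]; push_cast; ring
        rw [this, ces_add_int]
      have h3 : Tendsto (ces (((mX v : ℕ) : ℝ) * βX v)) atTop (𝓝 (-(1 / 2 - e))) := by
        rw [h2]
        have := tendsto_ces (1 - e) (by linarith) (by linarith)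
        convert this using 2
        ring
      have h4 := tendsto_one (cX v) (mX v) (hcX v) (by omega) L hL (hdX v (by omega)) _ _ h3
      have h5 : (1 / (mX v : ℝ)) * -(1 / 2 - e) = -(1 / 2 - e) := by
        rw [h1]; norm_num
      rw [h5] at h4
      exact h4
  choose l hl1 hl2 hl3 using hXv
  have hX : Tendsto (fun k : ℕ => SK (imT cX mX βX) (L * (k + 1))) atTop (𝓝 (∑ v, l v)) := by
    have h1 : ∀ k : ℕ, SK (imT cX mX βX) (L * (k + 1)) =
        ∑ v, (1 / (mX v : ℝ)) * ces (mX v * βX v) (L * (k + 1) / (cX v * mX v)) := by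
      intro k
      exact SK_imT cX mX βX hcX _ (by positivity) (fun v h => (hdX v h).mul_right _)
    simp only [h1]
    exact tendsto_finsetSum _ fun v _ => hl3 v
  have hle : ∑ v, (1 / 2 - βY v) ≤ (∑ v, l v) + D := by
    refine le_of_tendsto_of_tendsto' hY (hX.add_const D) ?_
    intro k
    exact hineq _ (by positivity)
  have hsum : ∑ v, l v ≤ -((Fintype.card ιX : ℝ) - 1) * (1 / 2 - ε) + 1 / 4 := by
    rw [← Finset.add_sum_erase univ l (mem_univ v0)]
    have h1 : ∑ v ∈ univ.erase v0, l v ≤ ∑ v ∈ univ.erase v0, (-(1 / 2 - ε)) := by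
      apply sum_le_sum
      intro v hv
      exact hl1 v (Finset.ne_of_mem_erase hv)
    rw [sum_const, card_erase_of_mem (mem_univ v0), card_univ] at h1
    have h2 := hl2 v0 rfl
    have h3 : 1 ≤ Fintype.card ιX := Fintype.card_pos_iff.2 ⟨v0⟩
    rw [nsmul_eq_mul, Nat.cast_sub h3] at h1
    push_cast at h1
    linarith
  linarith

section bridge

variable {G : Type*} [Group G]

/-- imaginary part of `u^q * cterm` -/
lemma im_cterm (c : ℕ) (hc : 0 < c) (h : G) (δ θ : ℝ) (q : ℕ) :
    ((Complex.exp (2 * Real.pi * Complex.I * δ)) ^ q *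
      WD.cterm c h (Complex.exp (2 * Real.pi * Complex.I * θ)) q).im =
    if c * orderOf h ∣ q then
      c * Real.sin (2 * Real.pi * ((q / c : ℕ) : ℝ) * (c * δ + θ)) else 0 := by
  unfold WD.cterm
  by_cases h1 : c ∣ q
  · obtain ⟨k, rfl⟩ := h1
    rw [if_pos (dvd_mul_right c k), Nat.mul_div_cancel_left k hc]
    by_cases h2 : h ^ k = 1
    · have h3 : orderOf h ∣ k := orderOf_dvd_of_pow_eq_one h2
      rw [if_pos h2, if_pos (Nat.mul_dvd_mul_left c h3)]
      have h4 : (Complex.exp (2 * Real.pi * Complex.I * δ)) ^ (c * k) *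
          ((c : ℂ) * (Complex.exp (2 * Real.pi * Complex.I * θ)) ^ k) =
          ((c : ℝ) : ℂ) * Complex.exp (((2 * Real.pi * (k : ℝ) * (c * δ + θ) : ℝ) : ℂ) * Complex.I) := by
        rw [← Complex.exp_nat_mul, ← Complex.exp_nat_mul, mul_left_comm, ← Complex.exp_add]
        congr 2
        push_cast
        ring
      rw [h4, Complex.im_ofReal_mul, Complex.exp_ofReal_mul_I_im]
    · have h3 : ¬ c * orderOf h ∣ c * k := by
        intro h4
        exact h2 (orderOf_dvd_iff_pow_eq_one.1 (Nat.dvd_of_mul_dvd_mul_left hc h4))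
      rw [if_neg h2, if_neg h3]
      simp
  · rw [if_neg h1, if_neg]
    · simp
    · intro h2
      exact h1 (dvd_trans (dvd_mul_right c _) h2)

end bridge

end Crest.Agent.R174.Glue
end

-- ▼ part R174/Word753
section

set_option autoImplicit false

/-!
# R174, blocks W1, W2 (helper753): free product normal form, blocks
-/

open Monoid

namespace Crest.Agent.R174.Word

open Crest.Agent.R174.Red

universe u

variable {G : Type u} [Group G] {n : ℕ}

/-- A letter list. -/
abbrev L (G : Type u) (n : ℕ) := List (G × Fin n × Bool)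

/-- multiply `a` onto the first label of `(l, b)` (onto `b` if `l = []`) -/
def push (a : G) : L G n × G → L G n × G
  | ([], b) => ([], a * b)
  | ((c, x) :: t, b) => ((a * c, x) :: t, b)

@[simp] lemma push_nil (a b : G) : push a (([] : L G n), b) = ([], a * b) := rfl

@[simp] lemma push_cons (a c b : G) (x : Fin n × Bool) (t : L G n) :
    push a (((c, x) :: t), b) = ((a * c, x) :: t, b) := rfl

lemma push_one (p : L G n × G) : push 1 p = p := by
  obtain ⟨l, b⟩ := p
  cases l with
  | nil => simp
  | cons q t => obtain ⟨c, x⟩ := q; simp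

lemma push_push (a a' : G) (p : L G n × G) : push a (push a' p) = push (a * a') p := by
  obtain ⟨l, b⟩ := p
  cases l with
  | nil => simp [mul_assoc]
  | cons q t => obtain ⟨c, x⟩ := q; simp [mul_assoc]

/-- total value -/
def tot (p : L G n × G) : Coprod G (FreeGroup (Fin n)) := ev p.1 * Coprod.inl p.2


/-- reduced: no cancelling neighbours -/
def Red (l : L G n) : Prop :=
  l.IsChain (fun p q => ¬ (q.1 = 1 ∧ q.2.1 = p.2.1 ∧ q.2.2 = !p.2.2))

lemma red_push {a : G} {p : L G n × G} (h : Red p.1) : Red (push a p).1 := by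
  obtain ⟨l, b⟩ := p
  cases l with
  | nil => exact h
  | cons q t =>
    obtain ⟨c, x⟩ := q
    cases t with
    | nil => exact List.isChain_singleton _
    | cons r t =>
      unfold Red at h ⊢
      simp only [push_cons, List.isChain_cons_cons] at h ⊢
      exact h

open Classical in
/-- prepend a letter, cancelling if possible -/
noncomputable def pre (x : Fin n) (s : Bool) : L G n × G → L G n × G
  | ([], b) => ([(1, x, s)], b)
  | (q :: t, b) => if q = (1, x, !s) then (t, b) else ((1, x, s) :: q :: t, b)

lemma red_pre {x : Fin n} {s : Bool} {p : L G n × G} (h : Red p.1) : Red (pre x s p).1 := by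
  obtain ⟨l, b⟩ := p
  cases l with
  | nil => exact List.isChain_singleton _
  | cons q t =>
    by_cases hq : q = (1, x, !s)
    · have h1 : pre x s (q :: t, b) = (t, b) := by simp [pre, hq]
      rw [h1]
      exact List.IsChain.tail h
    · have h1 : pre x s (q :: t, b) = ((1, x, s) :: q :: t, b) := by simp [pre, hq]
      rw [h1]
      unfold Red at h ⊢
      rw [List.isChain_cons_cons]
      refine ⟨?_, h⟩
      rintro ⟨h1, h2, h3⟩
      apply hq
      obtain ⟨c, y, t'⟩ := q
      simp only at h1 h2 h3
      rw [h1, h2, h3]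

lemma pre_pre {x : Fin n} {s : Bool} {p : L G n × G} (h : Red p.1) :
    pre x (!s) (pre x s p) = p := by
  obtain ⟨l, b⟩ := p
  cases l with
  | nil => simp [pre]
  | cons q t =>
    by_cases hq : q = (1, x, !s)
    · subst hq
      have h1 : pre x s ((1, x, !s) :: t, b) = (t, b) := by simp [pre]
      rw [h1]
      cases t with
      | nil => simp [pre]
      | cons r t =>
        unfold Red at h
        rw [List.isChain_cons_cons] at h
        have h2 : r ≠ (1, x, !!s) := by
          rintro rfl
          exact h.1 ⟨rfl, rfl, rfl⟩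
        simp only [pre, h2, if_false]
    · have h1 : pre x s (q :: t, b) = ((1, x, s) :: q :: t, b) := by simp [pre, hq]
      rw [h1]
      simp [pre]

/-- reduced words -/
abbrev S (G : Type u) [Group G] (n : ℕ) := {p : L G n × G // Red p.1}

/-- action of `G` -/
def actG (G : Type u) [Group G] (n : ℕ) : G →* Equiv.Perm (S G n) where
  toFun a :=
    { toFun := fun p => ⟨push a p.1, red_push p.2⟩
      invFun := fun p => ⟨push a⁻¹ p.1, red_push p.2⟩
      left_inv := fun p => by apply Subtype.ext; simp [push_push, push_one]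
      right_inv := fun p => by apply Subtype.ext; simp [push_push, push_one] }
  map_one' := by ext p : 1; apply Subtype.ext; simp [push_one]
  map_mul' a b := by ext p : 1; apply Subtype.ext; simp [push_push]

/-- action of a letter -/
noncomputable def permX (G : Type u) [Group G] {n : ℕ} (x : Fin n) : Equiv.Perm (S G n) where
  toFun p := ⟨pre x true p.1, red_pre p.2⟩
  invFun p := ⟨pre x false p.1, red_pre p.2⟩
  left_inv p := by apply Subtype.ext; exact pre_pre (s := true) p.2
  right_inv p := by apply Subtype.ext; exact pre_pre (s := false) p.2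

/-- action of the free product on reduced words -/
noncomputable def act (G : Type u) [Group G] (n : ℕ) :
    Coprod G (FreeGroup (Fin n)) →* Equiv.Perm (S G n) :=
  Coprod.lift (actG G n) (FreeGroup.lift fun x => permX G x)

lemma act_inl (a : G) (p : S G n) : (act G n (Coprod.inl a) p).1 = push a p.1 := by
  simp [act, actG]

lemma act_letter (x : Fin n) (s : Bool) (p : S G n) :
    (act G n (Coprod.inr (bif s then FreeGroup.of x else (FreeGroup.of x)⁻¹)) p).1
      = pre x s p.1 := by
  cases s
  · simp only [act, cond_false, map_inv, Coprod.lift_apply_inr, FreeGroup.lift_apply_of]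
    rfl
  · simp only [act, cond_true, Coprod.lift_apply_inr, FreeGroup.lift_apply_of]
    rfl

lemma act_tot : ∀ (l : L G n) (b : G) (h : Red l),
    (act G n (tot (l, b)) ⟨([], 1), List.isChain_nil⟩).1 = (l, b)
  | [], b, _ => by
      simp only [tot, ev_nil, one_mul]
      rw [act_inl]; simp
  | (a, x, s) :: t, b, h => by
      have ht : Red t := List.IsChain.tail h
      have ih := act_tot t b ht
      have e1 : tot ((a, x, s) :: t, b) = Coprod.inl a *
          (Coprod.inr (bif s then FreeGroup.of x else (FreeGroup.of x)⁻¹) * tot (t, b)) := by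
        simp [tot, ev_cons, lett, mul_assoc]
      rw [e1, map_mul, map_mul, Equiv.Perm.mul_apply, Equiv.Perm.mul_apply, act_inl, act_letter, ih]
      cases t with
      | nil => simp [pre]
      | cons q t =>
        have hq : q ≠ (1, x, !s) := by
          rintro rfl
          unfold Red at h
          rw [List.isChain_cons_cons] at h
          exact h.1 ⟨rfl, rfl, rfl⟩
        simp [pre, hq]

/-- normal form theorem -/
lemma eq_of_tot_eq {l l' : L G n} {b b' : G} (h : Red l) (h' : Red l')
    (e : tot (l, b) = tot (l', b')) : l = l' ∧ b = b' := by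
  have h1 := act_tot l b h
  have h2 := act_tot l' b' h'
  rw [e, h2] at h1
  simp only [Prod.mk.injEq] at h1
  exact ⟨h1.1.symm, h1.2.symm⟩





end Crest.Agent.R174.Word
private theorem rz_ac630d3250 : type_of% @_root_.Crest.Agent.R174.Word.pre.eq_1 := @_root_.Crest.Agent.R174.Word.pre.eq_1 -- L73
end

-- ▼ part R174/X126
section

set_option autoImplicit false

/-!
# R174, W3: noncrossing cancellation, phases and the cycles of `X` (helper126)
-/

open Monoid

namespace Crest.Agent.R174.WD

open Crest.Agent.R174.Red

universe u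

variable {G : Type u} [Group G] {n : ℕ} {P : Type}
variable (lab : P → G) (x : P → Fin n) (s : P → Bool)

/-- balanced lists of positions, with their value -/
inductive Bal : List P → G → Prop
  | nil : Bal [] 1
  | cons {p q : P} {W1 W2 : List P} {a b : G} : x p = x q → s q = !s p → Bal W1 a →
      a * lab q = 1 → Bal W2 b → Bal (p :: W1 ++ q :: W2) (lab p * b)

theorem Bal.append {W : List P} {a : G} (h : Bal lab x s W a) {W' : List P} {b : G}
    (h' : Bal lab x s W' b) : Bal lab x s (W ++ W') (a * b) := by
  induction h with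
  | nil => simpa using h'
  | @cons p q W1 W2 a b hx hs h1 ha h2 ih1 ih2 =>
    have := Bal.cons hx hs h1 ha ih2
    rw [List.append_assoc, List.cons_append, mul_assoc]
    exact this

/-- decomposition of a list of positions into a stack separated by balanced pieces -/
inductive Dec : List P → List (G × P) → G → Prop
  | base {W : List P} {h : G} : Bal lab x s W h → Dec W [] h
  | push {W : List P} {S : List (G × P)} {h : G} {p : P} {B : List P} {b : G} :
      Dec W S h → Bal lab x s B b → Dec (W ++ p :: B) ((h * lab p, p) :: S) b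

theorem Dec.append {W : List P} {S : List (G × P)} {h : G} (hd : Dec lab x s W S h)
    {B : List P} {b : G} (hb : Bal lab x s B b) : Dec lab x s (W ++ B) S (h * b) := by
  cases hd with
  | base h0 => exact Dec.base (Bal.append lab x s h0 hb)
  | push h0 h1 =>
    rw [List.append_assoc, List.cons_append]
    exact Dec.push h0 (Bal.append lab x s h1 hb)

/-- letters of a list of positions -/
def lt (i : P) : G × Fin n × Bool := (lab i, x i, s i)

theorem inr_mul (p q : P) (hx : x p = x q) (hs : s q = !s p) :
    (Coprod.inr (bif s p then FreeGroup.of (x p) else (FreeGroup.of (x p))⁻¹) :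
      Coprod G (FreeGroup (Fin n))) *
      Coprod.inr (bif s q then FreeGroup.of (x q) else (FreeGroup.of (x q))⁻¹) = 1 := by
  rw [← map_mul, hs, hx]
  cases s p <;> simp

theorem Bal.ev_eq {W : List P} {a : G} (h : Bal lab x s W a) :
    ev (W.map (lt lab x s)) = Coprod.inl a := by
  induction h with
  | nil => simp [ev]
  | @cons p q W1 W2 a b hx hs h1 ha h2 ih1 ih2 =>
    unfold ev at ih1 ih2 ⊢
    simp only [List.map_append, List.map_cons, List.prod_append, List.prod_cons]
    rw [ih1, ih2]
    simp only [lett, lt]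
    have e1 : (Coprod.inl a : Coprod G (FreeGroup (Fin n))) * Coprod.inl (lab q) = 1 := by
      rw [← map_mul, ha, map_one]
    calc _ = Coprod.inl (lab p) * Coprod.inr (bif s p then FreeGroup.of (x p) else (FreeGroup.of (x p))⁻¹)
          * (Coprod.inl a * Coprod.inl (lab q)) *
          Coprod.inr (bif s q then FreeGroup.of (x q) else (FreeGroup.of (x q))⁻¹) * Coprod.inl b := by
            simp only [mul_assoc]
      _ = Coprod.inl (lab p) * (Coprod.inr (bif s p then FreeGroup.of (x p) else (FreeGroup.of (x p))⁻¹)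
          * Coprod.inr (bif s q then FreeGroup.of (x q) else (FreeGroup.of (x q))⁻¹)) * Coprod.inl b := by
            rw [e1]; simp only [mul_assoc, one_mul, mul_one]
      _ = _ := by rw [inr_mul x s p q hx hs, mul_one, ← map_mul]

theorem Dec.ev_eq {W : List P} {S : List (G × P)} {h : G} (hd : Dec lab x s W S h) :
    ev (W.map (lt lab x s)) =
      ev ((S.map fun e => (e.1, x e.2, s e.2)).reverse) * Coprod.inl h := by
  induction hd with
  | base h0 => rw [Bal.ev_eq lab x s h0]; simp [ev]
  | @push W S h p B b h0 h1 ih =>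
    have h2 := Bal.ev_eq lab x s h1
    unfold ev at ih h2 ⊢
    rw [List.map_append, List.map_cons, List.map_append, List.map_cons, List.prod_append,
      List.prod_cons, ih, h2]
    simp only [List.map_cons, List.reverse_cons, List.map_append, List.prod_append, List.map_nil,
      List.prod_cons, List.prod_nil, mul_one, lett, lt, map_mul, mul_assoc]

/-- the stack is reduced -/
def RedS (S : List (G × P)) : Prop :=
  S.IsChain (fun q p => ¬ (q.1 = 1 ∧ x q.2 = x p.2 ∧ s q.2 = !s p.2))

theorem exists_dec (W : List P) : ∃ S h, Dec lab x s W S h ∧ RedS x s S := by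
  classical
  induction W using List.reverseRecOn with
  | nil => exact ⟨[], 1, Dec.base Bal.nil, List.isChain_nil⟩
  | append_singleton W q ih =>
    obtain ⟨S, h, hd, hr⟩ := ih
    have hpush : Dec lab x s (W ++ [q]) ((h * lab q, q) :: S) 1 := Dec.push hd Bal.nil
    cases S with
    | nil => exact ⟨_, _, hpush, List.isChain_singleton _⟩
    | cons e S0 =>
      by_cases hc : h * lab q = 1 ∧ x q = x e.2 ∧ s q = !s e.2
      · cases hd with
        | @push W0 _ h0 p B b h1 h2 =>
          refine ⟨S0, h0 * (lab p * 1), ?_, ?_⟩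
          · have h3 : Bal lab x s (p :: B ++ q :: []) (lab p * 1) :=
              Bal.cons hc.2.1.symm hc.2.2 h2 hc.1 Bal.nil
            have h4 := Dec.append lab x s h1 h3
            simpa [List.append_assoc] using h4
          · exact List.IsChain.tail hr
      · refine ⟨_, _, hpush, ?_⟩
        unfold RedS at hr ⊢
        rw [List.isChain_cons_cons]
        exact ⟨hc, hr⟩

/-- **normal form**: a list of positions with value in `G` is balanced -/
theorem bal_of_ev {W : List P} {g : G} (h : ev (W.map (lt lab x s)) = Coprod.inl g) :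
    Bal lab x s W g := by
  obtain ⟨S, h', hd, hr⟩ := exists_dec lab x s W
  have h1 := Dec.ev_eq lab x s hd
  rw [h] at h1
  have hred : Word.Red (S.map fun e => (e.1, x e.2, s e.2)).reverse := by
    unfold Word.Red
    rw [List.isChain_reverse, List.isChain_map]
    refine List.IsChain.imp ?_ hr
    intro a b hab hab'
    exact hab hab'
  have h2 : Word.tot ((S.map fun e => (e.1, x e.2, s e.2)).reverse, h') =
      Word.tot (([] : Word.L G n), g) := by
    unfold Word.tot
    rw [← h1]; simp [ev]
  obtain ⟨h3, h4⟩ := Word.eq_of_tot_eq hred List.isChain_nil h2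
  have h5 : S = [] := by simpa using h3
  subst h5 h4
  cases hd with
  | base h0 => exact h0

section struct

variable (pr : P → P)

/-- arrow of `X`: `i → μ (pr i)` -/
def RR (W : List P) (μ : P → P) (i j : P) : Prop := pr i ∈ W ∧ μ (pr i) = j

theorem prod_congr_of_chain {W : List P} {μ : P → P} {z z' : P → ℂ}
    (hz : ∀ i ∈ W, z i = z' i) {l : List P} (hl : l.IsChain (RR pr W μ)) :
    (l.dropLast.map fun i => z (pr i)).prod = (l.dropLast.map fun i => z' (pr i)).prod := by
  congr 1
  apply List.map_congr_left
  intro i hi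
  have : ∃ j, RR pr W μ i j := by
    obtain ⟨k, hk, rfl⟩ := List.getElem_of_mem hi
    rw [List.length_dropLast] at hk
    have := (List.isChain_iff_getElem.1 hl) k (by omega)
    rw [List.getElem_dropLast]
    exact ⟨_, this⟩
  obtain ⟨j, hj⟩ := this
  exact hz _ hj.1

variable [DecidableEq P]

theorem bal_struct (ω : ℂ) (hω : ω * star ω = 1) {W : List P} {a : G} (h : Bal lab x s W a) :
    W.Nodup → W.IsChain (fun i j => pr j = i) →
    ∃ (μ : P → P) (z : P → ℂ) (path : List P) (cyc : List (List P)),
      (∀ i ∈ W, μ i ∈ W ∧ μ (μ i) = i ∧ x (μ i) = x i ∧ s (μ i) = !s i ∧ z (μ i) = star (z i) ∧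
        z i * star (z i) = 1) ∧
      path.getLast? = W.head? ∧
      (path ++ cyc.flatten).Perm W ∧ 2 * cyc.length = W.length ∧
      (∀ n, (W ++ [n]).IsChain (fun i j => pr j = i) →
        (n :: path).IsChain (RR pr W μ) ∧ (n :: path).getLast? = (W ++ [n]).head? ∧
        ((n :: path).dropLast.map fun i => z (pr i)).prod = (star ω) ^ cyc.length) ∧
      (path.map lab).reverse.prod = a ∧
      (∀ C ∈ cyc, ∃ i r, C = i :: r ∧ (i :: r ++ [i]).IsChain (RR pr W μ) ∧
        (C.map lab).reverse.prod = 1 ∧ (C.map fun i => z (pr i)).prod = ω) := by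
  induction h with
  | nil =>
    intro _ _
    refine ⟨id, fun _ => 1, [], [], by simp, rfl, by simp, by simp, ?_, by simp, by simp⟩
    intro n _
    simp
  | @cons p q W1 W2 a b hx hs h1 ha h2 ih1 ih2 =>
    intro hnd hpr
    -- decompose the hypotheses
    have hnd' : p ∉ W1 ∧ p ≠ q ∧ p ∉ W2 ∧ W1.Nodup ∧ q ∉ W1 ∧ q ∉ W2 ∧ W2.Nodup ∧
        (∀ i ∈ W1, i ∉ W2) := by
      rw [List.cons_append, List.nodup_cons, List.mem_append, List.mem_cons] at hnd
      obtain ⟨ha1, ha2⟩ := hnd
      rw [List.nodup_append, List.nodup_cons] at ha2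
      obtain ⟨hb1, ⟨hb2, hb3⟩, hb4⟩ := ha2
      push_neg at ha1
      refine ⟨ha1.1, ha1.2.1, ha1.2.2, hb1, ?_, hb2, hb3, ?_⟩
      · intro hq; exact hb4 q hq q List.mem_cons_self rfl
      · intro i hi hi2; exact hb4 i hi i (List.mem_cons_of_mem _ hi2) rfl
    obtain ⟨hpW1, hpq, hpW2, hnd1, hqW1, hqW2, hnd2, hdisj⟩ := hnd'
    have hchain : ∀ T : List P, (p :: W1 ++ q :: W2 ++ T).IsChain (fun i j => pr j = i) →
        (W1 ++ [q]).IsChain (fun i j => pr j = i) ∧ (W2 ++ T).IsChain (fun i j => pr j = i) ∧
        (∀ y ∈ (W1 ++ [q]).head?, pr y = p) ∧ (∀ y ∈ (W2 ++ T).head?, pr y = q) := by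
      intro T hT
      have e1 : p :: W1 ++ q :: W2 ++ T = [p] ++ ((W1 ++ [q]) ++ (W2 ++ T)) := by simp
      rw [e1, List.isChain_append, List.isChain_append] at hT
      obtain ⟨_, ⟨hT1, hT2, hT3⟩, hT4⟩ := hT
      refine ⟨hT1, hT2, ?_, ?_⟩
      · intro y hy
        apply hT4 p (by simp) y
        rw [List.head?_append]
        have : (W1 ++ [q]).head? = some y := hy
        rw [this]; rfl
      · intro y hy
        exact hT3 q (by simp) y hy
    obtain ⟨hc1, hc2, hc3, _⟩ := hchain [] (by simpa using hpr)
    rw [List.append_nil] at hc2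
    have hc1' : W1.IsChain (fun i j => pr j = i) := (List.isChain_append.1 hc1).1
    obtain ⟨μ1, z1, path1, cyc1, hA1, _, hB1, hL1, hN1, hG1, hC1⟩ := ih1 hnd1 hc1'
    obtain ⟨μ2, z2, path2, cyc2, hA2, _, hB2, hL2, hN2, hG2, hC2⟩ := ih2 hnd2 hc2
    set μ : P → P := fun i => if i ∈ W1 then μ1 i else if i ∈ W2 then μ2 i else
      if i = p then q else p with hμ
    set zp : ℂ := ω ^ (cyc1.length + 1) with hzp
    set z : P → ℂ := fun i => if i ∈ W1 then z1 i else if i ∈ W2 then z2 i else
      if i = p then zp else star zp with hz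
    have μW1 : ∀ i ∈ W1, μ i = μ1 i := fun i hi => by simp [hμ, hi]
    have μW2 : ∀ i ∈ W2, μ i = μ2 i := fun i hi => by
      have : i ∉ W1 := fun h => hdisj i h hi
      simp [hμ, hi, this]
    have μp : μ p = q := by simp [hμ, hpW1, hpW2]
    have μq : μ q = p := by simp [hμ, hqW1, hqW2, Ne.symm hpq]
    have zW1 : ∀ i ∈ W1, z1 i = z i := fun i hi => by simp [hz, hi]
    have zW2 : ∀ i ∈ W2, z2 i = z i := fun i hi => by
      have : i ∉ W1 := fun h => hdisj i h hi
      simp [hz, hi, this]
    have zP : z p = zp := by simp [hz, hpW1, hpW2]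
    have zQ : z q = star zp := by simp [hz, hqW1, hqW2, Ne.symm hpq]
    have hzp1 : zp * star zp = 1 := by rw [hzp, star_pow, ← mul_pow, hω, one_pow]
    have memW : ∀ i, i ∈ p :: W1 ++ q :: W2 ↔ i = p ∨ i ∈ W1 ∨ i = q ∨ i ∈ W2 := by
      intro i; simp [or_assoc]
    have R1 : ∀ i j, RR pr W1 μ1 i j → RR pr (p :: W1 ++ q :: W2) μ i j := by
      rintro i j ⟨h1, h2⟩
      exact ⟨(memW _).2 (Or.inr (Or.inl h1)), by rw [μW1 _ h1]; exact h2⟩
    have R2 : ∀ i j, RR pr W2 μ2 i j → RR pr (p :: W1 ++ q :: W2) μ i j := by
      rintro i j ⟨h1, h2⟩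
      exact ⟨(memW _).2 (Or.inr (Or.inr (Or.inr h1))), by rw [μW2 _ h1]; exact h2⟩
    -- the new cycle
    obtain ⟨hD1, hD2, hD3⟩ := hN1 q hc1
    obtain ⟨y, hy⟩ : ∃ y, (W1 ++ [q]).head? = some y := by
      cases W1 with
      | nil => exact ⟨q, rfl⟩
      | cons c t => exact ⟨c, rfl⟩
    have hyp : pr y = p := hc3 y hy
    rw [hy] at hD2
    obtain ⟨ys, hys⟩ := List.getLast?_eq_some_iff.1 hD2
    refine ⟨μ, z, path2 ++ [p], cyc1 ++ cyc2 ++ [q :: path1], ?_, ?_, ?_, ?_, ?_, ?_, ?_⟩
    · -- matching
      intro i hi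
      rw [memW] at hi
      rcases hi with rfl | hi | rfl | hi
      · rw [μp, μq, zQ, zP]
        exact ⟨(memW _).2 (Or.inr (Or.inr (Or.inl rfl))), rfl, hx.symm, hs, rfl, hzp1⟩
      · obtain ⟨g1, g2, g3, g4, g5, g6⟩ := hA1 i hi
        rw [μW1 i hi, μW1 _ g1, ← zW1 i hi, ← zW1 _ g1]
        exact ⟨(memW _).2 (Or.inr (Or.inl g1)), g2, g3, g4, g5, g6⟩
      · rw [μq, μp, zQ, zP]
        refine ⟨(memW _).2 (Or.inl rfl), rfl, hx, by rw [hs]; simp, by simp, ?_⟩
        rw [star_star, mul_comm]; exact hzp1
      · obtain ⟨g1, g2, g3, g4, g5, g6⟩ := hA2 i hi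
        rw [μW2 i hi, μW2 _ g1, ← zW2 i hi, ← zW2 _ g1]
        exact ⟨(memW _).2 (Or.inr (Or.inr (Or.inr g1))), g2, g3, g4, g5, g6⟩
    · rw [List.getLast?_concat]; rfl
    · -- permutation
      have e1 : (path2 ++ [p] ++ (cyc1 ++ cyc2 ++ [q :: path1]).flatten).Perm
          (p :: ((path1 ++ cyc1.flatten) ++ q :: (path2 ++ cyc2.flatten))) := by
        rw [List.flatten_append, List.flatten_append]
        simp only [List.flatten_cons, List.flatten_nil, List.append_nil]
        classical
        rw [List.perm_iff_count]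
        intro c
        simp only [List.count_append, List.count_cons, List.count_nil]
        omega
      refine e1.trans ?_
      rw [List.cons_append]
      exact (hB1.append (hB2.cons q)).cons p
    · simp only [List.length_append, List.length_cons, List.length_nil]
      omega
    · -- through path
      intro n hn
      obtain ⟨_, hn2, _, hn4⟩ := hchain [n] hn
      obtain ⟨hE1, hE2, hE3⟩ := hN2 n hn2
      obtain ⟨w, hw⟩ : ∃ w, (W2 ++ [n]).head? = some w := by
        cases W2 with
        | nil => exact ⟨n, rfl⟩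
        | cons c t => exact ⟨c, rfl⟩
      have hwq : pr w = q := hn4 w hw
      rw [hw] at hE2
      obtain ⟨ws, hws⟩ := List.getLast?_eq_some_iff.1 hE2
      refine ⟨?_, ?_, ?_⟩
      · rw [← List.cons_append, List.isChain_append]
        refine ⟨List.IsChain.imp R2 hE1, List.isChain_singleton _, ?_⟩
        intro a ha' b hb'
        rw [hE2] at ha'
        simp only [Option.mem_def, Option.some.injEq, List.head?_cons] at ha' hb'
        subst ha' hb'
        refine ⟨?_, ?_⟩
        · rw [hwq]; exact (memW _).2 (Or.inr (Or.inr (Or.inl rfl)))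
        · rw [hwq, μq]
      · rw [← List.cons_append, List.getLast?_concat]
        rfl
      · rw [← List.cons_append, List.dropLast_concat, hws, List.map_append, List.prod_append]
        have e2 : (ws.map fun i => z (pr i)).prod = (star ω) ^ cyc2.length := by
          rw [← hE3, prod_congr_of_chain pr zW2 hE1, hws, List.dropLast_concat]
        rw [e2]
        simp only [List.map_cons, List.map_nil, List.prod_cons, List.prod_nil, mul_one, hwq, zQ,
          List.length_append, List.length_cons, List.length_nil, hzp, star_pow]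
        rw [← pow_add]; congr 1; omega
    · -- label of the path
      rw [List.map_append, List.reverse_append, List.prod_append, hG2]
      simp
    · -- cycles
      intro C hC
      rw [List.mem_append, List.mem_append, List.mem_singleton] at hC
      rcases hC with (hC | hC) | hC
      · obtain ⟨i, r, rfl, k1, k2, k3⟩ := hC1 C hC
        refine ⟨i, r, rfl, List.IsChain.imp R1 k1, k2, ?_⟩
        rw [← k3]
        have := prod_congr_of_chain pr zW1 k1
        rw [List.dropLast_concat] at this
        exact this.symm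
      · obtain ⟨i, r, rfl, k1, k2, k3⟩ := hC2 C hC
        refine ⟨i, r, rfl, List.IsChain.imp R2 k1, k2, ?_⟩
        rw [← k3]
        have := prod_congr_of_chain pr zW2 k1
        rw [List.dropLast_concat] at this
        exact this.symm
      · subst hC
        refine ⟨q, path1, rfl, ?_, ?_, ?_⟩
        · rw [List.isChain_append]
          refine ⟨List.IsChain.imp R1 hD1, List.isChain_singleton _, ?_⟩
          intro a ha' b hb'
          rw [hD2] at ha'
          simp only [Option.mem_def, Option.some.injEq, List.head?_cons] at ha' hb'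
          subst ha' hb'
          exact ⟨by rw [hyp]; exact (memW _).2 (Or.inl rfl), by rw [hyp, μp]⟩
        · rw [List.map_cons, List.reverse_cons, List.prod_append, hG1]
          simpa using ha
        · rw [hys, List.map_append, List.prod_append]
          have e2 : (ys.map fun i => z (pr i)).prod = (star ω) ^ cyc1.length := by
            rw [← hD3, prod_congr_of_chain pr zW1 hD1, hys, List.dropLast_concat]
          rw [e2]
          simp only [List.map_cons, List.map_nil, List.prod_cons, List.prod_nil, mul_one, hyp, zP, hzp]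
          rw [pow_succ ω, ← mul_assoc, ← mul_pow, mul_comm (star ω), hω, one_pow, one_mul]

omit [DecidableEq P] in
theorem map_eq_rotate_of_chain {nxt : P → P} {i : P} {r : List P}
    (h : (i :: r ++ [i]).IsChain (fun a b => nxt a = b)) :
    (i :: r).map nxt = (i :: r).rotate 1 := by
  have key : ∀ (l : List P) (j : P), (j :: l ++ [i]).IsChain (fun a b => nxt a = b) →
      (j :: l).map nxt = l ++ [i] := by
    intro l
    induction l with
    | nil =>
      intro j hj
      simp only [List.cons_append, List.nil_append, List.isChain_cons_cons] at hj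
      simp [hj.1]
    | cons c t ih =>
      intro j hj
      simp only [List.cons_append, List.isChain_cons_cons] at hj
      rw [List.map_cons, ih c (by simpa [List.isChain_cons_cons] using hj.2), hj.1]
      rfl
  rw [key r i h]
  simp

omit [DecidableEq P] in
theorem cterm_conj (c : ℕ) (h k : G) (ζ : ℂ) (q : ℕ) :
    cterm c (k * h * k⁻¹) ζ q = cterm c h ζ q := by
  have this : ∀ m : ℕ, (k * h * k⁻¹) ^ m = 1 ↔ h ^ m = 1 := by
    intro m
    rw [conj_pow]
    constructor
    · intro e
      rw [mul_inv_eq_one, mul_eq_left] at e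
      exact e
    · intro e; rw [e]; simp
  unfold cterm
  by_cases hd : c ∣ q
  · rw [if_pos hd, if_pos hd]
    by_cases h1 : h ^ (q / c) = 1
    · rw [if_pos h1, if_pos ((this _).2 h1)]
    · rw [if_neg h1, if_neg (fun h2 => h1 ((this _).1 h2))]
  · rw [if_neg hd, if_neg hd]

/-- **W3**: matching, phases and the traces of the powers of `X`. -/
theorem x_spec [Fintype P] (L : List P) (hnd : L.Nodup) (hall : ∀ i, i ∈ L) (hne : L ≠ [])
    (hpr : L.IsChain (fun i j => pr j = i)) (hcl : ∀ i ∈ L.head?, ∀ j ∈ L.getLast?, pr i = j)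
    {g : G} (hev : ev (L.map (lt lab x s)) = Coprod.inl g) (ω : ℂ) (hω : ω * star ω = 1) :
    ∃ (μ : P → P) (z : P → ℂ),
      (∀ i, μ (μ i) = i ∧ x (μ i) = x i ∧ s (μ i) = !s i ∧ z (μ i) = star (z i) ∧
        z i * star (z i) = 1) ∧
      ∃ (c : List ℕ) (c0 : ℕ), 2 * c.length = Fintype.card P ∧ (∀ k ∈ c, 0 < k) ∧ 0 < c0 ∧
        c0 + c.sum = Fintype.card P ∧
        ∀ q, trG (mono (fun i => μ (pr i)) lab (fun i => z (pr i)) ^ q) =
          cterm c0 g ((star ω) ^ c.length) q + (c.map fun k => cterm k (1 : G) ω q).sum := by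
  obtain ⟨μ, z, path, cyc, hA, hlast, hB, hL, hN, hG, hC⟩ :=
    bal_struct lab x s pr ω hω (bal_of_ev lab x s hev) hnd hpr
  obtain ⟨p0, t, rfl⟩ := List.exists_cons_of_ne_nil hne
  have hcard : Fintype.card P = (p0 :: t).length := by
    rw [← List.toFinset_card_of_nodup hnd]
    have : (p0 :: t).toFinset = Finset.univ := by
      ext i; simp only [List.mem_toFinset, Finset.mem_univ, iff_true]; exact hall i
    rw [this, Finset.card_univ]
  have hch : ((p0 :: t) ++ [p0]).IsChain (fun i j => pr j = i) := by
    rw [List.isChain_append]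
    refine ⟨hpr, List.isChain_singleton _, ?_⟩
    intro a ha b hb
    simp only [List.head?_cons, Option.mem_def, Option.some.injEq] at hb
    subst hb
    exact hcl p0 (by simp) a ha
  obtain ⟨hD1, hD2, hD3⟩ := hN p0 hch
  rw [List.head?_cons] at hlast
  obtain ⟨ys, hys⟩ := List.getLast?_eq_some_iff.1 hlast
  subst hys
  have hμ : ∀ i, μ (μ i) = i ∧ x (μ i) = x i ∧ s (μ i) = !s i ∧ z (μ i) = star (z i) ∧
        z i * star (z i) = 1 := fun i => (hA i (hall i)).2
  have hz : ∀ i, z (pr i) ≠ 0 := by
    intro i h0
    have := (hμ (pr i)).2.2.2.2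
    rw [h0, zero_mul] at this
    exact zero_ne_one this
  have hnxt : ∀ (l : List P), l.IsChain (RR pr (p0 :: t) μ) →
      l.IsChain (fun a b => μ (pr a) = b) := fun l hl => List.IsChain.imp (fun a b h => h.2) hl
  have hperm : (((p0 :: ys) :: cyc).flatten).Perm (p0 :: t) := by
    refine List.Perm.trans ?_ hB
    rw [List.flatten_cons]
    apply List.Perm.append_right
    exact (List.perm_append_singleton p0 ys).symm
  refine ⟨μ, z, hμ, cyc.map List.length, (p0 :: ys).length, ?_, ?_, by simp, ?_, ?_⟩
  · rw [List.length_map, hL, hcard]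
  · intro k hk
    obtain ⟨C, hC', rfl⟩ := List.mem_map.1 hk
    obtain ⟨i, r, rfl, _⟩ := hC C hC'
    simp
  · rw [hcard, ← hperm.length_eq, List.length_flatten, List.map_cons, List.sum_cons]
  · intro q
    rw [trG_mono_pow (fun i => μ (pr i)) lab (fun i => z (pr i)) ((p0 :: ys) :: cyc)
      ((List.Perm.nodup_iff hperm).2 hnd) (fun i => hperm.mem_iff.2 (hall i)) ?_ hz q]
    · rw [List.map_cons, List.sum_cons, List.length_map, List.map_map]
      congr 1
      · have e1 : ((p0 :: ys).map lab).reverse.prod = (lab p0)⁻¹ * g * ((lab p0)⁻¹)⁻¹ := by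
          rw [← hG]
          simp [mul_assoc]
        have e2 : ((p0 :: ys).map fun i => z (pr i)).prod = (star ω) ^ cyc.length := by
          rw [← hD3]
          congr 2
          rw [← List.cons_append, List.dropLast_concat]
        rw [e1, e2, cterm_conj]
      · congr 1
        apply List.map_congr_left
        intro C hC'
        obtain ⟨i, r, rfl, k1, k2, k3⟩ := hC C hC'
        simp only [Function.comp]
        rw [k2, k3]
    · intro C hC'
      rw [List.mem_cons] at hC'
      rcases hC' with rfl | hC'
      · refine ⟨by simp, map_eq_rotate_of_chain ?_⟩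
        have := hnxt _ hD1
        simpa using this
      · obtain ⟨i, r, rfl, k1, _, _⟩ := hC C hC'
        exact ⟨by simp, map_eq_rotate_of_chain (hnxt _ k1)⟩

end struct

end Crest.Agent.R174.WD
end

-- ▼ part R174/FlatK753
section

set_option autoImplicit false

/-!
# R174: flattening (helper753), F1-F3 for the word data of `WD126`
-/

open Monoid

namespace Crest.Agent.R174.FlatK

open Crest.Agent.R174.Red Crest.Agent.R174.WD

universe u

variable {G : Type u} [Group G] {n : ℕ}

section Aux

variable {H : Type*} [Group H]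

lemma inv_prod (c y : ℕ → H) : ∀ N : ℕ,
    ((List.range N).reverse.map (fun j => (c (j + 1))⁻¹ * (y j)⁻¹)).prod =
      (c N)⁻¹ * (((List.range N).map (fun j => c j * y j)).prod)⁻¹ * c 0
  | 0 => by simp
  | N + 1 => by
      rw [List.range_succ, List.map_append, List.reverse_append, List.prod_append,
        List.map_append, List.prod_append, inv_prod c y N]
      simp [mul_assoc]

lemma map_finRange_val {α : Type*} (N : ℕ) (F : ℕ → α) :
    (List.finRange N).map (fun j => F j.val) = (List.range N).map F := by
  rw [← List.map_coe_finRange_eq_range, List.map_map]; rfl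

/-- value of the unknown of a letter -/
def yv (p : G × Fin n × Bool) : Coprod G (FreeGroup (Fin n)) :=
  Coprod.inr (bif p.2.2 then FreeGroup.of p.2.1 else (FreeGroup.of p.2.1)⁻¹)


lemma lett_flip (a : G) (p : G × Fin n × Bool) :
    lett (a, p.2.1, !p.2.2) = Coprod.inl a * (yv p)⁻¹ := by
  obtain ⟨b, x, s⟩ := p
  cases s <;> simp [lett, yv]

lemma range_getD (s : List (G × Fin n × Bool)) (d : G × Fin n × Bool) :
    (List.range s.length).map (fun j => s.getD j d) = s := by
  apply List.ext_getElem
  · simp
  · intro i h1 h2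
    simp at h1
    simp [h1]

lemma ev_eq_range (s : List (G × Fin n × Bool)) (d : G × Fin n × Bool) :
    ev s = ((List.range s.length).map
      (fun j => Coprod.inl (s.getD j d).1 * yv (s.getD j d))).prod := by
  conv_lhs => rw [← range_getD s d]
  rw [ev, List.map_map]
  rfl

/-- the reversed inverse word -/
lemma ev_rev (s : List (G × Fin n × Bool)) (hs : 0 < s.length) (c : G) :
    ev ((List.finRange s.length).reverse.map (fun j =>
      ((if h : j.1 + 1 < s.length then (s.get ⟨j.1 + 1, h⟩).1⁻¹ else c),
        (s.get j).2.1, !(s.get j).2.2))) =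
      Coprod.inl c * (ev s)⁻¹ * Coprod.inl (s.get ⟨0, hs⟩).1 := by
  set d : G × Fin n × Bool := s.get ⟨0, hs⟩ with hd
  let F : ℕ → G × Fin n × Bool := fun j =>
    ((if j + 1 < s.length then (s.getD (j + 1) d).1 else c⁻¹)⁻¹,
        (s.getD j d).2.1, !(s.getD j d).2.2)
  have h1 : (List.finRange s.length).reverse.map (fun j =>
      ((if h : j.1 + 1 < s.length then (s.get ⟨j.1 + 1, h⟩).1⁻¹ else c),
        (s.get j).2.1, !(s.get j).2.2)) = ((List.range s.length).map F).reverse := by
    rw [← map_finRange_val s.length F, List.map_reverse]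
    congr 1
    apply List.map_congr_left
    intro j _
    have e1 : s.getD j.1 d = s.get j := by simp
    by_cases h : j.1 + 1 < s.length
    · have e2 : s.getD (j.1 + 1) d = s.get ⟨j.1 + 1, h⟩ := by simp [h]
      simp only [F, h, dif_pos, if_true, e1, e2]
    · simp only [F, h, dif_neg, not_false_eq_true, if_false, e1, inv_inv]
  rw [h1, ← List.map_reverse, ev, List.map_map]
  have h2 := inv_prod (fun j => (Coprod.inl (if j < s.length then (s.getD j d).1 else c⁻¹) :
    Coprod G (FreeGroup (Fin n)))) (fun j => yv (s.getD j d)) s.length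
  have h3 : (lett ∘ F) = fun j =>
      (Coprod.inl (if j + 1 < s.length then (s.getD (j + 1) d).1 else c⁻¹) :
        Coprod G (FreeGroup (Fin n)))⁻¹ * (yv (s.getD j d))⁻¹ := by
    funext j
    simp only [Function.comp, F]
    rw [lett_flip, map_inv]
  rw [h3, h2]
  have h5 : ((List.range s.length).map (fun j =>
      (Coprod.inl (if j < s.length then (s.getD j d).1 else c⁻¹) :
        Coprod G (FreeGroup (Fin n))) * yv (s.getD j d))).prod = ev s := by
    rw [ev_eq_range s d]
    congr 1
    apply List.map_congr_left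
    intro j hj
    rw [List.mem_range] at hj
    simp only [hj, if_true]
  rw [h5]
  have e0 : s.getD 0 d = d := by simp [hs, hd]
  simp only [lt_irrefl, if_false, hs, if_true, e0, map_inv, inv_inv]

end Aux

section chain

lemma isChain_finRange {m : ℕ} {R : Fin m → Fin m → Prop}
    (h : ∀ (i : ℕ) (hi : i + 1 < m), R ⟨i, by omega⟩ ⟨i + 1, hi⟩) :
    (List.finRange m).IsChain R := by
  rw [List.isChain_iff_getElem]
  intro i hi
  simp only [List.length_finRange] at hi
  simpa using h i hi

lemma isChain_finRange_reverse {m : ℕ} {R : Fin m → Fin m → Prop}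
    (h : ∀ (i : ℕ) (hi : i + 1 < m), R ⟨i + 1, hi⟩ ⟨i, by omega⟩) :
    (List.finRange m).reverse.IsChain R := by
  rw [List.isChain_reverse]
  exact isChain_finRange h

lemma head?_finRange {m : ℕ} (hm : 0 < m) : (List.finRange m).head? = some ⟨0, hm⟩ := by
  obtain ⟨k, rfl⟩ := Nat.exists_eq_succ_of_ne_zero hm.ne'
  rw [List.finRange_succ]; rfl

lemma getLast?_finRange {m : ℕ} (hm : 0 < m) :
    (List.finRange m).getLast? = some ⟨m - 1, Nat.sub_lt hm Nat.one_pos⟩ := by
  obtain ⟨k, rfl⟩ := Nat.exists_eq_succ_of_ne_zero hm.ne'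
  rw [List.finRange_succ_last]; simp [Fin.last]

/-- chain + closing condition give `IsCycPred` -/
lemma isCycPred_of_chain {P : Type} {pr : P → P} {L : List P}
    (h : L.IsChain (fun i j => pr j = i))
    (h' : ∀ i j, L.head? = some i → L.getLast? = some j → pr i = j) : IsCycPred pr L := by
  constructor
  · intro A C i j e
    rw [e, List.isChain_append] at h
    have := h.2.1
    rw [List.isChain_cons_cons] at this
    exact this.1
  · intro C i j e e'
    apply h' i j
    · rw [e]; rfl
    · rw [e]; exact e'

end chain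

variable {κ : Type} [DecidableEq κ] (B : Blk G n κ)

lemma mem_blkList (k : κ) (i : B.Pos) : i ∈ B.blkList k ↔ i.1 = k := by
  obtain ⟨k', i⟩ := i
  constructor
  · intro h
    simp only [Blk.blkList, List.mem_append, List.mem_map] at h
    rcases h with (⟨j, -, h⟩ | h) | ⟨j, -, h⟩
    · exact (congrArg Sigma.fst h).symm
    · split_ifs at h
      · rw [List.mem_map] at h
        obtain ⟨j, -, h⟩ := h
        exact (congrArg Sigma.fst h).symm
      · rw [List.mem_map] at h
        obtain ⟨j, -, h⟩ := h
        exact (congrArg Sigma.fst h).symm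
    · exact (congrArg Sigma.fst h).symm
  · rintro rfl
    simp only [Blk.blkList, List.mem_append, List.mem_map]
    rcases i with j | j | j
    · left; left; exact ⟨j, List.mem_finRange j, rfl⟩
    · left; right
      split_ifs
      · exact List.mem_map.2 ⟨j, List.mem_finRange j, rfl⟩
      · exact List.mem_map.2 ⟨j, by simp, rfl⟩
    · right; exact ⟨j, by simp, rfl⟩

lemma mem_posList (i : B.Pos) : i ∈ B.posList := by
  rw [Blk.posList, List.mem_flatMap]
  exact ⟨i.1, B.hall _, (mem_blkList B i.1 i).2 rfl⟩

lemma nodup_blkList (k : κ) : (B.blkList k).Nodup := by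
  unfold Blk.blkList
  rw [List.nodup_append, List.nodup_append]
  refine ⟨⟨?_, ?_, ?_⟩, ?_, ?_⟩
  · apply List.Nodup.map _ (List.nodup_finRange _)
    intro a b h; simpa using h
  · split_ifs
    · apply List.Nodup.map _ (List.nodup_finRange _)
      intro a b h; simpa using h
    · apply List.Nodup.map _ (List.nodup_reverse.2 (List.nodup_finRange _))
      intro a b h; simpa using h
  · intro a ha b hb
    rw [List.mem_map] at ha
    obtain ⟨j, -, rfl⟩ := ha
    split_ifs at hb
    · rw [List.mem_map] at hb
      obtain ⟨j', -, rfl⟩ := hb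
      simp
    · rw [List.mem_map] at hb
      obtain ⟨j', -, rfl⟩ := hb
      simp
  · apply List.Nodup.map _ (List.nodup_reverse.2 (List.nodup_finRange _))
    intro a b h; simpa using h
  · intro a ha b hb
    rw [List.mem_map] at hb
    obtain ⟨j, -, rfl⟩ := hb
    rcases List.mem_append.1 ha with ha | ha
    · rw [List.mem_map] at ha
      obtain ⟨j', -, rfl⟩ := ha
      simp
    · split_ifs at ha
      · rw [List.mem_map] at ha
        obtain ⟨j', -, rfl⟩ := ha
        simp
      · rw [List.mem_map] at ha
        obtain ⟨j', -, rfl⟩ := ha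
        simp

/-- F1 -/
theorem nodup_posList : B.posList.Nodup := by
  unfold Blk.posList
  rw [List.nodup_flatMap]
  refine ⟨fun k _ => nodup_blkList B k, ?_⟩
  refine List.Pairwise.imp ?_ B.hnd
  intro a b hab
  simp only [Function.onFun]
  intro i hi hi'
  rw [mem_blkList] at hi hi'
  exact hab (hi.symm.trans hi')

/-- letter at a position -/
def lt (i : B.Pos) : G × Fin n × Bool := (B.lab i, B.unk i, B.sgn i)

lemma ev_blkList (ha0 : ∀ k, B.a0 k = 1) (k : κ) :
    ev ((B.blkList k).map (lt B)) = B.val k := by
  have hup : (List.finRange (B.r k)).map (fun j => lt B (B.up k j)) = B.st k := by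
    conv_rhs => rw [← List.map_get_finRange (B.st k)]
    apply List.map_congr_left
    intro j _
    by_cases hj : j.1 = 0
    · have e : j = B.r0 k := Fin.ext hj
      have e2 : ((B.st k).get j).1 = 1 := by rw [e]; exact ha0 k
      have e3 : B.lab (B.up k j) = 1 := by simp [Blk.lab, hj, ha0]
      apply Prod.ext
      · show B.lab (B.up k j) = _
        rw [e3, e2]
      · rfl
    · apply Prod.ext
      · simp [lt, Blk.lab, hj]
      · rfl
  have hdn : ev ((List.finRange (B.r k)).reverse.map (fun j => lt B (B.dn k j))) =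
      Coprod.inl (if B.sg k then 1 else (B.b0 k)⁻¹) * (ev (B.st k))⁻¹ := by
    have h := ev_rev (B.st k) (B.hst k) (if B.sg k then 1 else (B.b0 k)⁻¹)
    have e : ((B.st k).get ⟨0, B.hst k⟩).1 = 1 := ha0 k
    rw [e, map_one, mul_one] at h
    exact h
  by_cases hp : B.sg k = true
  · have hf : (List.finRange (B.l k)).map (fun j => lt B (B.fc k j)) = B.W (B.ty k) := by
      conv_rhs => rw [← List.map_get_finRange (B.W (B.ty k))]
      apply List.map_congr_left
      intro j _
      apply Prod.ext
      · simp [lt, Blk.lab, hp]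
      · simp [lt, Blk.unk, Blk.sgn, hp]
    simp only [Blk.blkList, hp, if_true, List.map_append, List.map_map, ev_append]
    have e1 : ((lt B) ∘ B.up k) = fun j => lt B (B.up k j) := rfl
    have e2 : ((lt B) ∘ B.fc k) = fun j => lt B (B.fc k j) := rfl
    have e3 : ((lt B) ∘ B.dn k) = fun j => lt B (B.dn k j) := rfl
    rw [e1, e2, e3, hup, hf, hdn]
    simp [Blk.val, hp]
  · have hp' : B.sg k = false := by simpa using hp
    have hf : ev ((List.finRange (B.l k)).reverse.map (fun j => lt B (B.fc k j))) =
        (ev (B.W (B.ty k)))⁻¹ * Coprod.inl (B.b0 k) := by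
      have h := ev_rev (B.W (B.ty k)) (B.hW _) 1
      rw [map_one, one_mul] at h
      have e : (List.finRange (B.l k)).reverse.map (fun j => lt B (B.fc k j)) =
          (List.finRange (B.W (B.ty k)).length).reverse.map (fun j =>
      ((if h : j.1 + 1 < (B.W (B.ty k)).length then ((B.W (B.ty k)).get ⟨j.1 + 1, h⟩).1⁻¹
        else 1), ((B.W (B.ty k)).get j).2.1, !((B.W (B.ty k)).get j).2.2)) := by
        apply List.map_congr_left
        intro j _
        simp [lt, Blk.lab, Blk.unk, Blk.sgn, hp']
      rw [e, h]
      rfl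
    simp only [Blk.blkList, hp', Bool.false_eq_true, if_false, List.map_append, List.map_map,
      ev_append]
    have e1 : ((lt B) ∘ B.up k) = fun j => lt B (B.up k j) := rfl
    have e2 : ((lt B) ∘ B.fc k) = fun j => lt B (B.fc k j) := rfl
    have e3 : ((lt B) ∘ B.dn k) = fun j => lt B (B.dn k j) := rfl
    rw [e1, e2, e3, hup, hf, hdn]
    simp [Blk.val, hp', mul_assoc]

lemma ev_flatMap {α : Type*} (f : α → List (G × Fin n × Bool)) (l : List α) :
    ev (l.flatMap f) = (l.map fun a => ev (f a)).prod := by
  induction l with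
  | nil => simp [ev]
  | cons a l ih => rw [List.flatMap_cons, ev_append, ih, List.map_cons, List.prod_cons]

/-- F3: value of the flattened word -/
theorem ev_posList (ha0 : ∀ k, B.a0 k = 1) :
    ev (B.posList.map fun i => (B.lab i, B.unk i, B.sgn i)) = (B.ord.map B.val).prod := by
  have h : (B.posList.map fun i => (B.lab i, B.unk i, B.sgn i)) =
      B.ord.flatMap (fun k => (B.blkList k).map (lt B)) := by
    rw [Blk.posList, List.map_flatMap]; rfl
  rw [h, ev_flatMap]
  congr 1
  apply List.map_congr_left
  intro k _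
  exact ev_blkList B ha0 k

lemma head?_blkList (k : κ) : (B.blkList k).head? = some (B.up k (B.r0 k)) := by
  have h := head?_finRange (B.hst k)
  simp only [Blk.blkList, List.head?_append, List.head?_map, h]
  rfl

lemma getLast?_blkList (k : κ) : (B.blkList k).getLast? = some (B.dn k (B.r0 k)) := by
  have h : (List.finRange (B.r k)).reverse.getLast? = some ⟨0, B.hst k⟩ := by
    rw [List.getLast?_reverse]; exact head?_finRange (B.hst k)
  simp only [Blk.blkList, List.getLast?_append, List.getLast?_map, h]
  rfl

lemma isChain_blkList (k : κ) : (B.blkList k).IsChain (fun i j => B.pred j = i) := by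
  have hup : ((List.finRange (B.r k)).map (B.up k)).IsChain (fun i j => B.pred j = i) := by
    rw [List.isChain_map]
    apply isChain_finRange
    intro i hi
    simp [Blk.pred]
  have hdn : ((List.finRange (B.r k)).reverse.map (B.dn k)).IsChain
      (fun i j => B.pred j = i) := by
    rw [List.isChain_map]
    apply isChain_finRange_reverse
    intro i hi
    simp [Blk.pred, hi]
  have hlup : ((List.finRange (B.r k)).map (B.up k)).getLast? = some (B.up k (B.r1 k)) := by
    rw [List.getLast?_map, getLast?_finRange (B.hst k)]; rfl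
  have hhdn : ((List.finRange (B.r k)).reverse.map (B.dn k)).head? =
      some (B.dn k (B.r1 k)) := by
    rw [List.head?_map, List.head?_reverse, getLast?_finRange (B.hst k)]; rfl
  by_cases hp : B.sg k = true
  · have hf : ((List.finRange (B.l k)).map (B.fc k)).IsChain (fun i j => B.pred j = i) := by
      rw [List.isChain_map]
      apply isChain_finRange
      intro i hi
      simp [Blk.pred, hp]
    have hhf : ((List.finRange (B.l k)).map (B.fc k)).head? = some (B.fc k (B.l0 k)) := by
      rw [List.head?_map, head?_finRange (B.hW _)]; rfl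
    have hlf : ((List.finRange (B.l k)).map (B.fc k)).getLast? = some (B.fc k (B.l1 k)) := by
      rw [List.getLast?_map, getLast?_finRange (B.hW _)]; rfl
    simp only [Blk.blkList, hp, if_true]
    rw [List.isChain_append, List.isChain_append]
    refine ⟨⟨hup, hf, ?_⟩, hdn, ?_⟩
    · intro x hx y hy
      rw [hlup] at hx
      rw [hhf] at hy
      obtain rfl : B.up k (B.r1 k) = x := Option.some.inj hx
      obtain rfl : B.fc k (B.l0 k) = y := Option.some.inj hy
      simp [Blk.pred, hp, Blk.l0]
    · intro x hx y hy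
      rw [List.getLast?_append, hlf] at hx
      rw [hhdn] at hy
      obtain rfl : B.fc k (B.l1 k) = x := Option.some.inj hx
      obtain rfl : B.dn k (B.r1 k) = y := Option.some.inj hy
      have h1 := B.hst k
      have h2 : ¬ ((B.r1 k).1 + 1 < B.r k) := by
        simp only [Blk.r1]; omega
      simp only [Blk.pred, h2, dif_neg, not_false_eq_true, hp, if_true]
  · have hp' : B.sg k = false := by simpa using hp
    have hf : ((List.finRange (B.l k)).reverse.map (B.fc k)).IsChain
        (fun i j => B.pred j = i) := by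
      rw [List.isChain_map]
      apply isChain_finRange_reverse
      intro i hi
      simp [Blk.pred, hp', hi]
    have hhf : ((List.finRange (B.l k)).reverse.map (B.fc k)).head? =
        some (B.fc k (B.l1 k)) := by
      rw [List.head?_map, List.head?_reverse, getLast?_finRange (B.hW _)]; rfl
    have hlf : ((List.finRange (B.l k)).reverse.map (B.fc k)).getLast? =
        some (B.fc k (B.l0 k)) := by
      rw [List.getLast?_map, List.getLast?_reverse, head?_finRange (B.hW _)]; rfl
    simp only [Blk.blkList, hp', Bool.false_eq_true, if_false]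
    rw [List.isChain_append, List.isChain_append]
    refine ⟨⟨hup, hf, ?_⟩, hdn, ?_⟩
    · intro x hx y hy
      rw [hlup] at hx
      rw [hhf] at hy
      obtain rfl : B.up k (B.r1 k) = x := Option.some.inj hx
      obtain rfl : B.fc k (B.l1 k) = y := Option.some.inj hy
      have h1 := B.hW (B.ty k)
      have h2 : ¬ ((B.l1 k).1 + 1 < B.l k) := by
        simp only [Blk.l1]; omega
      simp only [Blk.pred, h2, dif_neg, not_false_eq_true, hp', Bool.false_eq_true, if_false]
    · intro x hx y hy
      rw [List.getLast?_append, hlf] at hx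
      rw [hhdn] at hy
      obtain rfl : B.fc k (B.l0 k) = x := Option.some.inj hx
      obtain rfl : B.dn k (B.r1 k) = y := Option.some.inj hy
      have h1 := B.hst k
      have h2 : ¬ ((B.r1 k).1 + 1 < B.r k) := by
        simp only [Blk.r1]; omega
      simp only [Blk.pred, h2, dif_neg, not_false_eq_true, hp', Bool.false_eq_true, if_false]

lemma pk_of_adj {A C : List κ} {k k' : κ} (e : B.ord = A ++ k :: k' :: C) : B.pk k' = k := by
  unfold Blk.pk
  rw [Equiv.symm_apply_eq]
  have hlt : A.length + 1 < B.ord.length := by rw [e]; simp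
  have h := List.formPerm_apply_lt_getElem B.ord B.hnd A.length hlt
  have e1 : B.ord[A.length]'(by omega) = k := by simp [e]
  have e2 : B.ord[A.length + 1] = k' := by simp [e]
  rw [e1, e2] at h
  exact h.symm

lemma pk_of_last {k k' : κ} (e : B.ord.head? = some k) (e' : B.ord.getLast? = some k') :
    B.pk k = k' := by
  unfold Blk.pk
  rw [Equiv.symm_apply_eq]
  obtain ⟨C, hC⟩ : ∃ C, B.ord = k :: C := by
    cases h : B.ord with
    | nil => rw [h] at e; simp at e
    | cons a C => rw [h] at e; simp at e; exact ⟨C, by rw [e]⟩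
  rw [hC] at e' ⊢
  have h2 : (k :: C).getLast (List.cons_ne_nil _ _) = k' := by
    rw [List.getLast?_eq_some_getLast (List.cons_ne_nil _ _)] at e'
    exact Option.some.inj e'
  rw [← h2]
  exact (List.formPerm_apply_getLast k C).symm

/-- F2 -/
theorem isCycPred_posList : IsCycPred B.pred B.posList := by
  have hup0 : ∀ k, B.pred (B.up k (B.r0 k)) = B.dn (B.pk k) (B.r0 _) := by
    intro k; simp [Blk.pred, Blk.r0]
  have hne : ∀ k, B.blkList k ≠ [] := by
    intro k h
    have := head?_blkList B k
    rw [h] at this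
    simp at this
  apply isCycPred_of_chain
  · unfold Blk.posList
    rw [List.flatMap_def, List.isChain_flatten]
    · refine ⟨?_, ?_⟩
      · intro l hl
        rw [List.mem_map] at hl
        obtain ⟨k, -, rfl⟩ := hl
        exact isChain_blkList B k
      · rw [List.isChain_map, List.isChain_iff_getElem]
        intro i hi x hx y hy
        rw [getLast?_blkList] at hx
        rw [head?_blkList] at hy
        obtain rfl := Option.some.inj hx
        obtain rfl := Option.some.inj hy
        rw [hup0]
        have : B.pk (B.ord[i + 1]) = B.ord[i] := by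
          apply pk_of_adj B (A := B.ord.take i) (C := B.ord.drop (i + 2))
          rw [List.getElem_cons_drop, List.getElem_cons_drop, List.take_append_drop]
        rw [this]
    · intro h
      rw [List.mem_map] at h
      obtain ⟨k, -, h⟩ := h
      exact hne k h
  · intro i j hi hj
    unfold Blk.posList at hi hj
    cases h : B.ord with
    | nil => rw [h] at hi; simp at hi
    | cons a C =>
      rw [h, List.flatMap_cons, List.head?_append, head?_blkList] at hi
      obtain rfl : B.up a (B.r0 a) = i := Option.some.inj hi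
      obtain ⟨C', b, hb⟩ : ∃ C' b, B.ord = C' ++ [b] := by
        refine ⟨B.ord.dropLast, B.ord.getLast (by rw [h]; simp), ?_⟩
        exact (List.dropLast_append_getLast _).symm
      rw [hb, List.flatMap_append, List.flatMap_singleton, List.getLast?_append,
        getLast?_blkList] at hj
      obtain rfl : B.dn b (B.r0 b) = j := Option.some.inj hj
      rw [hup0]
      have : B.pk a = b := by
        apply pk_of_last
        · rw [h]; rfl
        · rw [hb]; simp
      rw [this]

end Crest.Agent.R174.FlatK
end

-- ▼ part R174/XB126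
section

set_option autoImplicit false

/-!
# R174, W3 for the block word (helper126)
-/

open Monoid

namespace Crest.Agent.R174.WD

open Crest.Agent.R174.Red

universe u

variable {G : Type u} [Group G] {n : ℕ} {κ : Type} [DecidableEq κ] [Fintype κ]

/-- **W3 for the block word.** -/
theorem x_spec_blk (B : Blk G n κ) (ha0 : ∀ k, B.a0 k = 1) (hne : B.ord ≠ []) {g : G}
    (hval : (B.ord.map B.val).prod = Coprod.inl g) (ω : ℂ) (hω : ω * star ω = 1) :
    ∃ (μ : B.Pos → B.Pos) (z : B.Pos → ℂ),
      (∀ i, μ (μ i) = i ∧ B.unk (μ i) = B.unk i ∧ B.sgn (μ i) = !B.sgn i ∧ z (μ i) = star (z i) ∧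
        z i * star (z i) = 1 ∧ ‖z i‖ = 1) ∧
      ∃ (c : List ℕ) (c0 : ℕ), 2 * c.length = Fintype.card B.Pos ∧ (∀ k ∈ c, 0 < k) ∧ 0 < c0 ∧
        c0 + c.sum = Fintype.card B.Pos ∧
        ∀ q, trG (mono (fun i => μ (B.pred i)) B.lab (fun i => z (B.pred i)) ^ q) =
          cterm c0 g ((star ω) ^ c.length) q + (c.map fun k => cterm k (1 : G) ω q).sum := by
  have hne' : B.posList ≠ [] := by
    obtain ⟨k, t, hk⟩ := List.exists_cons_of_ne_nil hne
    intro h
    have h1 := FlatK.mem_posList B (B.up k (B.r0 k))
    rw [h] at h1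
    exact absurd h1 (List.not_mem_nil)
  have hcp := FlatK.isCycPred_posList B
  have hpr : B.posList.IsChain (fun i j => B.pred j = i) := by
    rw [List.isChain_iff_getElem]
    intro i hi
    refine hcp.1 (B.posList.take i) (B.posList.drop (i + 2)) _ _ ?_
    conv_lhs => rw [← List.take_append_drop i B.posList]
    congr 1
    rw [List.drop_eq_getElem_cons (by omega), List.drop_eq_getElem_cons hi]
  have hcl : ∀ i ∈ B.posList.head?, ∀ j ∈ B.posList.getLast?, B.pred i = j := by
    obtain ⟨p, t, hp⟩ := List.exists_cons_of_ne_nil hne'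
    intro i hi j hj
    rw [hp] at hi hj
    simp only [List.head?_cons, Option.mem_def, Option.some.injEq] at hi
    subst hi
    exact hcp.2 t p j hp hj
  obtain ⟨μ, z, h1, h2⟩ := x_spec B.lab B.unk B.sgn B.pred B.posList (FlatK.nodup_posList B)
    (FlatK.mem_posList B) hne' hpr hcl (g := g)
    (by rw [← hval, ← FlatK.ev_posList B ha0]; rfl) ω hω
  refine ⟨μ, z, fun i => ?_, h2⟩
  obtain ⟨a1, a2, a3, a4, a5⟩ := h1 i
  refine ⟨a1, a2, a3, a4, a5, ?_⟩
  have : ‖z i‖ * ‖z i‖ = 1 := by
    have := congrArg norm a5
    rwa [norm_mul, norm_star, norm_one] at this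
  nlinarith [norm_nonneg (z i)]

end Crest.Agent.R174.WD
end

-- ▼ part R174/PredE753

set_option autoImplicit false

/-!
# R174: the cyclic predecessor as a permutation (helper753)
-/

namespace Crest.Agent.R174.FlatK

open Crest.Agent.R174.WD

universe u

/-- a cyclic predecessor function of a nodup complete list is the inverse of `formPerm` -/
theorem pred_eq_formPerm_symm {P : Type} [DecidableEq P] {pr : P → P} {L : List P}
    (h : IsCycPred pr L) (hnd : L.Nodup) {i : P} (hi : i ∈ L) : pr i = L.formPerm.symm i := by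
  rw [Equiv.eq_symm_apply]
  obtain ⟨m, hm, rfl⟩ := List.getElem_of_mem hi
  cases m with
  | zero =>
    obtain ⟨a, C, rfl⟩ : ∃ a C, L = a :: C := by
      cases L with
      | nil => simp at hm
      | cons a C => exact ⟨a, C, rfl⟩
    have h2 := h.2 C a ((a :: C).getLast (List.cons_ne_nil _ _)) rfl
      (List.getLast?_eq_some_getLast (List.cons_ne_nil _ _))
    simp only [List.getElem_cons_zero]
    rw [h2]
    exact List.formPerm_apply_getLast a C
  | succ m =>
    have h1 := h.1 (L.take m) (L.drop (m + 2)) L[m] L[m + 1] (by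
      rw [List.getElem_cons_drop, List.getElem_cons_drop, List.take_append_drop])
    rw [h1]
    exact List.formPerm_apply_lt_getElem L hnd m hm

variable {G : Type u} {n : ℕ} {κ : Type} [DecidableEq κ] (B : Blk G n κ)

/-- the cyclic predecessor as a permutation -/
def predE : Equiv.Perm B.Pos := B.posList.formPerm.symm

theorem coe_predE [Group G] : (predE B : B.Pos → B.Pos) = B.pred := by
  funext i
  exact (pred_eq_formPerm_symm (isCycPred_posList B) (nodup_posList B) (mem_posList B i)).symm


end Crest.Agent.R174.FlatK
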