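import Mathlib
import Crest.Agent.R174.GRLocDef
import Crest.Agent.R174.WD126
import Crest.Agent.R174.Lim259

-- ▼ part R174/TrIneq
section

/-!
# R174 (KLH), block W5: the trace inequality (helper720, post 2808; form of helper477, post 3538)

Abstract part: `𝓑` is a complex *-algebra (no topology) with a tracial positive functional `τ`.
-/

set_option autoImplicit false
open Finset

noncomputable section

namespace Crest.Agent.R174.TrIneq

section abstract_part

variable {𝓑 : Type*} [Ring 𝓑] [Algebra ℂ 𝓑] [StarRing 𝓑] [StarModule ℂ 𝓑]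

/-- a tracial positive functional -/
structure PosTrace (τ : 𝓑 →ₗ[ℂ] ℂ) : Prop where
  comm : ∀ a b, τ (a * b) = τ (b * a)
  map_star : ∀ a, τ (star a) = (starRingEnd ℂ) (τ a)
  nonneg : ∀ a, 0 ≤ (τ (star a * a)).re

/-- the Cesàro-Fejér sawtooth sum `S_K(Z) = ∑_{q<K} (1-q/K) Im τ(Z^q) / (π q)`
(the term `q = 0` is `0` since division by zero is zero). -/
def SK (τ : 𝓑 →ₗ[ℂ] ℂ) (K : ℕ) (Z : 𝓑) : ℝ :=
  ∑ q ∈ range K, (1 - (q : ℝ) / K) * (τ (Z ^ q)).im / (Real.pi * q)

omit [StarRing 𝓑] [StarModule ℂ 𝓑] in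
/-- `F` is a finite combination of fixed elements with differentiable coefficients,
and `F'` is its derivative -/
def HasD (F F' : ℝ → 𝓑) : Prop :=
  ∃ (m : ℕ) (b : Fin m → 𝓑) (c c' : Fin m → ℝ → ℂ), (∀ j t, HasDerivAt (c j) (c' j t) t) ∧
    (∀ t, F t = ∑ j, c j t • b j) ∧ (∀ t, F' t = ∑ j, c' j t • b j)

omit [StarRing 𝓑] [StarModule ℂ 𝓑] in
theorem HasD.of_fintype {ι : Type*} [Fintype ι] {F F' : ℝ → 𝓑} (b : ι → 𝓑) (c c' : ι → ℝ → ℂ)
    (h : ∀ j t, HasDerivAt (c j) (c' j t) t)
    (hF : ∀ t, F t = ∑ j, c j t • b j) (hF' : ∀ t, F' t = ∑ j, c' j t • b j) : HasD F F' := by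
  classical
  refine ⟨Fintype.card ι, fun j => b ((Fintype.equivFin ι).symm j),
    fun j => c ((Fintype.equivFin ι).symm j), fun j => c' ((Fintype.equivFin ι).symm j),
    fun j t => h _ t, fun t => ?_, fun t => ?_⟩
  · rw [hF t]
    exact (Equiv.sum_comp (Fintype.equivFin ι).symm (fun j => c j t • b j)).symm
  · rw [hF' t]
    exact (Equiv.sum_comp (Fintype.equivFin ι).symm (fun j => c' j t • b j)).symm

omit [StarRing 𝓑] [StarModule ℂ 𝓑] in
theorem HasD.apply {F F' : ℝ → 𝓑} (h : HasD F F') (L : 𝓑 →ₗ[ℂ] ℂ) (t : ℝ) :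
    HasDerivAt (fun t => L (F t)) (L (F' t)) t := by
  obtain ⟨m, b, c, c', h1, h2, h3⟩ := h
  have e1 : (fun t => L (F t)) = fun t => ∑ j, c j t * L (b j) := by
    funext t; rw [h2 t, map_sum]; simp
  have e2 : L (F' t) = ∑ j, c' j t * L (b j) := by
    rw [h3 t, map_sum]; simp
  rw [e1, e2]
  exact HasDerivAt.fun_sum fun j _ => (h1 j t).mul_const _

omit [StarRing 𝓑] [StarModule ℂ 𝓑] in
theorem HasD.const (b : 𝓑) : HasD (fun _ => b) (fun _ => 0) :=
  HasD.of_fintype (ι := Unit) (fun _ => b) (fun _ _ => 1) (fun _ _ => 0)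
    (fun _ t => hasDerivAt_const t 1) (fun t => by simp) (fun t => by simp)

omit [StarRing 𝓑] [StarModule ℂ 𝓑] in
theorem HasD.mul {F F' H H' : ℝ → 𝓑} (hF : HasD F F') (hH : HasD H H') :
    HasD (fun t => F t * H t) (fun t => F' t * H t + F t * H' t) := by
  obtain ⟨m, b, c, c', h1, h2, h3⟩ := hF
  obtain ⟨n, b₂, d, d', k1, k2, k3⟩ := hH
  refine HasD.of_fintype (ι := Fin m × Fin n) (fun p => b p.1 * b₂ p.2)
    (fun p t => c p.1 t * d p.2 t) (fun p t => c' p.1 t * d p.2 t + c p.1 t * d' p.2 t)
    (fun p t => (h1 p.1 t).mul (k1 p.2 t)) (fun t => ?_) (fun t => ?_)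
  · rw [h2 t, k2 t, Finset.sum_mul_sum, Fintype.sum_prod_type]
    simp only [smul_mul_smul_comm]
  · rw [h2 t, k2 t, h3 t, k3 t, Finset.sum_mul_sum, Finset.sum_mul_sum, Fintype.sum_prod_type,
      ← Finset.sum_add_distrib]
    refine Finset.sum_congr rfl fun i _ => ?_
    rw [← Finset.sum_add_distrib]
    refine Finset.sum_congr rfl fun j _ => ?_
    rw [smul_mul_smul_comm, smul_mul_smul_comm, add_smul]

omit [StarRing 𝓑] [StarModule ℂ 𝓑] in
/-- derivative of powers under a trace -/
theorem HasD.pow_trace {F F' : ℝ → 𝓑} (hF : HasD F F') {τ : 𝓑 →ₗ[ℂ] ℂ}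
    (hτ : ∀ a b, τ (a * b) = τ (b * a)) (q : ℕ) :
    ∃ D : ℝ → 𝓑, HasD (fun t => F t ^ (q + 1)) D ∧
      ∀ (t : ℝ) (m : ℕ), τ (D t * F t ^ m) = (q + 1 : ℂ) * τ (F' t * F t ^ (q + m)) := by
  induction q with
  | zero =>
    refine ⟨F', by simpa using hF, fun t m => ?_⟩
    simp
  | succ q ih =>
    obtain ⟨D, hD, hD'⟩ := ih
    refine ⟨fun t => D t * F t + F t ^ (q + 1) * F' t, ?_, fun t m => ?_⟩
    · have := hD.mul hF
      simpa [pow_succ] using this
    · have h1 : (D t * F t + F t ^ (q + 1) * F' t) * F t ^ m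
          = D t * F t ^ (m + 1) + F t ^ (q + 1) * (F' t * F t ^ m) := by
        rw [add_mul, mul_assoc, ← pow_succ', mul_assoc]
      rw [h1, map_add, hD', hτ (F t ^ (q + 1)), mul_assoc (F' t), ← pow_add]
      have h2 : q + (m + 1) = q + 1 + m := by ring
      have h3 : m + (q + 1) = q + 1 + m := by ring
      rw [h2, h3]
      push_cast
      ring

omit [StarRing 𝓑] [StarModule ℂ 𝓑] in
theorem HasD.hasDerivAt_trace_pow {F F' : ℝ → 𝓑} (hF : HasD F F') {τ : 𝓑 →ₗ[ℂ] ℂ}
    (hτ : ∀ a b, τ (a * b) = τ (b * a)) (q : ℕ) (t : ℝ) :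
    HasDerivAt (fun t => τ (F t ^ (q + 1))) ((q + 1 : ℂ) * τ (F' t * F t ^ q)) t := by
  obtain ⟨D, hD, hD'⟩ := hF.pow_trace hτ q
  have := hD.apply τ t
  have h2 := hD' t 0
  simp only [pow_zero, mul_one, add_zero] at h2
  rw [h2] at this
  exact this

/-- combinatorial identity behind the Fejér kernel -/
theorem fejer_sum (r : ℕ → ℝ) (K : ℕ) :
    ∑ j ∈ range K, ∑ l ∈ range K, r (Nat.dist j l)
      = K * r 0 + 2 * ∑ q ∈ range K, (if q = 0 then 0 else ((K : ℝ) - q) * r q) := by
  induction K with
  | zero => simp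
  | succ K ih =>
    rw [Finset.sum_range_succ]
    have h1 : ∑ j ∈ range K, ∑ l ∈ range (K + 1), r (Nat.dist j l)
        = ∑ j ∈ range K, ∑ l ∈ range K, r (Nat.dist j l) + ∑ j ∈ range K, r (K - j) := by
      rw [← Finset.sum_add_distrib]
      refine Finset.sum_congr rfl fun j hj => ?_
      rw [Finset.sum_range_succ]
      congr 2
      have := Finset.mem_range.1 hj
      simp [Nat.dist]; omega
    have h2 : ∑ l ∈ range (K + 1), r (Nat.dist K l) = ∑ j ∈ range K, r (K - j) + r 0 := by
      rw [Finset.sum_range_succ]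
      congr 1
      · refine Finset.sum_congr rfl fun j hj => ?_
        have := Finset.mem_range.1 hj
        congr 1
        simp [Nat.dist]; omega
      · simp [Nat.dist]
    have h3 : ∑ j ∈ range K, r (K - j) = ∑ q ∈ range (K + 1), (if q = 0 then 0 else r q) := by
      rw [Finset.sum_range_succ']
      simp only [Nat.add_eq_zero_iff, one_ne_zero, and_false, if_false, if_true, add_zero]
      rw [← Finset.sum_range_reflect]
      refine Finset.sum_congr rfl fun j hj => ?_
      have := Finset.mem_range.1 hj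
      congr 1
      omega
    have h4 : ∑ q ∈ range (K + 1), (if q = 0 then (0 : ℝ) else (((K + 1 : ℕ) : ℝ) - q) * r q)
        = ∑ q ∈ range K, (if q = 0 then (0 : ℝ) else ((K : ℝ) - q) * r q)
          + ∑ q ∈ range (K + 1), (if q = 0 then 0 else r q) := by
      rw [Finset.sum_range_succ, Finset.sum_range_succ (fun q => if q = 0 then (0 : ℝ) else r q),
        ← add_assoc, ← Finset.sum_add_distrib]
      congr 1
      · refine Finset.sum_congr rfl fun q _ => ?_
        split_ifs
        · simp
        · push_cast; ring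
      · split_ifs
        · rfl
        · push_cast; ring
    rw [h1, ih, h2, h3, h4]
    push_cast
    ring

/-- a finite family of self-adjoint orthogonal projections with sum one -/
structure Pvm {ι : Type*} [Fintype ι] [DecidableEq ι] (P : ι → 𝓑) : Prop where
  sa : ∀ j, star (P j) = P j
  orth : ∀ i j, P i * P j = if i = j then P i else 0
  sum_one : ∑ j, P j = 1

variable {ι : Type*} [Fintype ι] [DecidableEq ι]

/-- the path `Q_t = ∑ exp(2π i t x_j) P_j` -/
def Qt (P : ι → 𝓑) (x : ι → ℝ) (t : ℝ) : 𝓑 :=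
  ∑ j, Complex.exp (2 * Real.pi * Complex.I * t * x j) • P j

/-- the generator `α = ∑ x_j P_j` -/
def al (P : ι → 𝓑) (x : ι → ℝ) : 𝓑 := ∑ j, (x j : ℂ) • P j

omit [StarRing 𝓑] [StarModule ℂ 𝓑] [DecidableEq ι] in
theorem hasD_Qt (P : ι → 𝓑) (x : ι → ℝ) :
    HasD (Qt P x) (fun t => ∑ j, ((2 * Real.pi * Complex.I * x j)
      * Complex.exp (2 * Real.pi * Complex.I * t * x j)) • P j) := by
  refine HasD.of_fintype P (fun j t => Complex.exp (2 * Real.pi * Complex.I * t * x j))
    (fun j t => (2 * Real.pi * Complex.I * x j)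
      * Complex.exp (2 * Real.pi * Complex.I * t * x j)) (fun j t => ?_) (fun t => rfl)
    (fun t => rfl)
  have h1 : HasDerivAt (fun t : ℝ => 2 * Real.pi * Complex.I * t * x j)
      (2 * Real.pi * Complex.I * x j) t := by
    have := ((Complex.ofRealCLM.hasDerivAt (x := t)).const_mul (2 * Real.pi * Complex.I)).mul_const
      (x j : ℂ)
    simpa using this
  have := h1.cexp
  convert this using 1
  ring

omit [StarRing 𝓑] [StarModule ℂ 𝓑] in
theorem sum_smul_mul_sum_smul {P : ι → 𝓑} (hP : ∀ i j, P i * P j = if i = j then P i else 0)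
    (a b : ι → ℂ) : (∑ j, a j • P j) * (∑ j, b j • P j) = ∑ j, (a j * b j) • P j := by
  rw [Finset.sum_mul_sum]
  refine Finset.sum_congr rfl fun i _ => ?_
  simp only [smul_mul_smul_comm, hP]
  rw [Finset.sum_eq_single i]
  · simp
  · intro j _ hj
    simp [Ne.symm hj]
  · intro h; exact absurd (Finset.mem_univ i) h


theorem Qt_mul_star {P : ι → 𝓑} (hP : Pvm P) (x : ι → ℝ) (t : ℝ) :
    Qt P x t * star (Qt P x t) = 1 := by
  unfold Qt
  rw [star_sum]
  simp only [star_smul, hP.sa]
  rw [sum_smul_mul_sum_smul hP.orth]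
  rw [← hP.sum_one]
  refine Finset.sum_congr rfl fun j _ => ?_
  have : Complex.exp (2 * Real.pi * Complex.I * t * x j)
      * star (Complex.exp (2 * Real.pi * Complex.I * t * x j)) = 1 := by
    have h0 : star (Complex.exp (2 * Real.pi * Complex.I * t * x j))
        = Complex.exp (-(2 * Real.pi * Complex.I * t * x j)) := by
      change (starRingEnd ℂ) _ = _
      rw [← Complex.exp_conj]
      congr 1
      simp only [map_mul, Complex.conj_ofReal, Complex.conj_I, map_ofNat]
      ring
    rw [h0, ← Complex.exp_add]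
    simp
  rw [this, one_smul]

omit [StarRing 𝓑] [StarModule ℂ 𝓑] in
theorem Qt_deriv_eq {P : ι → 𝓑} (hP : ∀ i j, P i * P j = if i = j then P i else 0)
    (x : ι → ℝ) (t : ℝ) :
    (∑ j, ((2 * Real.pi * Complex.I * x j)
      * Complex.exp (2 * Real.pi * Complex.I * t * x j)) • P j)
      = (2 * Real.pi * Complex.I) • (al P x * Qt P x t) := by
  unfold al Qt
  rw [sum_smul_mul_sum_smul hP, Finset.smul_sum]
  refine Finset.sum_congr rfl fun j _ => ?_
  rw [smul_smul]
  congr 1
  ring

omit [Algebra ℂ 𝓑] [StarModule ℂ 𝓑] in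
/-- powers of a unitary -/
theorem pow_mul_star_pow {U : 𝓑} (hU : U * star U = 1) (j l : ℕ) :
    U ^ j * star U ^ l = if l ≤ j then U ^ (j - l) else star U ^ (l - j) := by
  have key : ∀ m : ℕ, U ^ m * star U ^ m = 1 := by
    intro m
    induction m with
    | zero => simp
    | succ m ih =>
      rw [pow_succ, pow_succ', mul_assoc, ← mul_assoc U, hU, one_mul, ih]
  split_ifs with h
  · obtain ⟨d, rfl⟩ := Nat.exists_eq_add_of_le h
    rw [add_comm l d, pow_add, mul_assoc, key, mul_one]
    simp
  · push Not at h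
    obtain ⟨d, rfl⟩ := Nat.exists_eq_add_of_le h.le
    rw [pow_add, ← mul_assoc, key, one_mul]
    simp

/-- Fejér positivity: `0 ≤ Re τ(α) K + 2 ∑_{0<q<K} (K-q) Re τ(α U^q)`. -/
theorem fejer_pos {τ : 𝓑 →ₗ[ℂ] ℂ} (hτ : PosTrace τ) {P : ι → 𝓑} (hP : Pvm P) {x : ι → ℝ}
    (hx : ∀ j, 0 ≤ x j) {U : 𝓑} (hU : U * star U = 1) (K : ℕ) :
    0 ≤ K * (τ (al P x)).re + 2 * ∑ q ∈ range K,
      (if q = 0 then 0 else ((K : ℝ) - q) * (τ (al P x * U ^ q)).re) := by
  set p : 𝓑 := ∑ j ∈ range K, U ^ j with hp
  have hal : star (al P x) = al P x := by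
    unfold al
    rw [star_sum]
    refine Finset.sum_congr rfl fun j _ => ?_
    rw [star_smul, hP.sa]
    simp
  -- positivity
  have hpos : 0 ≤ (τ (al P x * (p * star p))).re := by
    unfold al
    rw [Finset.sum_mul, map_sum, Complex.re_sum]
    refine Finset.sum_nonneg fun j _ => ?_
    rw [smul_mul_assoc, map_smul, smul_eq_mul, Complex.re_ofReal_mul]
    refine mul_nonneg (hx j) ?_
    have h1 : τ (P j * (p * star p)) = τ (star (star (P j * p)) * star (P j * p)) := by
      rw [star_star, star_mul, hP.sa]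
      have h2 : P j * p * (star p * P j) = (P j * (p * star p)) * P j := by
        simp only [mul_assoc]
      rw [h2, hτ.comm (P j * (p * star p)), ← mul_assoc (P j) (P j), hP.orth j j, if_pos rfl]
    rw [h1]
    exact hτ.nonneg _
  -- expansion
  have hexp : (τ (al P x * (p * star p))).re
      = ∑ j ∈ range K, ∑ l ∈ range K, (τ (al P x * U ^ (Nat.dist j l))).re := by
    rw [hp, star_sum, Finset.sum_mul_sum, Finset.mul_sum, map_sum, Complex.re_sum]
    refine Finset.sum_congr rfl fun j _ => ?_
    rw [Finset.mul_sum, map_sum, Complex.re_sum]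
    refine Finset.sum_congr rfl fun l _ => ?_
    rw [star_pow, pow_mul_star_pow hU]
    split_ifs with h
    · have : Nat.dist j l = j - l := by simp [Nat.dist]; omega
      rw [this]
    · have : Nat.dist j l = l - j := by simp [Nat.dist]; omega
      rw [this]
      have h3 : al P x * star U ^ (l - j) = star (U ^ (l - j) * al P x) := by
        rw [star_mul, hal, star_pow]
      rw [h3, hτ.map_star, Complex.conj_re, hτ.comm]
  rw [hexp, fejer_sum (fun m => (τ (al P x * U ^ m)).re)] at hpos
  simpa using hpos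

/-- **W5, abstract form.** -/
theorem abstract_ineq {τ : 𝓑 →ₗ[ℂ] ℂ} (hτ : PosTrace τ) {P : ι → 𝓑} (hP : Pvm P) {x : ι → ℝ}
    (hx : ∀ j, 0 ≤ x j) {Y : 𝓑} (hY : Y * star Y = 1) (K : ℕ) :
    SK τ K Y ≤ SK τ K (Qt P x 1 * Y) + (τ (al P x)).re := by
  rcases Nat.eq_zero_or_pos K with rfl | hK
  · have : 0 ≤ (τ (al P x)).re := by
      have := fejer_pos hτ hP hx (U := (1 : 𝓑)) (by simp) 1
      simpa using this
    simpa [SK] using this
  have hK' : (0 : ℝ) < K := by exact_mod_cast hK
  -- the path
  set V : ℝ → 𝓑 := fun t => Qt P x t * Y with hV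
  have hVD : HasD V (fun t => (2 * Real.pi * Complex.I) • (al P x * V t)) := by
    have h1 := (hasD_Qt P x).mul (HasD.const Y)
    have h2 : (fun t : ℝ => (∑ j, ((2 * Real.pi * Complex.I * x j)
      * Complex.exp (2 * Real.pi * Complex.I * t * x j)) • P j) * Y + Qt P x t * 0)
      = fun t : ℝ => (2 * Real.pi * Complex.I) • (al P x * V t) := by
      funext t
      rw [Qt_deriv_eq hP.orth, mul_zero, add_zero, smul_mul_assoc, mul_assoc (al P x)]
    rw [h2] at h1
    exact h1
  have hVU : ∀ t, V t * star (V t) = 1 := by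
    intro t
    rw [hV]
    simp only [star_mul]
    rw [mul_assoc, ← mul_assoc Y, hY, one_mul, Qt_mul_star hP]
  have hder : ∀ t, HasDerivAt (fun t => SK τ K (V t))
      (∑ q ∈ range K, if q = 0 then 0 else
        (1 - (q : ℝ) / K) * (2 * (τ (al P x * V t ^ q)).re)) t := by
    intro t
    unfold SK
    refine HasDerivAt.fun_sum fun q _ => ?_
    rcases Nat.eq_zero_or_pos q with rfl | hq
    · simp only [if_true]
      have : (fun t => (1 - ((0 : ℕ) : ℝ) / K) * (τ (V t ^ 0)).im / (Real.pi * ((0 : ℕ) : ℝ)))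
          = fun _ => (0 : ℝ) := by
        funext t; simp
      rw [this]
      exact hasDerivAt_const _ _
    · obtain ⟨m, rfl⟩ : ∃ m, q = m + 1 := ⟨q - 1, by omega⟩
      rw [if_neg (by omega)]
      have h1 := hVD.hasDerivAt_trace_pow hτ.comm m t
      have h2 : ((m + 1 : ℂ) * τ ((2 * Real.pi * Complex.I) • (al P x * V t) * V t ^ m))
          = (2 * Real.pi * (m + 1) : ℝ) * (Complex.I * τ (al P x * V t ^ (m + 1))) := by
        rw [smul_mul_assoc, mul_assoc (al P x), ← pow_succ', map_smul, smul_eq_mul]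
        push_cast
        ring
      rw [h2] at h1
      have h3 : HasDerivAt (fun t => (τ (V t ^ (m + 1))).im)
          ((2 * Real.pi * (m + 1)) * (τ (al P x * V t ^ (m + 1))).re) t := by
        have := Complex.imCLM.hasFDerivAt.comp_hasDerivAt t h1
        have e : Complex.imCLM ((2 * Real.pi * (m + 1) : ℝ)
            * (Complex.I * τ (al P x * V t ^ (m + 1))))
            = (2 * Real.pi * (m + 1)) * (τ (al P x * V t ^ (m + 1))).re := by
          rw [Complex.imCLM_apply, Complex.im_ofReal_mul]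
          simp
        rw [e] at this
        exact this
      have h4 := (h3.const_mul (1 - ((m + 1 : ℕ) : ℝ) / K)).div_const
        (Real.pi * ((m + 1 : ℕ) : ℝ))
      have hpi : Real.pi ≠ 0 := Real.pi_ne_zero
      have hm : ((m : ℝ) + 1) ≠ 0 := by positivity
      have h5 : (1 - ((m + 1 : ℕ) : ℝ) / K) * (2 * (τ (al P x * V t ^ (m + 1))).re)
          = (1 - ((m + 1 : ℕ) : ℝ) / K) * (2 * Real.pi * (m + 1)
            * (τ (al P x * V t ^ (m + 1))).re) / (Real.pi * ((m + 1 : ℕ) : ℝ)) := by
        push_cast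
        generalize (1 - ((m : ℝ) + 1) / K) = c
        field_simp
      rw [h5]
      exact h4
  have hmono : Monotone (fun t => SK τ K (V t) + t * (τ (al P x)).re) := by
    refine monotone_of_hasDerivAt_nonneg (f' := fun t => (∑ q ∈ range K, if q = 0 then 0 else
        (1 - (q : ℝ) / K) * (2 * (τ (al P x * V t ^ q)).re)) + (τ (al P x)).re) ?_ ?_
    · intro t
      have h5 : HasDerivAt (fun t : ℝ => t * (τ (al P x)).re) ((τ (al P x)).re) t := by
        simpa using (hasDerivAt_id t).mul_const (τ (al P x)).re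
      exact (hder t).add h5
    · intro t
      have h6 := fejer_pos hτ hP hx (hVU t) K
      have h7 : (∑ q ∈ range K, if q = 0 then 0 else
          (1 - (q : ℝ) / K) * (2 * (τ (al P x * V t ^ q)).re)) + (τ (al P x)).re
          = (1 / K) * (K * (τ (al P x)).re + 2 * ∑ q ∈ range K,
            (if q = 0 then 0 else ((K : ℝ) - q) * (τ (al P x * V t ^ q)).re)) := by
        rw [mul_add, ← mul_assoc, one_div, inv_mul_cancel₀ hK'.ne', one_mul, add_comm]
        congr 1
        rw [← mul_assoc, Finset.mul_sum]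
        refine Finset.sum_congr rfl fun q _ => ?_
        split_ifs
        · simp
        · field_simp
      change 0 ≤ (∑ q ∈ range K, if q = 0 then 0 else
          (1 - (q : ℝ) / K) * (2 * (τ (al P x * V t ^ q)).re)) + (τ (al P x)).re
      rw [h7]
      exact mul_nonneg (by positivity) h6
  have h8 := hmono (zero_le_one (α := ℝ))
  simp only [zero_mul, add_zero, one_mul] at h8
  have hV0 : V 0 = Y := by
    rw [hV]
    simp only [Qt]
    simp [hP.sum_one]
  rw [hV0] at h8
  exact h8

end abstract_part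

end Crest.Agent.R174.TrIneq
end
end

-- ▼ part R174/TrIneq2
section

/-!
# R174 (KLH), block W5, concrete part: `𝓑 = Matrix N N ℂ[G]`.
-/

set_option autoImplicit false
open Finset

noncomputable section

namespace Crest.Agent.R174.TrIneq

section star_part

variable {G : Type*} [Group G]

/-- the star on the group algebra -/
instance instStarGA : Star (MonoidAlgebra ℂ G) where
  star f := MonoidAlgebra.ofCoeff ((f.coeff.mapRange (starRingEnd ℂ) (map_zero _)).equivMapDomain
    (Equiv.inv G))

theorem coeff_star (f : MonoidAlgebra ℂ G) (g : G) :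
    (star f).coeff g = (starRingEnd ℂ) (f.coeff g⁻¹) := rfl

theorem star_single (g : G) (r : ℂ) :
    star (MonoidAlgebra.single g r) = MonoidAlgebra.single g⁻¹ ((starRingEnd ℂ) r) := by
  ext h
  rw [coeff_star, MonoidAlgebra.coeff_single, MonoidAlgebra.coeff_single]
  classical
  rw [Finsupp.single_apply, Finsupp.single_apply]
  by_cases h1 : g = h⁻¹
  · subst h1; simp
  · rw [if_neg h1, if_neg (fun h2 => h1 (by rw [← h2, inv_inv])), map_zero]

theorem star_add_aux (a b : MonoidAlgebra ℂ G) : star (a + b) = star a + star b := by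
  ext h
  simp only [coeff_star, MonoidAlgebra.coeff_add, Finsupp.add_apply, map_add]

theorem star_zero_aux : star (0 : MonoidAlgebra ℂ G) = 0 := by
  ext h
  simp [coeff_star]

theorem star_mul_aux (a b : MonoidAlgebra ℂ G) : star (a * b) = star b * star a := by
  induction a using MonoidAlgebra.induction_linear with
  | zero => simp [star_zero_aux]
  | add x y hx hy => rw [add_mul, star_add_aux, hx, hy, star_add_aux, mul_add]
  | single g r =>
    induction b using MonoidAlgebra.induction_linear with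
    | zero => simp [star_zero_aux]
    | add x y hx hy => rw [mul_add, star_add_aux, hx, hy, star_add_aux, add_mul]
    | single h s =>
      rw [MonoidAlgebra.single_mul_single, star_single, star_single, star_single,
        MonoidAlgebra.single_mul_single, mul_inv_rev, map_mul, mul_comm ((starRingEnd ℂ) r)]

instance instStarRingGA : StarRing (MonoidAlgebra ℂ G) where
  star_involutive a := by
    ext h
    simp [coeff_star]
  star_mul := star_mul_aux
  star_add := star_add_aux

instance instStarModuleGA : StarModule ℂ (MonoidAlgebra ℂ G) where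
  star_smul r a := by
    ext h
    simp [coeff_star]

theorem coeff_mul_comm_one (a b : MonoidAlgebra ℂ G) : (a * b).coeff 1 = (b * a).coeff 1 := by
  induction a using MonoidAlgebra.induction_linear with
  | zero => simp
  | add x y hx hy => simp only [add_mul, mul_add, MonoidAlgebra.coeff_add, Finsupp.add_apply, hx, hy]
  | single g r =>
    induction b using MonoidAlgebra.induction_linear with
    | zero => simp
    | add x y hx hy =>
      simp only [add_mul, mul_add, MonoidAlgebra.coeff_add, Finsupp.add_apply, hx, hy]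
    | single h s =>
      classical
      rw [MonoidAlgebra.single_mul_single, MonoidAlgebra.single_mul_single,
        MonoidAlgebra.coeff_single, MonoidAlgebra.coeff_single, Finsupp.single_apply,
        Finsupp.single_apply, mul_comm r s]
      by_cases h1 : g * h = 1
      · have h2 : h * g = 1 := mul_eq_one_iff_eq_inv.2 (eq_inv_of_mul_eq_one_right h1)
        rw [if_pos h1, if_pos h2]
      · have h2 : ¬ h * g = 1 := fun h3 => h1 (mul_eq_one_iff_eq_inv.2 (eq_inv_of_mul_eq_one_right h3))
        rw [if_neg h1, if_neg h2]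

theorem coeff_star_mul_self (a : MonoidAlgebra ℂ G) : 0 ≤ ((star a * a).coeff 1).re := by
  classical
  have h1 : (star a * a).coeff 1
      = ∑ g ∈ a.coeff.support, (starRingEnd ℂ) (a.coeff g) * a.coeff g := by
    have h2 : a = ∑ g ∈ a.coeff.support, MonoidAlgebra.single g (a.coeff g) := by
      ext h
      rw [MonoidAlgebra.coeff_sum, Finsupp.finsetSum_apply]
      simp only [MonoidAlgebra.coeff_single, Finsupp.single_apply]
      rw [Finset.sum_ite_eq']
      split_ifs with h3
      · rfl
      · simpa using h3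
    have h3 : ∀ g : G, (star a * MonoidAlgebra.single g (a.coeff g)).coeff 1
        = (starRingEnd ℂ) (a.coeff g) * a.coeff g := by
      intro g
      rw [MonoidAlgebra.coeff_mul_single_apply, coeff_star, one_mul, inv_inv]
    conv_lhs => rw [show star a * a = star a * ∑ g ∈ a.coeff.support,
      MonoidAlgebra.single g (a.coeff g) by rw [← h2]]
    rw [Finset.mul_sum, MonoidAlgebra.coeff_sum, Finsupp.finsetSum_apply]
    exact Finset.sum_congr rfl fun g _ => h3 g
  rw [h1, Complex.re_sum]
  refine Finset.sum_nonneg fun g _ => ?_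
  rw [← Complex.normSq_eq_conj_mul_self, Complex.ofReal_re]
  exact Complex.normSq_nonneg _

end star_part

section matrix_part

variable {G : Type*} [Group G] {N : Type*} [Fintype N] [DecidableEq N]

/-- the canonical trace on matrices over the group algebra -/
def trG (G : Type*) [Group G] (N : Type*) [Fintype N] :
    Matrix N N (MonoidAlgebra ℂ G) →ₗ[ℂ] ℂ where
  toFun A := ∑ i, (A i i).coeff 1
  map_add' A B := by
    simp only [Matrix.add_apply, MonoidAlgebra.coeff_add, Finsupp.add_apply, Finset.sum_add_distrib]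
  map_smul' r A := by
    simp only [Matrix.smul_apply, MonoidAlgebra.coeff_smul, Finsupp.smul_apply, smul_eq_mul,
      Finset.mul_sum, RingHom.id_apply]

omit [DecidableEq N] in
theorem trG_apply (A : Matrix N N (MonoidAlgebra ℂ G)) : trG G N A = ∑ i, (A i i).coeff 1 := rfl

omit [DecidableEq N] in
theorem trG_posTrace [DecidableEq N] : PosTrace (trG G N) where
  comm A B := by
    simp only [trG_apply, Matrix.mul_apply, MonoidAlgebra.coeff_sum, Finsupp.finsetSum_apply]
    rw [Finset.sum_comm]
    refine Finset.sum_congr rfl fun i _ => Finset.sum_congr rfl fun j _ => ?_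
    exact coeff_mul_comm_one _ _
  map_star A := by
    simp only [trG_apply, map_sum]
    refine Finset.sum_congr rfl fun i _ => ?_
    rw [Matrix.star_apply, coeff_star, inv_one]
  nonneg A := by
    simp only [trG_apply, Matrix.mul_apply, MonoidAlgebra.coeff_sum, Finsupp.finsetSum_apply,
      Complex.re_sum, Matrix.star_apply]
    exact Finset.sum_nonneg fun i _ => Finset.sum_nonneg fun j _ => coeff_star_mul_self _

/-- scalar matrices as matrices over the group algebra -/
def sc (G : Type*) [Group G] {N : Type*} [Fintype N] [DecidableEq N] :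
    Matrix N N ℂ →ₐ[ℂ] Matrix N N (MonoidAlgebra ℂ G) :=
  (Algebra.ofId ℂ (MonoidAlgebra ℂ G)).mapMatrix

theorem sc_apply (A : Matrix N N ℂ) (i j : N) :
    sc G A i j = MonoidAlgebra.single 1 (A i j) := rfl

theorem sc_star (A : Matrix N N ℂ) : sc G (star A) = star (sc G A) := by
  ext1 i j
  rw [Matrix.star_apply, sc_apply, sc_apply, star_single, inv_one]
  rfl

theorem trG_sc (A : Matrix N N ℂ) : trG G N (sc G A) = A.trace := by
  simp [trG_apply, sc_apply, Matrix.trace]

/-- the rank one projections -/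
def prj (G : Type*) [Group G] (W : Matrix N N ℂ) (j : N) : Matrix N N (MonoidAlgebra ℂ G) :=
  sc G (W * Matrix.single j j 1 * star W)

theorem prj_pvm {W : Matrix N N ℂ} (hW : W ∈ Matrix.unitaryGroup N ℂ) : Pvm (prj G W) where
  sa j := by
    rw [prj, ← sc_star, star_mul, star_mul, star_star, mul_assoc]
    congr 3
    rw [Matrix.star_eq_conjTranspose, Matrix.conjTranspose_single]
    simp
  orth i j := by
    rw [prj, prj, ← map_mul]
    have h1 : star W * W = 1 := Matrix.mem_unitaryGroup_iff'.1 hW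
    have h2 : W * Matrix.single i i 1 * star W * (W * Matrix.single j j 1 * star W)
        = W * (Matrix.single i i 1 * (star W * W) * Matrix.single j j 1) * star W := by
      simp only [mul_assoc]
    rw [h2, h1, mul_one]
    by_cases h : i = j
    · subst h
      rw [if_pos rfl, Matrix.single_mul_single_same, one_mul]
    · rw [if_neg h, Matrix.single_mul_single_of_ne (h := h)]
      simp
  sum_one := by
    have h1 : W * star W = 1 := Matrix.mem_unitaryGroup_iff.1 hW
    have h2 : ∑ j : N, Matrix.single j j (1 : ℂ) = 1 := by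
      ext a b
      rw [Matrix.sum_apply]
      simp only [Matrix.single_apply, Matrix.one_apply]
      by_cases h : a = b
      · subst h; simp
      · rw [if_neg h]
        refine Finset.sum_eq_zero fun x _ => ?_
        rw [if_neg]
        rintro ⟨rfl, rfl⟩; exact h rfl
    simp only [prj]
    rw [← map_sum, ← Finset.sum_mul, ← Finset.mul_sum, h2, mul_one, h1, map_one]

theorem trG_prj {W : Matrix N N ℂ} (hW : W ∈ Matrix.unitaryGroup N ℂ) (j : N) :
    trG G N (prj G W j) = 1 := by
  have h1 : star W * W = 1 := Matrix.mem_unitaryGroup_iff'.1 hW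
  rw [prj, trG_sc, Matrix.trace_mul_comm, ← mul_assoc, h1, one_mul]
  simp

theorem trG_al {W : Matrix N N ℂ} (hW : W ∈ Matrix.unitaryGroup N ℂ) (x : N → ℝ) :
    (trG G N (al (prj G W) x)).re = ∑ j, x j := by
  rw [al, map_sum, Complex.re_sum]
  refine Finset.sum_congr rfl fun j _ => ?_
  rw [map_smul, trG_prj hW]
  simp

theorem Qt_prj (W : Matrix N N ℂ) (x : N → ℝ) :
    Qt (prj G W) x 1
      = sc G (W * Matrix.diagonal (fun j => Complex.exp (2 * Real.pi * Complex.I * x j)) * star W) := by
  have h1 : Matrix.diagonal (fun j => Complex.exp (2 * Real.pi * Complex.I * x j))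
      = ∑ j, Complex.exp (2 * Real.pi * Complex.I * x j) • Matrix.single j j (1 : ℂ) := by
    ext a b
    rw [Matrix.sum_apply]
    simp only [Matrix.smul_apply, Matrix.single_apply, Matrix.diagonal_apply, smul_eq_mul]
    by_cases h : a = b
    · subst h; simp
    · rw [if_neg h]
      symm
      refine Finset.sum_eq_zero fun x _ => ?_
      rw [if_neg]
      · simp
      rintro ⟨rfl, rfl⟩; exact h rfl
  rw [h1, Finset.mul_sum, Finset.sum_mul, map_sum]
  unfold Qt prj
  refine Finset.sum_congr rfl fun j _ => ?_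
  rw [mul_smul_comm, smul_mul_assoc, map_smul]
  simp

/-- **W5, diagonal form.** -/
theorem diag_ineq {W : Matrix N N ℂ} (hW : W ∈ Matrix.unitaryGroup N ℂ) {x : N → ℝ}
    (hx : ∀ j, 0 ≤ x j) {Y : Matrix N N (MonoidAlgebra ℂ G)} (hY : Y * star Y = 1) (K : ℕ) :
    SK (trG G N) K Y ≤ SK (trG G N) K
      (sc G (W * Matrix.diagonal (fun j => Complex.exp (2 * Real.pi * Complex.I * x j)) * star W) * Y)
      + ∑ j, x j := by
  have := abstract_ineq (trG_posTrace (G := G) (N := N)) (prj_pvm hW) hx hY K
  rwa [Qt_prj, trG_al hW] at this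

end matrix_part

end Crest.Agent.R174.TrIneq
end
end

-- ▼ part R174/TrIneq3
section

/-!
# R174 (KLH), block W5, final form.
-/

set_option autoImplicit false
open Finset

noncomputable section

namespace Crest.Agent.R174.TrIneq

/-- normalised angle in `[0,1)` -/
def ang (z : ℂ) : ℝ := Int.fract (z.arg / (2 * Real.pi))

theorem ang_nonneg (z : ℂ) : 0 ≤ ang z := Int.fract_nonneg _

theorem exp_ang {z : ℂ} (hz : ‖z‖ = 1) : Complex.exp (2 * Real.pi * Complex.I * ang z) = z := by
  have hpi : (Real.pi : ℂ) ≠ 0 := by exact_mod_cast Real.pi_ne_zero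
  have h1 : (2 * Real.pi * Complex.I * ang z : ℂ)
      = z.arg * Complex.I - (⌊z.arg / (2 * Real.pi)⌋ : ℤ) * (2 * Real.pi * Complex.I) := by
    unfold ang
    rw [Int.fract]
    push_cast
    field_simp
  rw [h1, Complex.exp_sub, Complex.exp_int_mul_two_pi_mul_I, div_one]
  have h2 := Complex.norm_mul_exp_arg_mul_I z
  rw [hz] at h2
  simpa using h2

theorem ang_add_conj {z : ℂ} (hz : ‖z‖ = 1) :
    ang z + ang ((starRingEnd ℂ) z) = if z = 1 then 0 else 1 := by
  have hpi : (0 : ℝ) < 2 * Real.pi := by positivity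
  by_cases h1 : z = 1
  · subst h1
    simp [ang]
  rw [if_neg h1]
  by_cases h2 : z.arg = Real.pi
  · have h3 : ((starRingEnd ℂ) z).arg = Real.pi := by
      rw [Complex.arg_conj, if_pos h2]
    unfold ang
    rw [h2, h3]
    have h4 : Real.pi / (2 * Real.pi) = 1 / 2 := by
      have := Real.pi_ne_zero
      field_simp
    rw [h4]
    have h5 : Int.fract (1 / 2 : ℝ) = 1 / 2 := Int.fract_eq_self.2 ⟨by norm_num, by norm_num⟩
    rw [h5]; norm_num
  · have h3 : ((starRingEnd ℂ) z).arg = -z.arg := by
      rw [Complex.arg_conj, if_neg h2]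
    unfold ang
    rw [h3, neg_div]
    have h4 : Int.fract (z.arg / (2 * Real.pi)) ≠ 0 := by
      intro h0
      apply h1
      have := exp_ang hz
      unfold ang at this
      rw [h0] at this
      simpa using this.symm
    rw [Int.fract_neg h4]
    ring

variable {N : Type*} [Fintype N] [DecidableEq N]

/-- similar matrices `Q ~ Q*` have conjugation-invariant spectrum -/
theorem sum_ang_eq {W Q J : Matrix N N ℂ} (hW : W ∈ Matrix.unitaryGroup N ℂ)
    (hJ : J * J = 1) (hQJ : J * Q * J = star Q) {d : N → ℂ}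
    (hQ : Q = W * Matrix.diagonal d * star W) :
    ∑ j, ang (d j) = ∑ j, ang ((starRingEnd ℂ) (d j)) := by
  have hW1 : W * star W = 1 := Matrix.mem_unitaryGroup_iff.1 hW
  have hW2 : star W * W = 1 := Matrix.mem_unitaryGroup_iff'.1 hW
  have hconj : ∀ (A B C : Matrix N N ℂ), A * B = 1 → B * A = 1 →
      (A * C * B).charpoly = C.charpoly := by
    intro A B C h1 h2
    have := Matrix.charpoly_units_conj (⟨A, B, h1, h2⟩ : (Matrix N N ℂ)ˣ) C
    have h3 : A⁻¹ = B := Matrix.inv_eq_right_inv h1
    change (A * C * A⁻¹).charpoly = C.charpoly at this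
    rwa [h3] at this
  have h1 : Q.charpoly = (Matrix.diagonal d).charpoly := by
    rw [hQ]
    exact hconj _ _ _ hW1 hW2
  have h2 : (star Q).charpoly = Q.charpoly := by
    rw [← hQJ]
    exact hconj _ _ _ hJ hJ
  have h3 : (star Q).charpoly = (Matrix.diagonal fun j => (starRingEnd ℂ) (d j)).charpoly := by
    have : star Q = W * Matrix.diagonal (fun j => (starRingEnd ℂ) (d j)) * star W := by
      rw [hQ, star_mul, star_mul, star_star, mul_assoc]
      congr 2
      rw [Matrix.star_eq_conjTranspose, Matrix.diagonal_conjTranspose]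
      rfl
    rw [this]
    exact hconj _ _ _ hW1 hW2
  have h4 : ∏ j, (Polynomial.X - Polynomial.C (d j))
      = ∏ j, (Polynomial.X - Polynomial.C ((starRingEnd ℂ) (d j))) := by
    rw [← Matrix.charpoly_diagonal, ← Matrix.charpoly_diagonal, ← h1, ← h3, h2]
  have h5 : ∀ e : N → ℂ, (∏ j, (Polynomial.X - Polynomial.C (e j))).roots
      = (Finset.univ.val.map e) := by
    intro e
    have := Polynomial.roots_multiset_prod_X_sub_C (Finset.univ.val.map e)
    rw [Multiset.map_map] at this
    exact this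
  have h6 : (Finset.univ.val.map d) = (Finset.univ.val.map fun j => (starRingEnd ℂ) (d j)) := by
    rw [← h5, ← h5, h4]
  have h7 := congrArg (fun m : Multiset ℂ => (m.map ang).sum) h6
  simpa [Multiset.map_map] using h7

theorem sum_ang {W Q J : Matrix N N ℂ} (hW : W ∈ Matrix.unitaryGroup N ℂ)
    (hJ : J * J = 1) (hQJ : J * Q * J = star Q) {d : N → ℂ} (hd : ∀ j, ‖d j‖ = 1)
    (hQ : Q = W * Matrix.diagonal d * star W) :
    ∑ j, ang (d j) = ((Q - 1).rank : ℝ) / 2 := by
  classical
  have h1 := sum_ang_eq hW hJ hQJ hQ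
  have h2 : ∑ j, ang (d j) + ∑ j, ang (d j) = Fintype.card {j // d j - 1 ≠ 0} := by
    nth_rewrite 2 [h1]
    rw [← Finset.sum_add_distrib]
    rw [Finset.sum_congr rfl fun j _ => ang_add_conj (hd j)]
    rw [Fintype.card_subtype]
    have : ∀ j, (if d j = 1 then (0 : ℝ) else 1) = if d j - 1 ≠ 0 then (1 : ℝ) else 0 := by
      intro j
      by_cases h : d j = 1
      · simp [h]
      · have : d j - 1 ≠ 0 := sub_ne_zero.2 h
        simp [h, this]
    rw [Finset.sum_congr rfl fun j _ => this j, Finset.sum_boole]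
  have h3 : (Q - 1).rank = Fintype.card {j // d j - 1 ≠ 0} := by
    have hW1 : W * star W = 1 := Matrix.mem_unitaryGroup_iff.1 hW
    have hW2 : star W * W = 1 := Matrix.mem_unitaryGroup_iff'.1 hW
    have hd1 : IsUnit W.det := Matrix.isUnit_det_of_right_inverse hW1
    have hd2 : IsUnit (star W).det := Matrix.isUnit_det_of_right_inverse hW2
    have h4 : Q - 1 = W * Matrix.diagonal (fun j => d j - 1) * star W := by
      have h5 : (Matrix.diagonal fun j => d j - 1) = Matrix.diagonal d - 1 := by
        rw [← Matrix.diagonal_one, Matrix.diagonal_sub]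
      rw [h5, mul_sub, sub_mul, mul_one, hW1, hQ]
    rw [h4, Matrix.rank_mul_eq_left_of_isUnit_det _ _ hd2,
      Matrix.rank_mul_eq_right_of_isUnit_det _ _ hd1, Matrix.rank_diagonal]
  rw [h3]
  linarith

variable {G : Type*} [Group G]

/-- **W5**: `MM`, `JJ` Hermitian unitary scalar matrices, `Z` any unitary over the group algebra. -/
theorem w5 (hdiag : ∀ Z ∈ Matrix.unitaryGroup N ℂ, ∃ W ∈ Matrix.unitaryGroup N ℂ, ∃ d : N → ℂ,
      (∀ j, ‖d j‖ = 1) ∧ Z = W * Matrix.diagonal d * star W)
    {MM JJ : Matrix N N ℂ} (hM : MM * MM = 1) (hM' : star MM = MM) (hJ : JJ * JJ = 1)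
    (hJ' : star JJ = JJ) {Z : Matrix N N (MonoidAlgebra ℂ G)} (hZ : Z * star Z = 1) (K : ℕ) :
    SK (trG G N) K (sc G JJ * Z) ≤ SK (trG G N) K (sc G MM * Z) + ((MM - JJ).rank : ℝ) / 2 := by
  have hQu : MM * JJ ∈ Matrix.unitaryGroup N ℂ := by
    rw [Matrix.mem_unitaryGroup_iff, star_mul, hM', hJ']
    calc MM * JJ * (JJ * MM) = MM * (JJ * JJ) * MM := by simp only [mul_assoc]
      _ = 1 := by rw [hJ, mul_one, hM]
  obtain ⟨W, hW, d, hd, hQ⟩ := hdiag _ hQu
  have hY : sc G JJ * Z * star (sc G JJ * Z) = 1 := by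
    rw [star_mul, ← sc_star, hJ']
    calc sc G JJ * Z * (star Z * sc G JJ) = sc G JJ * (Z * star Z) * sc G JJ := by
          simp only [mul_assoc]
      _ = 1 := by rw [hZ, mul_one, ← map_mul, hJ, map_one]
  have h1 := diag_ineq hW (fun j => ang_nonneg (d j)) hY K
  have h2 : (fun j => Complex.exp (2 * Real.pi * Complex.I * ang (d j))) = d := by
    funext j; exact exp_ang (hd j)
  rw [h2, ← hQ] at h1
  have h3 : sc G (MM * JJ) * (sc G JJ * Z) = sc G MM * Z := by
    rw [map_mul, mul_assoc, ← mul_assoc (sc G JJ), ← map_mul, hJ, map_one, one_mul]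
  rw [h3] at h1
  have h4 : JJ * (MM * JJ) * JJ = star (MM * JJ) := by
    rw [star_mul, hM', hJ', mul_assoc, mul_assoc MM, hJ, mul_one]
  have h5 := sum_ang hW hJ h4 hd hQ
  have h6 : (MM * JJ - 1).rank = (MM - JJ).rank := by
    have : MM * JJ - 1 = -(MM * (MM - JJ)) := by
      rw [mul_sub, hM]; abel
    rw [this]
    have hdet : IsUnit MM.det := Matrix.isUnit_det_of_right_inverse hM
    have h7 : (-(MM * (MM - JJ))).rank = (MM * (MM - JJ)).rank := by
      have h8 : -(MM * (MM - JJ)) = (-1 : Matrix N N ℂ) * (MM * (MM - JJ)) := by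
        rw [neg_one_mul]
      have h9 : IsUnit (-1 : Matrix N N ℂ).det :=
        Matrix.isUnit_det_of_right_inverse (B := -1) (by simp)
      rw [h8, Matrix.rank_mul_eq_right_of_isUnit_det _ _ h9]
    rw [h7, Matrix.rank_mul_eq_right_of_isUnit_det _ _ hdet]
  rw [h5, h6] at h1
  exact h1

section blocks

open scoped ComplexOrder

variable {P : Type*} [Fintype P] [DecidableEq P]

theorem rank_add_ker {P : Type*} [Fintype P] (A : Matrix P P ℂ) :
    A.rank + Module.finrank ℂ (LinearMap.ker A.mulVecLin) = Fintype.card P := by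
  have := A.mulVecLin.finrank_range_add_finrank_ker
  rw [Module.finrank_fintype_fun_eq_card] at this
  exact this

/-- kernel of an anti-diagonal block matrix -/
def kerEquiv (A B : Matrix P P ℂ) :
    LinearMap.ker (Matrix.fromBlocks 0 B A 0 : Matrix (P ⊕ P) (P ⊕ P) ℂ).mulVecLin ≃ₗ[ℂ]
      LinearMap.ker A.mulVecLin × LinearMap.ker B.mulVecLin where
  toFun v := (⟨v.1 ∘ Sum.inl, by
      have h := v.2
      rw [LinearMap.mem_ker, Matrix.mulVecLin_apply, Matrix.fromBlocks_mulVec] at h
      rw [LinearMap.mem_ker, Matrix.mulVecLin_apply]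
      funext i
      have := congrFun h (Sum.inr i)
      simpa using this⟩, ⟨v.1 ∘ Sum.inr, by
      have h := v.2
      rw [LinearMap.mem_ker, Matrix.mulVecLin_apply, Matrix.fromBlocks_mulVec] at h
      rw [LinearMap.mem_ker, Matrix.mulVecLin_apply]
      funext i
      have := congrFun h (Sum.inl i)
      simpa using this⟩)
  invFun w := ⟨Sum.elim w.1.1 w.2.1, by
      have h1 := w.1.2
      have h2 := w.2.2
      rw [LinearMap.mem_ker, Matrix.mulVecLin_apply] at h1 h2
      rw [LinearMap.mem_ker, Matrix.mulVecLin_apply, Matrix.fromBlocks_mulVec]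
      funext i
      rcases i with i | i
      · simpa using congrFun h2 i
      · simpa using congrFun h1 i⟩
  map_add' v w := by rfl
  map_smul' r v := by rfl
  left_inv v := by
    apply Subtype.ext
    funext i
    rcases i with i | i <;> rfl
  right_inv w := by rfl

omit [DecidableEq P] in
/-- rank of an anti-diagonal Hermitian block matrix -/
theorem rank_antidiag (A : Matrix P P ℂ) :
    (Matrix.fromBlocks 0 (star A) A 0 : Matrix (P ⊕ P) (P ⊕ P) ℂ).rank = 2 * A.rank := by
  have h1 := rank_add_ker (Matrix.fromBlocks 0 (star A) A 0 : Matrix (P ⊕ P) (P ⊕ P) ℂ)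
  have h2 := (kerEquiv A (star A)).finrank_eq
  rw [Module.finrank_prod] at h2
  have h3 := rank_add_ker A
  have h4 := rank_add_ker (star A)
  rw [Matrix.star_eq_conjTranspose, Matrix.rank_conjTranspose] at h4
  rw [Matrix.star_eq_conjTranspose] at h1 h2 ⊢
  rw [Fintype.card_sum] at h1
  omega

/-- **W5, block form**: index type `N ≃ P ⊕ P` (positive and negative ports). -/
theorem w5_blocks (e : N ≃ P ⊕ P)
    (hdiag : ∀ Z ∈ Matrix.unitaryGroup N ℂ, ∃ W ∈ Matrix.unitaryGroup N ℂ, ∃ d : N → ℂ,
      (∀ j, ‖d j‖ = 1) ∧ Z = W * Matrix.diagonal d * star W)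
    {M J : Matrix P P ℂ} (hM : M ∈ Matrix.unitaryGroup P ℂ) (hJ : J ∈ Matrix.unitaryGroup P ℂ)
    {Z : Matrix N N (MonoidAlgebra ℂ G)} (hZ : Z * star Z = 1) (K : ℕ) :
    SK (trG G N) K (sc G ((Matrix.fromBlocks 0 (star J) J 0).submatrix e e) * Z)
      ≤ SK (trG G N) K (sc G ((Matrix.fromBlocks 0 (star M) M 0).submatrix e e) * Z)
        + ((Fintype.card P : ℝ) - Module.finrank ℂ (LinearMap.ker (J - M).mulVecLin)) := by
  have key : ∀ A : Matrix P P ℂ, A ∈ Matrix.unitaryGroup P ℂ →
      ((Matrix.fromBlocks 0 (star A) A 0).submatrix e e)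
        * ((Matrix.fromBlocks 0 (star A) A 0).submatrix e e) = 1 ∧
      star ((Matrix.fromBlocks 0 (star A) A 0).submatrix e e)
        = ((Matrix.fromBlocks 0 (star A) A 0).submatrix e e) := by
    intro A hA
    have h1 : A * star A = 1 := Matrix.mem_unitaryGroup_iff.1 hA
    have h2 : star A * A = 1 := Matrix.mem_unitaryGroup_iff'.1 hA
    constructor
    · rw [Matrix.submatrix_mul_equiv, Matrix.fromBlocks_multiply]
      simp only [Matrix.zero_mul, Matrix.mul_zero, zero_add, add_zero, h1, h2]
      rw [Matrix.fromBlocks_one, Matrix.submatrix_one_equiv]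
    · rw [Matrix.star_eq_conjTranspose, Matrix.conjTranspose_submatrix,
        Matrix.fromBlocks_conjTranspose]
      simp [Matrix.star_eq_conjTranspose]
  obtain ⟨hM1, hM2⟩ := key M hM
  obtain ⟨hJ1, hJ2⟩ := key J hJ
  have h := w5 hdiag hM1 hM2 hJ1 hJ2 hZ K
  have h1 : ((Matrix.fromBlocks 0 (star M) M 0).submatrix e e
      - (Matrix.fromBlocks 0 (star J) J 0).submatrix e e)
      = (Matrix.fromBlocks 0 (star (M - J)) (M - J) 0).submatrix e e := by
    ext i j
    simp only [Matrix.sub_apply, Matrix.submatrix_apply]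
    generalize e i = a
    generalize e j = b
    rcases a with a | a <;> rcases b with b | b <;> simp
  rw [h1, Matrix.rank_submatrix, rank_antidiag] at h
  have h2 := rank_add_ker (M - J)
  have h3 : LinearMap.ker (M - J).mulVecLin = LinearMap.ker (J - M).mulVecLin := by
    ext v
    rw [LinearMap.mem_ker, LinearMap.mem_ker, Matrix.mulVecLin_apply, Matrix.mulVecLin_apply,
      Matrix.sub_mulVec, Matrix.sub_mulVec, sub_eq_zero, sub_eq_zero, eq_comm]
  rw [h3] at h2
  have h4 : ((M - J).rank : ℝ) = (Fintype.card P : ℝ)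
      - Module.finrank ℂ (LinearMap.ker (J - M).mulVecLin) := by
    have : ((M - J).rank : ℝ) + Module.finrank ℂ (LinearMap.ker (J - M).mulVecLin)
        = Fintype.card P := by exact_mod_cast h2
    linarith
  push_cast at h
  rw [← h4]
  linarith

end blocks

end Crest.Agent.R174.TrIneq
end
end

-- ▼ part R174/TrIneq4

/-!
# R174 (KLH), block W5: bridges to `WD.mono`, `WD.trG`, `Lim.SK`.
-/

set_option autoImplicit false
open Finset

noncomputable section

namespace Crest.Agent.R174.TrIneq

universe u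
variable {G : Type u} [Group G] {P : Type} [Fintype P] [DecidableEq P]

omit [DecidableEq P] in
theorem trG_eq (A : Matrix P P (MonoidAlgebra ℂ G)) : trG G P A = WD.trG A := rfl

theorem SK_eq (K : ℕ) (Z : Matrix P P (MonoidAlgebra ℂ G)) :
    SK (trG G P) K Z = Lim.SK (fun q => (WD.trG (Z ^ q)).im) K := by
  unfold SK Lim.SK
  refine Finset.sum_congr rfl fun q _ => ?_
  rw [mul_div_assoc]
  rfl

omit [Fintype P] in
theorem mono_apply (nxt : P → P) (g : P → G) (z : P → ℂ) (j i : P) :
    WD.mono nxt g z j i = if j = nxt i then MonoidAlgebra.single (g i) (z i) else 0 := rfl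

theorem mono_mul (n₁ n₂ : P → P) (g₁ g₂ : P → G) (z₁ z₂ : P → ℂ) :
    WD.mono n₁ g₁ z₁ * WD.mono n₂ g₂ z₂
      = WD.mono (n₁ ∘ n₂) (fun i => g₁ (n₂ i) * g₂ i) (fun i => z₁ (n₂ i) * z₂ i) := by
  ext1 j i
  rw [Matrix.mul_apply]
  simp only [mono_apply, Function.comp_apply]
  rw [Finset.sum_eq_single (n₂ i)]
  · simp only [if_true]
    split_ifs
    · rw [MonoidAlgebra.single_mul_single]
    · rw [zero_mul]
  · intro b _ hb
    rw [if_neg hb, mul_zero]
  · intro h; exact absurd (Finset.mem_univ _) h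

theorem mono_one : WD.mono (id : P → P) (fun _ => (1 : G)) (fun _ => 1) = 1 := by
  ext1 j i
  rw [mono_apply, Matrix.one_apply]
  rfl

/-- a scalar monomial matrix -/
theorem sc_mono (mu : P → P) (z : P → ℂ) :
    sc G (Matrix.of fun j i => if j = mu i then z i else 0) = WD.mono mu (fun _ => 1) z := by
  ext1 j i
  rw [sc_apply, mono_apply, Matrix.of_apply]
  split_ifs
  · rfl
  · simp

theorem star_mono (nxt : Equiv.Perm P) (g : P → G) (z : P → ℂ) :
    star (WD.mono nxt g z) = WD.mono nxt.symm (fun i => (g (nxt.symm i))⁻¹)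
      (fun i => (starRingEnd ℂ) (z (nxt.symm i))) := by
  ext1 j i
  rw [Matrix.star_apply, mono_apply, mono_apply]
  by_cases h : i = nxt j
  · subst h
    rw [if_pos rfl, if_pos (by simp), star_single]
    simp
  · rw [if_neg h, if_neg, star_zero]
    intro h2; apply h; rw [h2]; simp

theorem mono_unitary (nxt : Equiv.Perm P) (g : P → G) (z : P → ℂ) (hz : ∀ i, ‖z i‖ = 1) :
    WD.mono nxt g z * star (WD.mono nxt g z) = 1 := by
  rw [star_mono, mono_mul, ← mono_one]
  congr 1
  · funext i; simp
  · funext i; simp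
  · funext i
    rw [Complex.mul_conj, Complex.normSq_eq_norm_sq, hz]
    simp


end Crest.Agent.R174.TrIneq
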