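import Mathlib
import Crest.Agent.R174.Red259
import Crest.Agent.R174.GRDefs
import Crest.Agent.R174.WD126
import Crest.Agent.R174.TrIneq4
import Crest.Agent.R174.Mono126

-- ▼ part R174/Feedback477
section

set_option autoImplicit false

/-!
# R174, feedback lemma: eliminating constant ports from a unitary matrix.
-/

open Matrix
open scoped ComplexOrder

attribute [-instance] CStarMatrix.instHMulOfFintypeOfMulOfAddCommMonoid

namespace Crest.Agent.R174.Feedback

variable {P S : Type*} [Fintype P] [DecidableEq P] [Fintype S] [DecidableEq S]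

/-- row vectors: unitary matrices preserve the norm -/
lemma vecMul_norm {N : Type*} [Fintype N] [DecidableEq N] (M : Matrix N N ℂ)
    (hM : M ∈ Matrix.unitaryGroup N ℂ) (w : N → ℂ) :
    (w ᵥ* M) ⬝ᵥ star (w ᵥ* M) = w ⬝ᵥ star w := by
  rw [Matrix.star_vecMul, ← Matrix.dotProduct_mulVec, Matrix.mulVec_mulVec]
  have h := (Matrix.mem_unitaryGroup_iff).1 hM
  rw [Matrix.star_eq_conjTranspose] at h
  rw [h, Matrix.one_mulVec]

/-- the range condition -/
lemma range_le (M : Matrix (P ⊕ S) (P ⊕ S) ℂ) (hM : M ∈ Matrix.unitaryGroup (P ⊕ S) ℂ) (u : P → ℂ) :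
    ∃ v : S → ℂ, (1 - M.toBlocks₂₂) *ᵥ v = M.toBlocks₂₁ *ᵥ u := by
  have key : M.toBlocks₂₁ *ᵥ u ∈ LinearMap.range (Matrix.mulVecLin (1 - M.toBlocks₂₂)) := by
    rw [← Subspace.forall_mem_dualAnnihilator_apply_eq_zero_iff]
    intro φ hφ
    rw [Submodule.mem_dualAnnihilator] at hφ
    set y : S → ℂ := fun s => φ (Pi.single s 1) with hy
    have hφy : ∀ v : S → ℂ, φ v = y ⬝ᵥ v := by
      intro v
      conv_lhs => rw [pi_eq_sum_univ' v, map_sum]
      simp only [map_smul, smul_eq_mul, dotProduct, hy]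
      refine Finset.sum_congr rfl fun i _ => ?_
      rw [mul_comm]
    have h1 : y ᵥ* (1 - M.toBlocks₂₂) = 0 := by
      funext s
      have := hφ _ ⟨Pi.single s 1, rfl⟩
      rw [hφy, Matrix.mulVecLin_apply, Matrix.dotProduct_mulVec] at this
      simpa using this
    have h2 : y ᵥ* M.toBlocks₂₂ = y := by
      rw [Matrix.vecMul_sub, Matrix.vecMul_one, sub_eq_zero] at h1
      exact h1.symm
    have h3 : (Sum.elim (0 : P → ℂ) y) ᵥ* M = Sum.elim (y ᵥ* M.toBlocks₂₁) y := by
      conv_lhs => rw [← Matrix.fromBlocks_toBlocks M]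
      rw [Matrix.vecMul_fromBlocks]
      simp only [Sum.elim_comp_inl, Sum.elim_comp_inr, Matrix.zero_vecMul, zero_add, h2]
    have h4 := vecMul_norm M hM (Sum.elim (0 : P → ℂ) y)
    rw [h3] at h4
    have h5 : (y ᵥ* M.toBlocks₂₁) ⬝ᵥ star (y ᵥ* M.toBlocks₂₁) = 0 := by
      simpa [dotProduct, Fintype.sum_sum_type] using h4
    have h6 : y ᵥ* M.toBlocks₂₁ = 0 := dotProduct_self_star_eq_zero.1 h5
    rw [hφy, Matrix.dotProduct_mulVec, h6, zero_dotProduct]
  obtain ⟨v, hv⟩ := key
  exact ⟨v, hv⟩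

/-- **Feedback lemma.** -/
theorem feedback (M : Matrix (P ⊕ S) (P ⊕ S) ℂ) (hM : M ∈ Matrix.unitaryGroup (P ⊕ S) ℂ) :
    ∃ M' : Matrix P P ℂ, M' ∈ Matrix.unitaryGroup P ℂ ∧ ∀ J : Matrix P P ℂ,
      Module.finrank ℂ (LinearMap.ker (Matrix.mulVecLin (J - M'))) ≤
        Module.finrank ℂ (LinearMap.ker (Matrix.mulVecLin (Matrix.fromBlocks J 0 0 1 - M))) := by
  choose v hv using fun p : P => range_le M hM (Pi.single p 1)
  set K : Matrix S P ℂ := Matrix.of fun s p => v p s with hK
  have h1 : (1 - M.toBlocks₂₂) * K = M.toBlocks₂₁ := by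
    ext s p
    have := congrFun (hv p) s
    rw [Matrix.mulVec_single_one] at this
    exact this
  have h2 : M.toBlocks₂₁ + M.toBlocks₂₂ * K = K := by
    rw [← h1, Matrix.sub_mul, Matrix.one_mul]
    abel
  set M' : Matrix P P ℂ := M.toBlocks₁₁ + M.toBlocks₁₂ * K with hM'
  set E : Matrix (P ⊕ S) P ℂ := Matrix.fromRows (1 : Matrix P P ℂ) K with hE
  have h3 : M * E = Matrix.fromRows M' K := by
    conv_lhs => rw [← Matrix.fromBlocks_toBlocks M]
    rw [hE, Matrix.fromBlocks_mul_fromRows, Matrix.mul_one, Matrix.mul_one, h2]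
  have h4 : M'ᴴ * M' = 1 := by
    have h5 : (M * E)ᴴ * (M * E) = Eᴴ * E := by
      rw [Matrix.conjTranspose_mul, Matrix.mul_assoc, ← Matrix.mul_assoc Mᴴ]
      have h := (Matrix.mem_unitaryGroup_iff').1 hM
      rw [Matrix.star_eq_conjTranspose] at h
      rw [h, Matrix.one_mul]
    rw [h3, hE, Matrix.conjTranspose_fromRows_eq_fromCols_conjTranspose,
      Matrix.conjTranspose_fromRows_eq_fromCols_conjTranspose, Matrix.fromCols_mul_fromRows,
      Matrix.fromCols_mul_fromRows, Matrix.conjTranspose_one, Matrix.one_mul] at h5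
    exact add_right_cancel h5
  refine ⟨M', (Matrix.mem_unitaryGroup_iff').2 h4, fun J => ?_⟩
  -- the embedding u ↦ (u, K u)
  let L : (P → ℂ) →ₗ[ℂ] (P ⊕ S → ℂ) := Matrix.mulVecLin E
  have hL : ∀ u, L u = Sum.elim u (K *ᵥ u) := by
    intro u
    simp only [L, hE, Matrix.mulVecLin_apply, Matrix.fromRows_mulVec, Matrix.one_mulVec]
  have hker : ∀ u ∈ LinearMap.ker (Matrix.mulVecLin (J - M')),
      L u ∈ LinearMap.ker (Matrix.mulVecLin (Matrix.fromBlocks J 0 0 1 - M)) := by
    intro u hu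
    rw [LinearMap.mem_ker, Matrix.mulVecLin_apply] at hu ⊢
    have hML : M *ᵥ (L u) = Sum.elim (M' *ᵥ u) (K *ᵥ u) := by
      simp only [L, Matrix.mulVecLin_apply]
      rw [Matrix.mulVec_mulVec, h3, Matrix.fromRows_mulVec]
    rw [Matrix.sub_mulVec, hML, hL, Matrix.fromBlocks_mulVec]
    simp only [Sum.elim_comp_inl, Sum.elim_comp_inr, Matrix.zero_mulVec, add_zero, zero_add,
      Matrix.one_mulVec]
    rw [Matrix.sub_mulVec, sub_eq_zero] at hu
    rw [hu, sub_self]
  refine LinearMap.finrank_le_finrank_of_injective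
    (f := (L.domRestrict (LinearMap.ker (Matrix.mulVecLin (J - M')))).codRestrict
      (LinearMap.ker (Matrix.mulVecLin (Matrix.fromBlocks J 0 0 1 - M))) (fun u => hker u.1 u.2)) ?_
  intro a b hab
  have h : L a.1 = L b.1 := congrArg Subtype.val hab
  rw [hL, hL] at h
  apply Subtype.ext
  funext p
  exact congrFun h (Sum.inl p)

end Crest.Agent.R174.Feedback
end

-- ▼ part R174/Glue83
section

set_option autoImplicit false

/-!
# R174, W7b (helper83): glue between the word data and the systems of `GRDefs`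
-/

open scoped Matrix.Norms.L2Operator
open Crest.Agent.R174.Red Crest.Agent.R174.GR

namespace Crest.Agent.R174.Glue

universe u

section linalg

variable {ι : Type} [Fintype ι] [DecidableEq ι] {N : ι → Type} [∀ x, Fintype (N x)]
  [∀ x, DecidableEq (N x)]

lemma ker_blockDiagonal' (D : ∀ x, Matrix (N x) (N x) ℂ) :
    Module.finrank ℂ (LinearMap.ker (Matrix.mulVecLin (Matrix.blockDiagonal' D))) =
      ∑ x, Module.finrank ℂ (LinearMap.ker (Matrix.mulVecLin (D x))) := by
  have hmul : ∀ (v : (Σ x, N x) → ℂ) (x : ι) (p : N x),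
      (Matrix.blockDiagonal' D).mulVec v ⟨x, p⟩ = (D x).mulVec (fun p => v ⟨x, p⟩) p := by
    intro v x p
    simp only [Matrix.mulVec, dotProduct, Fintype.sum_sigma]
    rw [Finset.sum_eq_single x]
    · simp
    · intro y _ hy
      apply Finset.sum_eq_zero
      intro q _
      rw [Matrix.blockDiagonal'_apply_ne _ _ _ (Ne.symm hy), zero_mul]
    · intro h; exact absurd (Finset.mem_univ _) h
  let e : LinearMap.ker (Matrix.mulVecLin (Matrix.blockDiagonal' D)) ≃ₗ[ℂ]
      ((x : ι) → LinearMap.ker (Matrix.mulVecLin (D x))) :=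
    { toFun := fun v x => ⟨fun p => v.1 ⟨x, p⟩, by
        have hv := v.2
        rw [LinearMap.mem_ker, Matrix.mulVecLin_apply] at hv ⊢
        funext p
        rw [← hmul, hv]
        rfl⟩
      invFun := fun w => ⟨fun s => (w s.1).1 s.2, by
        rw [LinearMap.mem_ker, Matrix.mulVecLin_apply]
        funext s
        obtain ⟨x, p⟩ := s
        rw [hmul]
        have hw := (w x).2
        rw [LinearMap.mem_ker, Matrix.mulVecLin_apply] at hw
        exact congrFun hw p⟩
      map_add' := fun v w => rfl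
      map_smul' := fun c v => rfl
      left_inv := fun v => rfl
      right_inv := fun w => rfl }
  rw [e.finrank_eq, Module.finrank_pi_fintype]

end linalg

section sys

variable {ι A Q : Type} [Fintype ι] [LinearOrder ι] [Fintype A] [DecidableEq A]
  [Fintype Q] [DecidableEq Q]

lemma sum_card_Fa (S : Sys ι A Q) : ∑ x, Fintype.card (S.Fa x) = Fintype.card A := by
  rw [← Fintype.card_sigma]
  exact Fintype.card_congr (Equiv.sigmaFiberEquiv S.c)

/-- the big scalar matrix `J(σ) ⊕ 1` on all letters of one sign -/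
noncomputable def Jbig (S : Sys ι A Q) (St : ι → Type) [∀ x, DecidableEq (St x)] (σ : S.KA) :
    Matrix (Σ x, (S.Po x ⊕ St x)) (Σ x, (S.Po x ⊕ St x)) ℂ :=
  Matrix.blockDiagonal' fun x => Matrix.fromBlocks (S.Jm σ x) 0 0 1

/-- feedback lemma, all unknowns at once -/
theorem exists_M' (S : Sys ι A Q) (St : ι → Type) [∀ x, Fintype (St x)] [∀ x, DecidableEq (St x)]
    (M : ∀ x, Matrix (S.Po x ⊕ St x) (S.Po x ⊕ St x) ℂ) (hM : ∀ x, M x ∈ Matrix.unitaryGroup _ ℂ) :
    ∃ M' : S.VA, M' ∈ unitary S.VA ∧ ∀ σ : S.KA,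
      ∑ x, Module.finrank ℂ (LinearMap.ker (Matrix.mulVecLin (S.Jm σ x - M' x))) ≤
        Module.finrank ℂ (LinearMap.ker (Matrix.mulVecLin
          (Jbig S St σ - Matrix.blockDiagonal' M))) := by
  choose M' hM' hd using fun x => Feedback.feedback (M x) (hM x)
  refine ⟨M', ?_, fun σ => ?_⟩
  · constructor
    · funext x
      exact (Matrix.mem_unitaryGroup_iff'.1 (hM' x))
    · funext x
      exact (Matrix.mem_unitaryGroup_iff.1 (hM' x))
  · unfold Jbig
    rw [← Matrix.blockDiagonal'_sub, ker_blockDiagonal']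
    exact Finset.sum_le_sum fun x _ => hd x _

/-- final contradiction: for one `M` all `σ` have small kernel -/
theorem contra (S : Sys ι A Q) (St : ι → Type) [∀ x, Fintype (St x)] [∀ x, DecidableEq (St x)]
    (hGR : GR S) (h0 : ∀ i x, x < i → S.E i x = 0) (h1 : ∀ i, S.E i i ≠ 0)
    (M : ∀ x, Matrix (S.Po x ⊕ St x) (S.Po x ⊕ St x) ℂ) (hM : ∀ x, M x ∈ Matrix.unitaryGroup _ ℂ)
    (hd : ∀ σ : S.KA, σ ∈ unitary S.KA → Module.finrank ℂ (LinearMap.ker (Matrix.mulVecLin
          (Jbig S St σ - Matrix.blockDiagonal' M))) < Fintype.card A) : False := by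
  obtain ⟨M', hM', hd'⟩ := exists_M' S St M hM
  obtain ⟨σ, hσ, hk⟩ := hGR h0 h1 M' hM'
  have h2 := hd σ hσ
  have h3 := hd' σ
  have h4 : Fintype.card A ≤
      ∑ x, Module.finrank ℂ (LinearMap.ker (Matrix.mulVecLin (S.Jm σ x - M' x))) := by
    rw [← sum_card_Fa S]
    exact Finset.sum_le_sum fun x _ => hk x
  omega

end sys

section word

variable {G : Type u} {n : ℕ}

/-- the system of the word data -/
def sys (W : Fin n → List (G × Fin n × Bool)) (f : Fin n → ℕ) :
    Sys (Fin n) (Σ i : Fin n, Fin (f i)) (Σ i : Fin n, Fin (W i).length) where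
  c := Sigma.fst
  rel := Sigma.fst
  var q := ((W q.1).get q.2).2.1
  pos q := ((W q.1).get q.2).2.2

lemma sys_E (W : Fin n → List (G × Fin n × Bool)) (f : Fin n → ℕ) (i x : Fin n) :
    (sys W f).E i x = expSum (W i) x := by
  unfold Sys.E expSum sys
  rw [Fintype.sum_sigma, Finset.sum_eq_single i]
  · simp only [true_and]
    rw [← Fin.sum_univ_fun_getElem]
    refine Finset.sum_congr rfl fun j _ => ?_
    simp only [List.get_eq_getElem]
    have hb : ∀ b : Bool, (if b = true then (1 : ℤ) else -1) = bif b then 1 else -1 := by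
      intro b; cases b <;> rfl
    rw [hb]
  · intro i' _ hi'
    apply Finset.sum_eq_zero
    intro j _
    rw [if_neg]
    rintro ⟨h, _⟩
    exact hi' h
  · intro h; exact absurd (Finset.mem_univ _) h

variable (W : Fin n → List (G × Fin n × Bool)) (f : Fin n → ℕ)

/-- index type of blocks -/
abbrev Ka (f : Fin n → ℕ) : Type := (Σ i : Fin n, Fin (f i)) × Bool

/-- the block data of the glue -/
abbrev blk (hW : ∀ i, 0 < (W i).length) (st : Ka f → List (G × Fin n × Bool))
    (hst : ∀ k, 0 < (st k).length) (ord : List (Ka f)) (hnd : ord.Nodup) (hall : ∀ k, k ∈ ord) :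
    WD.Blk G n (Ka f) where
  W := W
  ord := ord
  hnd := hnd
  hall := hall
  st := st
  ty k := k.1.1
  sg k := k.2
  hst := hst
  hW := hW

/-- stem letters with unknown `x` -/
abbrev St (st : Ka f → List (G × Fin n × Bool)) (x : Fin n) : Type :=
  {p : Σ k : Ka f, Fin (st k).length // ((st p.1).get p.2).2.1 = x}

/-- pairs of letters -/
abbrev PP (st : Ka f → List (G × Fin n × Bool)) : Type :=
  Σ x : Fin n, ((sys W f).Po x ⊕ St f st x)

variable (hW : ∀ i, 0 < (W i).length) (st : Ka f → List (G × Fin n × Bool))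
    (hst : ∀ k, 0 < (st k).length) (ord : List (Ka f)) (hnd : ord.Nodup) (hall : ∀ k, k ∈ ord)

/-- the pair of a position -/
def pr : (blk W f hW st hst ord hnd hall).Pos → PP W f st
  | ⟨k, Sum.inl j⟩ => ⟨((st k).get j).2.1, Sum.inr ⟨⟨k, j⟩, rfl⟩⟩
  | ⟨k, Sum.inr (Sum.inl j)⟩ => ⟨((W k.1.1).get j).2.1, Sum.inl ⟨(k.1, ⟨k.1.1, j⟩), rfl, rfl⟩⟩
  | ⟨k, Sum.inr (Sum.inr j)⟩ => ⟨((st k).get j).2.1, Sum.inr ⟨⟨k, j⟩, rfl⟩⟩

/-- position from pair and sign -/
def unpr : PP W f st × Bool → (blk W f hW st hst ord hnd hall).Pos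
  | (⟨_, Sum.inl ⟨(a, ⟨i, j⟩), h⟩⟩, b) =>
      ⟨(a, if b then ((W i).get j).2.2 else !((W i).get j).2.2),
        Sum.inr (Sum.inl (Fin.cast (congrArg (fun i => (W i).length) h.1.symm) j))⟩
  | (⟨_, Sum.inr ⟨⟨k, j⟩, _⟩⟩, b) =>
      if b = ((st k).get j).2.2 then ⟨k, Sum.inl j⟩ else ⟨k, Sum.inr (Sum.inr j)⟩

/-- positions are pairs with a sign -/
def ePos : (blk W f hW st hst ord hnd hall).Pos ≃ PP W f st × Bool where
  toFun p := (pr W f hW st hst ord hnd hall p, (blk W f hW st hst ord hnd hall).sgn p)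
  invFun := unpr W f hW st hst ord hnd hall
  left_inv := by
    rintro ⟨⟨a, s⟩, j | j | j⟩
    · simp [pr, unpr, WD.Blk.sgn]
    · have hbb : (if (if s then ((W a.1).get j).2.2 else !((W a.1).get j).2.2) then
          ((W a.1).get j).2.2 else !((W a.1).get j).2.2) = s := by
        cases s <;> cases ((W a.1).get j).2.2 <;> rfl
      have key : ∀ (t : Bool), t = s → (⟨(a, t), Sum.inr (Sum.inl
          (Fin.cast (congrArg (fun i => (W i).length) (rfl : a.1 = a.1)) j))⟩ :
          (blk W f hW st hst ord hnd hall).Pos) = ⟨(a, s), Sum.inr (Sum.inl j)⟩ := by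
        intro t ht; subst ht; rfl
      exact key _ hbb
    · simp [pr, unpr, WD.Blk.sgn]
  right_inv := by
    rintro ⟨⟨x, ⟨⟨a, ⟨i, j⟩⟩, h1, h2⟩ | ⟨⟨k, j⟩, h⟩⟩, b⟩
    · have h1' : a.1 = i := h1
      subst h1'
      have h2' : ((W a.1).get j).2.1 = x := h2
      subst h2'
      have hbb : (if (if b then ((W a.1).get j).2.2 else !((W a.1).get j).2.2) then
          ((W a.1).get j).2.2 else !((W a.1).get j).2.2) = b := by
        cases b <;> cases ((W a.1).get j).2.2 <;> rfl
      exact Prod.ext rfl hbb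
    · subst h
      simp only [unpr]
      split_ifs with hb
      · simp [pr, WD.Blk.sgn, hb]
      · simp only [pr, WD.Blk.sgn]
        cases b <;> cases h : ((st k).get j).2.2 <;> simp_all

end word

end Crest.Agent.R174.Glue
private theorem rz_b96e02e874 : type_of% @_root_.Crest.Agent.R174.Glue.pr.eq_1 := @_root_.Crest.Agent.R174.Glue.pr.eq_1 -- L175
private theorem rz_6a963c630b : type_of% @_root_.Crest.Agent.R174.Glue.unpr.eq_1 := @_root_.Crest.Agent.R174.Glue.unpr.eq_1 -- L181
end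

-- ▼ part R174/Glue83b
section

set_option autoImplicit false

/-!
# R174, W7b (helper83): the matching matrix `MM` in block form
-/

open scoped Matrix.Norms.L2Operator
open Crest.Agent.R174.Red Crest.Agent.R174.GR

namespace Crest.Agent.R174.Glue

universe u

/-- `P × Bool ≃ P ⊕ P`, `true` goes to the left summand -/
def eBool (P : Type) : P × Bool ≃ P ⊕ P where
  toFun p := if p.2 then Sum.inl p.1 else Sum.inr p.1
  invFun := Sum.elim (fun p => (p, true)) (fun p => (p, false))
  left_inv := by rintro ⟨p, _ | _⟩ <;> rfl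
  right_inv := by rintro (p | p) <;> rfl

section gen

variable {Pos ι : Type} [Fintype Pos] [DecidableEq Pos] [Fintype ι] [DecidableEq ι]
  {N : ι → Type} [∀ x, Fintype (N x)] [∀ x, DecidableEq (N x)]

/-- the hermitian antidiagonal matrix of `B` -/
def anti (e : Pos ≃ (Σ x, N x) × Bool) (B : Matrix (Σ x, N x) (Σ x, N x) ℂ) : Matrix Pos Pos ℂ :=
  (Matrix.fromBlocks 0 (star B) B 0).submatrix (e.trans (eBool _)) (e.trans (eBool _))

/-- the matching matrix -/
def mat (mu : Pos → Pos) (z : Pos → ℂ) : Matrix Pos Pos ℂ :=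
  Matrix.of fun j i => if j = mu i then z i else 0

lemma star_mat (mu : Pos → Pos) (z : Pos → ℂ) (hmu : ∀ i, mu (mu i) = i)
    (hz : ∀ i, z (mu i) = star (z i)) : star (mat mu z) = mat mu z := by
  ext i j
  simp only [Matrix.star_apply, mat, Matrix.of_apply]
  by_cases h : j = mu i
  · subst h
    simp [hmu, hz]
  · have h' : ¬ i = mu j := by
      intro h2; apply h; rw [h2, hmu]
    simp [h, h']

lemma mat_mul_mat (mu : Pos → Pos) (z : Pos → ℂ) (hmu : ∀ i, mu (mu i) = i)
    (hz : ∀ i, z (mu i) = star (z i)) (hn : ∀ i, ‖z i‖ = 1) : mat mu z * mat mu z = 1 := by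
  ext i j
  rw [Matrix.mul_apply, Finset.sum_eq_single (mu j)]
  · simp only [mat, Matrix.of_apply, hmu, if_true, Matrix.one_apply]
    by_cases h : i = j
    · subst h
      simp only [if_true, hz]
      rw [mul_comm, Complex.star_def, Complex.mul_conj, Complex.normSq_eq_norm_sq, hn]
      simp
    · simp [h]
  · intro k _ hk
    simp [mat, hk]
  · intro h; exact absurd (Finset.mem_univ _) h

/-- a matching preserving the unknowns and reversing the signs has block form -/
theorem mat_eq_anti (e : Pos ≃ (Σ x, N x) × Bool) (mu : Pos → Pos) (z : Pos → ℂ)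
    (hmu : ∀ i, mu (mu i) = i) (hz : ∀ i, z (mu i) = star (z i)) (hn : ∀ i, ‖z i‖ = 1)
    (hunk : ∀ i, (e (mu i)).1.1 = (e i).1.1) (hsgn : ∀ i, (e (mu i)).2 = !(e i).2) :
    ∃ M : ∀ x, Matrix (N x) (N x) ℂ, (∀ x, M x ∈ Matrix.unitaryGroup (N x) ℂ) ∧
      mat mu z = anti e (Matrix.blockDiagonal' M) := by
  set M : ∀ x, Matrix (N x) (N x) ℂ := fun x => Matrix.of fun p' p =>
    mat mu z (e.symm (⟨x, p'⟩, false)) (e.symm (⟨x, p⟩, true)) with hM
  have hst := star_mat mu z hmu hz
  have key1 : ∀ a b : Σ x, N x, Matrix.blockDiagonal' M a b =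
      mat mu z (e.symm (a, false)) (e.symm (b, true)) := by
    rintro ⟨x, p'⟩ ⟨y, p⟩
    by_cases h : x = y
    · subst h
      simp [hM]
    · rw [Matrix.blockDiagonal'_apply_ne _ _ _ h]
      symm
      simp only [mat, Matrix.of_apply]
      rw [if_neg]
      intro h2
      apply h
      have h3 := hunk (e.symm (⟨y, p⟩, true))
      rw [← h2] at h3
      simpa using h3
  have key2 : mat mu z = anti e (Matrix.blockDiagonal' M) := by
    ext i j
    obtain ⟨⟨a, s⟩, rfl⟩ := e.symm.surjective i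
    obtain ⟨⟨b, t⟩, rfl⟩ := e.symm.surjective j
    have hne : s = t → mat mu z (e.symm (a, s)) (e.symm (b, t)) = 0 := by
      intro hst
      simp only [mat, Matrix.of_apply]
      rw [if_neg]
      intro h2
      have h3 := hsgn (e.symm (b, t))
      rw [← h2] at h3
      simp at h3
      rw [hst] at h3
      cases t <;> simp at h3
    cases s <;> cases t
    · rw [hne rfl]; simp [anti, eBool]
    · simp [anti, eBool, key1]
    · have h1 : anti e (Matrix.blockDiagonal' M) (e.symm (a, true)) (e.symm (b, false)) =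
          star (Matrix.blockDiagonal' M b a) := by
        simp [anti, eBool]
      rw [h1, key1, ← Matrix.star_apply, hst]
    · rw [hne rfl]; simp [anti, eBool]
  refine ⟨M, ?_, key2⟩
  have h1 := mat_mul_mat mu z hmu hz hn
  rw [key2] at h1
  unfold anti at h1
  rw [Matrix.submatrix_mul_equiv, Matrix.fromBlocks_multiply] at h1
  have h2 : Matrix.fromBlocks (0 * 0 + star (Matrix.blockDiagonal' M) * Matrix.blockDiagonal' M)
      (0 * star (Matrix.blockDiagonal' M) + star (Matrix.blockDiagonal' M) * 0)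
      (Matrix.blockDiagonal' M * 0 + 0 * Matrix.blockDiagonal' M)
      (Matrix.blockDiagonal' M * star (Matrix.blockDiagonal' M) + 0 * 0) =
      (1 : Matrix ((Σ x, N x) ⊕ (Σ x, N x)) ((Σ x, N x) ⊕ (Σ x, N x)) ℂ) := by
    have h3 := congrArg (fun A => A.submatrix (e.trans (eBool _)).symm (e.trans (eBool _)).symm) h1
    simp only [Matrix.submatrix_submatrix, Equiv.self_comp_symm, Matrix.submatrix_id_id,
      Matrix.submatrix_one_equiv] at h3
    exact h3
  rw [← Matrix.fromBlocks_one, Matrix.fromBlocks_inj] at h2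
  intro x
  rw [Matrix.mem_unitaryGroup_iff']
  have h4 := h2.1
  rw [zero_mul, zero_add, Matrix.star_eq_conjTranspose, Matrix.blockDiagonal'_conjTranspose,
    ← Matrix.blockDiagonal'_mul, ← Matrix.blockDiagonal'_one] at h4
  exact congrFun (Matrix.blockDiagonal'_injective h4) x

end gen

end Crest.Agent.R174.Glue
end

-- ▼ part R174/W4Def83

set_option autoImplicit false

/-!
# R174: the statement of W4 in the form of the glue (helper83)
-/

open scoped Matrix.Norms.L2Operator
open Monoid Finset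
open Crest.Agent.R174.Red Crest.Agent.R174.GR

namespace Crest.Agent.R174.Glue

universe u

section

variable {G : Type u} [Group G] {n : ℕ}

/-- output of W4 -/
def W4 (W : Fin n → List (G × Fin n × Bool)) (f : Fin n → ℕ)
    (hW : ∀ i, 0 < (W i).length) (st : Ka f → List (G × Fin n × Bool))
    (hst : ∀ k, 0 < (st k).length) (ord : List (Ka f)) (hnd : ord.Nodup)
    (hall : ∀ k, k ∈ ord) : Prop :=
  ∀ σ : (sys W f).KA, σ ∈ unitary (sys W f).KA →
    ∃ cY : List ℕ, (∀ k ∈ cY, 0 < k) ∧
      cY.sum = Fintype.card (blk W f hW st hst ord hnd hall).Pos ∧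
      2 * cY.length + 4 * (∑ i, f i) = Fintype.card (blk W f hW st hst ord hnd hall).Pos + 2 ∧
      ∀ q, WD.trG ((TrIneq.sc G (anti (ePos W f hW st hst ord hnd hall)
          (Jbig (sys W f) (St f st) σ)) *
        WD.mono (blk W f hW st hst ord hnd hall).pred (blk W f hW st hst ord hnd hall).lab
          (fun _ => 1)) ^ q) = (cY.map fun k => WD.cterm k (1 : G) 1 q).sum

end

end Crest.Agent.R174.Glue
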