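import Crest.Agent.R174.W2_259
import Mathlib
import Crest.Agent.R174.G4b661_Mg
import Crest.Agent.R174.HInvMain
import Crest.Agent.R174.GRLoc1
import Crest.Agent.R174.GRLocDef
import Crest.Agent.R174.GRT4Main
import Crest.Agent.R174.W4Def83
import Crest.Agent.R174.PredE753_Mg
import Crest.Agent.R174.TrIneq4
import Crest.Agent.R174.Mono126
import Crest.Agent.R174.GREmb

-- ▼ part R174/F4_259
section

set_option autoImplicit false

/-!
# R174, F4: blocks indexed by `(Σ i, Fin (f i)) × Bool`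
-/

open Monoid

namespace Crest.Agent.R174.W259

open Crest.Agent.R174.Red

universe u

variable {G : Type u} [Group G] {n : ℕ}

/-- `countP` as the cardinality of a set of indices -/
lemma countP_eq_card {α : Type*} (l : List α) (p : α → Bool) :
    l.countP p = Fintype.card {k : Fin l.length // p (l.get k) = true} := by
  rw [Fintype.card_subtype]
  have h := List.countP_map (p := p) (f := l.get) (l := List.finRange l.length)
  rw [List.map_get_finRange] at h
  rw [h, List.countP_eq_length_filter, ← List.toFinset_card_of_nodup ((List.nodup_finRange _).filter _)]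
  congr 1
  ext k
  simp

/-- blocks of a kernel element, indexed by `(Σ i, Fin (f i)) × Bool` (sign), `ord` is the order of
the blocks in the product; the first label of every stem is `1`. -/
theorem exists_kappa (W : Fin n → List (G × Fin n × Bool))
    (htri : ∀ i j : Fin n, j < i → expSum (W i) j = 0) (hdiag : ∀ i, expSum (W i) i ≠ 0) (g : G)
    (hg : (Coprod.inl g : Coprod G (FreeGroup (Fin n))) ∈
      Subgroup.normalClosure (Set.range fun i => ev (W i))) :
    ∃ (f : Fin n → ℕ) (st : (Σ i, Fin (f i)) × Bool → List (G × Fin n × Bool))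
      (ord : List ((Σ i, Fin (f i)) × Bool)),
      (∀ k, ∃ p t, st k = ((1 : G), p) :: t) ∧ ord.Nodup ∧ (∀ k, k ∈ ord) ∧
      (Coprod.inl g : Coprod G (FreeGroup (Fin n))) =
        (ord.map fun k => blockVal W (st k, k.1.1, k.2)).prod := by
  classical
  obtain ⟨bl, -, h2⟩ := exists_blocks W (Coprod.inl g) hg
  set f : Fin n → ℕ := fun i => bl.countP (fun b => b.2.1 = i ∧ b.2.2 = true) with hf
  have hcard : ∀ p : Fin n × Bool,
      Fintype.card {k : Fin bl.length // (bl.get k).2 = p} = f p.1 := by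
    intro p
    have h3 := balanced_count bl p.1 (balanced W htri hdiag bl g h2 p.1)
    have h4 : Fintype.card {k : Fin bl.length // (bl.get k).2 = p} =
        bl.countP (fun b => b.2.1 = p.1 ∧ b.2.2 = p.2) := by
      rw [countP_eq_card]
      apply Fintype.card_congr
      apply Equiv.subtypeEquivRight
      intro k
      simp [Prod.ext_iff]
    rw [h4]
    rcases p with ⟨i, _ | _⟩
    · exact h3.symm
    · rfl
  let e1 : Fin bl.length ≃ Σ p : Fin n × Bool, {k : Fin bl.length // (bl.get k).2 = p} :=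
    (Equiv.sigmaFiberEquiv fun k => (bl.get k).2).symm
  let e2 : (Σ p : Fin n × Bool, {k : Fin bl.length // (bl.get k).2 = p}) ≃
      Σ p : Fin n × Bool, Fin (f p.1) :=
    Equiv.sigmaCongrRight fun p => Fintype.equivFinOfCardEq (hcard p)
  let e3 : (Σ p : Fin n × Bool, Fin (f p.1)) ≃ (Σ i, Fin (f i)) × Bool :=
    { toFun := fun x => (⟨x.1.1, x.2⟩, x.1.2)
      invFun := fun y => ⟨(y.1.1, y.2), y.1.2⟩
      left_inv := fun x => rfl
      right_inv := fun y => rfl }
  let e : Fin bl.length ≃ (Σ i, Fin (f i)) × Bool := (e1.trans e2).trans e3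
  have he : ∀ k : Fin bl.length, (bl.get k).2 = ((e k).1.1, (e k).2) := by
    intro k
    rfl
  let st : (Σ i, Fin (f i)) × Bool → List (G × Fin n × Bool) := fun k =>
    (1, k.1.1, true) :: (1, k.1.1, false) :: (bl.get (e.symm k)).1
  have hst : ∀ k, ev (st k) = ev (bl.get (e.symm k)).1 := by
    intro k
    simp [st, ev, lett]
  refine ⟨f, st, (List.finRange bl.length).map e, fun k => ⟨_, _, rfl⟩,
    (List.nodup_finRange _).map e.injective, fun k => ?_, ?_⟩
  · rw [List.mem_map]
    exact ⟨e.symm k, List.mem_finRange _, e.apply_symm_apply k⟩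
  · rw [h2, List.map_map]
    congr 1
    conv_lhs => rw [← List.map_get_finRange bl]
    rw [List.map_map]
    apply List.map_congr_left
    intro k _
    have h5 : (bl.get k).2.1 = (e k).1.1 := congrArg Prod.fst (he k)
    have h6 : (bl.get k).2.2 = (e k).2 := congrArg Prod.snd (he k)
    simp only [Function.comp, blockVal, hst, Equiv.symm_apply_apply, h5, h6]

end Crest.Agent.R174.W259
end

-- ▼ part R174/G4Link
section

/-!
# R174, block G4 (helper850): T3 from helper661's G4a and G4b.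
-/

set_option autoImplicit false
set_option linter.unusedSectionVars false
open MeasureTheory Matrix
open scoped Matrix.Norms.L2Operator Topology

noncomputable section

namespace Crest.Agent.R174.GR

open Crest.Agent.R174.G4a

variable {ι A Q : Type} [Fintype ι] [LinearOrder ι] [Fintype A] [DecidableEq A]
  [Fintype Q] [DecidableEq Q]

/-- reference positions from a reference map -/
def refOf {S : Sys ι A Q} {q0 : ι → Q} (R : RefMap S q0) (x i : ι) : Q :=
  open Classical in
  if h : ∃ q, S.rel q = i ∧ S.var q = x then R.r h.choose else q0 x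

theorem refOf_eq {S : Sys ι A Q} {q0 : ι → Q} (R : RefMap S q0) (q : Q) :
    refOf R (S.var q) (S.rel q) = R.r q := by
  unfold refOf
  have h : ∃ q', S.rel q' = S.rel q ∧ S.var q' = S.var q := ⟨q, rfl, rfl⟩
  rw [dif_pos h]
  exact R.congr _ _ h.choose_spec.1 h.choose_spec.2

theorem refOf_ok {S : Sys ι A Q} {q0 : ι → Q} (hq : ∀ x, S.rel (q0 x) = x ∧ S.var (q0 x) = x)
    (R : RefMap S q0) : S.RefOK q0 (refOf R) := by
  refine ⟨?_, ?_⟩
  · intro x
    have := refOf_eq R (q0 x)
    rw [(hq x).1, (hq x).2, R.r_q0] at this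
    exact this
  · rintro x i ⟨q, rfl, rfl⟩
    rw [refOf_eq]
    exact ⟨R.rel_r q, R.var_r q⟩

theorem W_eq_inc (S : Sys ι A Q) (x i : ι) (q : Q) : S.W x i q = inc S x i q := by
  ext p a
  simp only [Sys.W, inc, Matrix.of_apply]
  congr 1
  apply propext
  constructor
  · intro h; rw [h]; exact ⟨rfl, rfl⟩
  · rintro ⟨h1, h2⟩; exact Prod.ext h2 h1

theorem zp_eq_zpow {n : Type} [Fintype n] [DecidableEq n] (k : ℤ) {X : Matrix n n ℂ}
    (hX : IsUnit X) : zp k X = X ^ k := by
  obtain ⟨u, rfl⟩ := hX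
  rw [zp_unit]
  cases k with
  | ofNat n => simp
  | negSucc n =>
    rw [_root_.zpow_negSucc, _root_.zpow_negSucc, Matrix.coe_units_inv, Units.val_pow_eq_pow_val]

theorem Phi1_link {S : Sys ι A Q} {q0 : ι → Q}
    (hq : ∀ x, S.rel (q0 x) = x ∧ S.var (q0 x) = x)
    (R : RefMap S q0) {X : S.KA} (hX : IsUnit X) : Phi1 R X = S.Phi1 (refOf R) X := by
  funext x
  have hXi : ∀ i, IsUnit (X i) := fun i => (Pi.isUnit_iff.mp hX) i
  ext p p'
  unfold Sys.Phi1 Phi1
  rw [Matrix.add_apply, Matrix.sum_apply, Matrix.of_apply]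
  simp only [W_eq_inc]
  have hother : ∀ i, i ≠ S.rel p.1.2 →
      (inc S x i (refOf R x i) * (zp (S.E i x) (X i) - 1) * (inc S x i (refOf R x i))ᵀ :
        Matrix (S.Po x) (S.Po x) ℂ) p p' = 0 := by
    intro i hi
    by_cases h : ∃ q, S.rel q = i ∧ S.var q = x
    · apply blk_apply_zero
      rintro ⟨h1, -⟩
      apply hi
      rw [h1]
      exact ((refOf_ok hq R).2 x i h).1.symm
    · rw [← W_eq_inc, S.W_zero _ h]
      simp
  rw [Finset.sum_eq_single (S.rel p.1.2) (fun i _ hi => hother i hi)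
    (fun h => absurd (Finset.mem_univ _) h)]
  have href : refOf R x (S.rel p.1.2) = R.r p.1.2 := by
    rw [← refOf_eq R p.1.2, p.2.2]
  rw [href]
  by_cases h : p.1.2 = p'.1.2
  · rw [dif_pos h]
    by_cases hr : R.r p.1.2 = p.1.2
    · have hkk : R.kk p.1.2 = S.E (S.rel p.1.2) x := by
        unfold RefMap.kk
        rw [if_pos hr, p.2.2]
      rw [hkk, blk_apply _ _ _ p p' hr.symm (h ▸ hr.symm) (R.rel_r _), Matrix.sub_apply,
        zp_eq_zpow _ (hXi _), Matrix.one_apply, Matrix.one_apply]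
      have : (p = p') ↔ ((⟨p.1.1, by exact p.2.1⟩ : S.Fa (S.rel p.1.2)) =
          ⟨p'.1.1, by rw [h]; exact p'.2.1⟩) := by
        constructor
        · intro h'; apply Subtype.ext; exact congrArg (fun p => p.1.1) h'
        · intro h'
          exact Subtype.ext (Prod.ext (congrArg Subtype.val h') h)
      by_cases hpp : p = p'
      · rw [if_pos hpp, if_pos (this.mp hpp)]
        ring
      · rw [if_neg hpp, if_neg (fun h' => hpp (this.mpr h'))]
        ring
    · have hkk : R.kk p.1.2 = 0 := by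
        unfold RefMap.kk
        rw [if_neg hr]
      rw [hkk, blk_apply_zero _ _ _ _ _ (fun h' => hr h'.1.symm), add_zero, zpow_zero,
        Matrix.one_apply, Matrix.one_apply]
      congr 1
      apply propext
      constructor
      · intro h'
        exact Subtype.ext (Prod.ext (congrArg Subtype.val h') h)
      · intro h'; apply Subtype.ext; exact congrArg (fun p => p.1.1) h'
  · rw [dif_neg h, Matrix.one_apply, if_neg (fun h' => h (by rw [h'])),
      blk_apply_zero _ _ _ _ _ (fun h' => h (h'.1.trans h'.2.symm)), add_zero]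

/-- **T3** (evaluation): `DD J ≠ 0`. -/
theorem T3_holds (S : Sys ι A Q) (h1 : T1 S.KA S.VA)
    (h0 : ∀ ξ : S.KA, LinearMap.trace ℂ S.KA (LinearMap.mulLeft ℂ ξ - LinearMap.mulRight ℂ ξ) = 0) :
    T3 S := by
  intro ht hd q0 hq
  let R := mkRef S q0 hq
  rw [T3a_of_T1 S h1 h0 q0 hq R]
  rw [DD_congr (S.refR q0 hq) (Phi1 R) (S.Phi1 (refOf R))]
  · exact G4b_holds S ht hd q0 hq _ (refOf_ok hq R)
  · intro σ hσ
    filter_upwards [eventually_isUnit hσ] with X hX
    exact Phi1_link hq R hX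

end Crest.Agent.R174.GR
end
end

-- ▼ part R174/G4Final
section

/-! # R174, T3 unconditionally (T1: helper337, T0: helper802, G4a: helper661, G4b: helper850). -/

set_option autoImplicit false
open scoped Matrix.Norms.L2Operator

namespace Crest.Agent.R174.GR

variable {ι A Q : Type} [Fintype ι] [LinearOrder ι] [Fintype A] [DecidableEq A]
  [Fintype Q] [DecidableEq Q]

theorem t3 (S : Sys ι A Q) : T3 S :=
  T3_holds S Crest.Agent.R174.HInv.t1 (Crest.Agent.R174.GRHaar.t0 S)

end Crest.Agent.R174.GR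
end

-- ▼ part R174/GRLoc2
section

/-!
# R174, P3 (GR), block G7a: the matrix part of the localisation

* `unitary_diag`: orthonormal diagonalisation of a unitary matrix;
* `MD`: entrywise derivative of a curve of matrices;
* `Good`: closure under algebra operations of "divided difference" derivatives in an eigenbasis.
-/

set_option autoImplicit false
set_option linter.unusedSectionVars false

namespace Crest.Agent.R174.GRLoc

open Complex Finset Matrix

variable {P : Type*} [Fintype P] [DecidableEq P]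

/-- two-variable version of `uA` -/
noncomputable def uB {A : Type*} [Ring A] [Algebra ℂ A] (n : ℕ) (a : ℕ → ℂ) (x y : A) : A :=
  ∑ j ∈ range n, (a j • x ^ (j + 1) + star (a j) • y ^ (j + 1))

/-- two-variable version of `hA` (`y` plays the role of `x⁻¹`) -/
noncomputable def hB {A : Type*} [Ring A] [Algebra ℂ A] (n : ℕ) (a : ℕ → ℂ) (m : ℕ) (c : ℂ)
    (x y : A) : A :=
  x * (1 + (c * I) • uB n a x y) ^ m

lemma hB_eq_hA {A : Type*} [Ring A] [StarRing A] [Algebra ℂ A] (n : ℕ) (a : ℕ → ℂ) (m : ℕ) (s : ℝ)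
    (x : A) : hB n a m ((s / m : ℝ) : ℂ) x (star x) = hA n a m s x := rfl

/-! ### spectral theorem for unitary matrices -/

/-- orthonormal diagonalisation of a unitary matrix -/
theorem unitary_diag {R : Matrix P P ℂ} (hR : R ∈ Matrix.unitaryGroup P ℂ) :
    ∃ (V : Matrix P P ℂ) (d : P → ℂ), V ∈ Matrix.unitaryGroup P ℂ ∧ (∀ p, ‖d p‖ = 1) ∧
      R = V * Matrix.diagonal d * star V := by
  classical
  have hRR : R * star R = 1 := Matrix.mem_unitaryGroup_iff.1 hR
  have hRR' : star R * R = 1 := Matrix.mem_unitaryGroup_iff'.1 hR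
  set A : Matrix P P ℂ := R + star R with hAdef
  set B : Matrix P P ℂ := I • (R - star R) with hBdef
  have hA : A.IsHermitian := by
    show Aᴴ = A
    rw [hAdef, ← Matrix.star_eq_conjTranspose, star_add, star_star, add_comm]
  have hB : B.IsHermitian := by
    show Bᴴ = B
    rw [hBdef, ← Matrix.star_eq_conjTranspose, star_smul, star_sub, star_star]
    rw [Complex.star_def, Complex.conj_I, neg_smul, ← smul_neg, neg_sub]
  have hAB : A * B = B * A := by
    rw [hAdef, hBdef]
    simp only [add_mul, mul_add, mul_sub, sub_mul, smul_mul_assoc, mul_smul_comm, smul_sub,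
      smul_add, hRR, hRR']
    abel
  set TA := Matrix.toEuclideanLin A with hTA
  set TB := Matrix.toEuclideanLin B with hTB
  have sA : TA.IsSymmetric := Matrix.isSymmetric_toEuclideanLin_iff.2 hA
  have sB : TB.IsSymmetric := Matrix.isSymmetric_toEuclideanLin_iff.2 hB
  have hc : Commute TA TB := by
    apply LinearMap.ext
    intro v
    show TA (TB v) = TB (TA v)
    rw [hTA, hTB]
    simp only [Matrix.toLpLin_apply, Matrix.mulVec_mulVec, hAB]
  let V : ℂ × ℂ → Submodule ℂ (EuclideanSpace ℂ P) := fun i =>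
    Module.End.eigenspace TA i.2 ⊓ Module.End.eigenspace TB i.1
  have hV : DirectSum.IsInternal V := LinearMap.IsSymmetric.directSum_isInternal_of_commute sA sB hc
  have hV' : OrthogonalFamily ℂ (fun i => V i) fun i => (V i).subtypeₗᵢ :=
    LinearMap.IsSymmetric.orthogonalFamily_eigenspace_inf_eigenspace sA sB
  have hfin : {i | V i ≠ ⊥}.Finite := WellFoundedGT.finite_ne_bot_of_iSupIndep
    hV.submodule_iSupIndep
  have : Fintype {i // V i ≠ ⊥} := hfin.fintype
  have hW : DirectSum.IsInternal (fun i : {i // V i ≠ ⊥} => V i) := DirectSum.isInternal_ne_bot_iff.2 hV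
  have hW' : OrthogonalFamily ℂ (fun i : {i // V i ≠ ⊥} => V i) fun i => (V i).subtypeₗᵢ :=
    hV'.comp Subtype.val_injective
  have hn : Module.finrank ℂ (EuclideanSpace ℂ P) = Fintype.card P := finrank_euclideanSpace
  let b0 := hW.subordinateOrthonormalBasis hn hW'
  let eq := Fintype.equivFin P
  let b := b0.reindex eq.symm
  let ix := fun a : P => hW.subordinateOrthonormalBasisIndex hn (eq a) hW'
  have hb : ∀ a : P, b a ∈ V (ix a) := fun a => by
    have := hW.subordinateOrthonormalBasis_subordinate hn (eq a) hW'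
    show (b0.reindex eq.symm) a ∈ V (ix a)
    rw [OrthonormalBasis.reindex_apply]
    exact this
  have hbA : ∀ a, TA (b a) = (ix a).1.2 • b a := fun a =>
    Module.End.mem_eigenspace_iff.1 (Submodule.mem_inf.1 (hb a)).1
  have hbB : ∀ a, TB (b a) = (ix a).1.1 • b a := fun a =>
    Module.End.mem_eigenspace_iff.1 (Submodule.mem_inf.1 (hb a)).2
  let U0 : Matrix P P ℂ := Matrix.of fun j k => b k j
  have hU0 : star U0 * U0 = 1 := by
    ext k l
    rw [Matrix.mul_apply, Matrix.one_apply]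
    have h1 := orthonormal_iff_ite.1 b.orthonormal k l
    rw [PiLp.inner_apply] at h1
    rw [← h1]
    refine Finset.sum_congr rfl fun j _ => ?_
    simp [U0, Matrix.star_apply, mul_comm]
  have hU0' : U0 * star U0 = 1 := mul_eq_one_comm.1 hU0
  have hUmem : U0 ∈ Matrix.unitaryGroup P ℂ := Matrix.mem_unitaryGroup_iff.2 hU0'
  -- the eigenvalues of R
  set d : P → ℂ := fun a => ((ix a).1.2 + (-I) * (ix a).1.1) / 2 with hd
  have hRAB : R = (1 / 2 : ℂ) • (A + (-I) • B) := by
    rw [hAdef, hBdef, smul_smul, neg_mul, I_mul_I, neg_neg, one_smul]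
    rw [show R + star R + (R - star R) = (2 : ℂ) • R by rw [two_smul]; abel, smul_smul]
    norm_num
  have hR' : ∀ a, R *ᵥ (fun j => b a j) = d a • (fun j => b a j) := by
    intro a
    have e1 : A *ᵥ (fun j => b a j) = (ix a).1.2 • (fun j => b a j) := by
      have := congrArg (fun v : EuclideanSpace ℂ P => (fun j => v j)) (hbA a)
      simp only [hTA, Matrix.toLpLin_apply] at this
      exact this
    have e2 : B *ᵥ (fun j => b a j) = (ix a).1.1 • (fun j => b a j) := by
      have := congrArg (fun v : EuclideanSpace ℂ P => (fun j => v j)) (hbB a)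
      simp only [hTB, Matrix.toLpLin_apply] at this
      exact this
    rw [hRAB, Matrix.smul_mulVec, Matrix.add_mulVec, Matrix.smul_mulVec, e1, e2, hd]
    ext j
    simp only [Pi.smul_apply, Pi.add_apply, smul_eq_mul]
    ring
  have hRU : R = U0 * Matrix.diagonal d * star U0 := by
    have h1 : R * U0 = U0 * Matrix.diagonal d := by
      ext j k
      rw [Matrix.mul_diagonal, Matrix.mul_apply]
      have h2 := congrFun (hR' k) j
      simp only [Matrix.mulVec, dotProduct, Pi.smul_apply, smul_eq_mul] at h2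
      rw [mul_comm (U0 j k)]
      exact h2
    rw [← h1, mul_assoc, hU0', mul_one]
  refine ⟨U0, d, hUmem, ?_, hRU⟩
  -- modulus one
  have hD : Matrix.diagonal d = star U0 * R * U0 := by
    rw [hRU]
    simp only [mul_assoc]
    rw [hU0, mul_one, ← mul_assoc, hU0, one_mul]
  have hDm : Matrix.diagonal d ∈ Matrix.unitaryGroup P ℂ := by
    rw [hD]
    exact mul_mem (mul_mem (Unitary.star_mem hUmem) hR) hUmem
  intro p
  have h3 := congrFun (congrFun (Matrix.mem_unitaryGroup_iff.1 hDm) p) p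
  rw [Matrix.star_eq_conjTranspose, Matrix.diagonal_conjTranspose, Matrix.diagonal_mul_diagonal,
    Matrix.diagonal_apply_eq, Matrix.one_apply_eq] at h3
  have h4 : d p * star (d p) = 1 := h3
  rw [Complex.star_def, Complex.mul_conj, Complex.normSq_eq_norm_sq] at h4
  have h5 : ‖d p‖ ^ 2 = 1 := by exact_mod_cast h4
  nlinarith [norm_nonneg (d p)]

/-! ### entrywise derivatives -/

/-- entrywise derivative of a curve of matrices -/
def MD {m n : Type*} (F : ℝ → Matrix m n ℂ) (F' : Matrix m n ℂ) (t : ℝ) : Prop :=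
  ∀ i j, HasDerivAt (fun s => F s i j) (F' i j) t

lemma MD.unique {m n : Type*} {F : ℝ → Matrix m n ℂ} {F' F'' : Matrix m n ℂ} {t : ℝ}
    (h : MD F F' t) (h' : MD F F'' t) : F' = F'' := by
  ext i j
  exact (h i j).unique (h' i j)

lemma MD.const {m n : Type*} (C : Matrix m n ℂ) (t : ℝ) : MD (fun _ => C) 0 t := fun i j => by
  simpa using hasDerivAt_const t (C i j)

lemma MD.add {m n : Type*} {F G : ℝ → Matrix m n ℂ} {F' G' : Matrix m n ℂ} {t : ℝ}
    (hF : MD F F' t) (hG : MD G G' t) : MD (fun s => F s + G s) (F' + G') t := fun i j => by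
  simpa using (hF i j).fun_add (hG i j)

lemma MD.smul {m n : Type*} {F : ℝ → Matrix m n ℂ} {F' : Matrix m n ℂ} {t : ℝ} (c : ℂ)
    (hF : MD F F' t) : MD (fun s => c • F s) (c • F') t := fun i j => by
  simpa using (hF i j).const_mul c

lemma MD.mul {l m n : Type*} [Fintype m] {F : ℝ → Matrix l m ℂ} {G : ℝ → Matrix m n ℂ}
    {F' : Matrix l m ℂ} {G' : Matrix m n ℂ} {t : ℝ}
    (hF : MD F F' t) (hG : MD G G' t) : MD (fun s => F s * G s) (F' * G t + F t * G') t := by
  intro i j
  simp only [Matrix.mul_apply, Matrix.add_apply]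
  rw [← sum_add_distrib]
  exact HasDerivAt.fun_sum fun k _ => (hF i k).mul (hG k j)

lemma MD.star {m n : Type*} {F : ℝ → Matrix m n ℂ} {F' : Matrix m n ℂ} {t : ℝ}
    (hF : MD F F' t) : MD (fun s => (F s)ᴴ) (F')ᴴ t := fun i j => by
  simpa using (hF j i).star

/-! ### divided differences in an eigenbasis -/

/-- `Good` relates a curve of matrices `F` and a scalar function `f` at the time `t0`, for the base
derivative `R'` and (co)eigenvectors `v`, `w` with eigenvalues `exp (α I)`, `μ`. -/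
def Good (t0 : ℝ) (R' : Matrix P P ℂ) (v w : P → ℂ) (α : ℝ) (μ : ℂ)
    (F : ℝ → Matrix P P ℂ) (f : ℂ → ℂ) : Prop :=
  ∃ (F' : Matrix P P ℂ) (fd : ℂ), MD F F' t0 ∧
    star v ᵥ* (F t0) = f (exp (α * I)) • star v ∧ (F t0) *ᵥ w = f μ • w ∧
    star v ⬝ᵥ (F' *ᵥ w) = fd * (star v ⬝ᵥ (R' *ᵥ w)) ∧
    fd * (exp (α * I) - μ) = f (exp (α * I)) - f μ ∧
    (exp (α * I) = μ → HasDerivAt (fun t : ℝ => f (exp (t * I))) (fd * (exp (α * I) * I)) α)

section good
variable {t0 : ℝ} {R' : Matrix P P ℂ} {v w : P → ℂ} {α : ℝ} {μ : ℂ}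

lemma Good.const (c : ℂ) : Good t0 R' v w α μ (fun _ => c • 1) (fun _ => c) := by
  refine ⟨0, 0, MD.const _ _, ?_, ?_, ?_, ?_, ?_⟩
  · rw [Matrix.vecMul_smul, Matrix.vecMul_one]
  · rw [Matrix.smul_mulVec, Matrix.one_mulVec]
  · simp
  · simp
  · intro _; simpa using hasDerivAt_const α c

lemma Good.add {F G : ℝ → Matrix P P ℂ} {f g : ℂ → ℂ} (hF : Good t0 R' v w α μ F f)
    (hG : Good t0 R' v w α μ G g) :
    Good t0 R' v w α μ (fun s => F s + G s) (fun z => f z + g z) := by
  obtain ⟨F', fd, h1, h2, h3, h4, h5, h6⟩ := hF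
  obtain ⟨G', gd, k1, k2, k3, k4, k5, k6⟩ := hG
  refine ⟨F' + G', fd + gd, h1.add k1, ?_, ?_, ?_, ?_, ?_⟩
  · rw [Matrix.vecMul_add, h2, k2, add_smul]
  · rw [Matrix.add_mulVec, h3, k3, add_smul]
  · rw [Matrix.add_mulVec, dotProduct_add, h4, k4]; ring
  · linear_combination h5 + k5
  · intro h
    exact ((h6 h).fun_add (k6 h)).congr_deriv (by ring)

lemma Good.mul {F G : ℝ → Matrix P P ℂ} {f g : ℂ → ℂ} (hF : Good t0 R' v w α μ F f)
    (hG : Good t0 R' v w α μ G g) :
    Good t0 R' v w α μ (fun s => F s * G s) (fun z => f z * g z) := by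
  obtain ⟨F', fd, h1, h2, h3, h4, h5, h6⟩ := hF
  obtain ⟨G', gd, k1, k2, k3, k4, k5, k6⟩ := hG
  refine ⟨F' * G t0 + F t0 * G', fd * g μ + f (exp (α * I)) * gd, h1.mul k1, ?_, ?_, ?_, ?_, ?_⟩
  · rw [← Matrix.vecMul_vecMul, h2, Matrix.smul_vecMul, k2, smul_smul]
  · rw [← Matrix.mulVec_mulVec, k3, Matrix.mulVec_smul, h3, smul_smul, mul_comm]
  · rw [Matrix.add_mulVec, dotProduct_add, ← Matrix.mulVec_mulVec, k3, Matrix.mulVec_smul,
      dotProduct_smul, h4, ← Matrix.mulVec_mulVec, dotProduct_mulVec (star v) (F t0), h2,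
      smul_dotProduct, k4]
    simp only [smul_eq_mul]; ring
  · linear_combination g μ * h5 + f (exp (α * I)) * k5
  · intro h
    refine ((h6 h).mul (k6 h)).congr_deriv ?_
    rw [← h]; ring

lemma Good.smul {F : ℝ → Matrix P P ℂ} {f : ℂ → ℂ} (c : ℂ) (hF : Good t0 R' v w α μ F f) :
    Good t0 R' v w α μ (fun s => c • F s) (fun z => c • f z) := by
  have := (Good.const (t0 := t0) (R' := R') (v := v) (w := w) (α := α) (μ := μ) c).mul hF
  simpa only [smul_mul_assoc, one_mul, smul_eq_mul] using this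

lemma Good.pow {F : ℝ → Matrix P P ℂ} {f : ℂ → ℂ} (hF : Good t0 R' v w α μ F f) (n : ℕ) :
    Good t0 R' v w α μ (fun s => F s ^ n) (fun z => f z ^ n) := by
  induction n with
  | zero =>
    have := (Good.const (t0 := t0) (R' := R') (v := v) (w := w) (α := α) (μ := μ) 1)
    simpa only [pow_zero, one_smul] using this
  | succ n ih => simpa only [pow_succ] using ih.mul hF

lemma Good.sum {ι : Type*} (s : Finset ι) {F : ι → ℝ → Matrix P P ℂ} {f : ι → ℂ → ℂ}
    (h : ∀ i ∈ s, Good t0 R' v w α μ (F i) (f i)) :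
    Good t0 R' v w α μ (fun t => ∑ i ∈ s, F i t) (fun z => ∑ i ∈ s, f i z) := by
  classical
  induction s using Finset.induction_on with
  | empty =>
    have := (Good.const (t0 := t0) (R' := R') (v := v) (w := w) (α := α) (μ := μ) 0)
    simpa only [Finset.sum_empty, zero_smul] using this
  | insert a s ha ih =>
    have h1 := (h a (mem_insert_self a s)).add (ih fun i hi => h i (mem_insert_of_mem hi))
    simpa only [Finset.sum_insert ha] using h1

/-- the localising function preserves `Good` -/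
lemma Good.hB {R S : ℝ → Matrix P P ℂ} (hR : Good t0 R' v w α μ R (fun z => z))
    (hS : Good t0 R' v w α μ S (fun z => star z)) (n : ℕ) (a : ℕ → ℂ) (m : ℕ)
    (c : ℂ) :
    Good t0 R' v w α μ (fun t => GRLoc.hB n a m c (R t) (S t))
      (fun z => GRLoc.hB n a m c z (star z)) := by
  unfold GRLoc.hB uB
  refine hR.mul (Good.pow ?_ m)
  have h1 : Good t0 R' v w α μ (fun _ => (1 : Matrix P P ℂ)) (fun _ => (1 : ℂ)) := by
    have := (Good.const (t0 := t0) (R' := R') (v := v) (w := w) (α := α) (μ := μ) 1)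
    simpa only [one_smul] using this
  refine h1.add (Good.smul _ (Good.sum _ fun j _ => ?_))
  exact (Good.smul _ (hR.pow _)).add (Good.smul _ (hS.pow _))

/-- base cases: the curve itself and its inverse -/
lemma Good.base {R S : ℝ → Matrix P P ℂ} (hMD : MD R R' t0)
    (hU : R t0 ∈ Matrix.unitaryGroup P ℂ) (hS0 : S t0 = star (R t0))
    (hMDS : MD S (-(star (R t0) * R' * star (R t0))) t0)
    (hv : (R t0) *ᵥ v = exp (α * I) • v) (hw : (R t0) *ᵥ w = μ • w) (hμ : ‖μ‖ = 1) :
    Good t0 R' v w α μ R (fun z => z) ∧ Good t0 R' v w α μ S (fun z => star z) := by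
  have hlam : ‖exp (α * I)‖ = 1 := Complex.norm_exp_ofReal_mul_I α
  have hconj : ∀ z : ℂ, ‖z‖ = 1 → star z * z = 1 := by
    intro z hz
    rw [Complex.star_def, mul_comm, Complex.mul_conj, Complex.normSq_eq_norm_sq, hz]; simp
  have hUU : star (R t0) * R t0 = 1 := Matrix.mem_unitaryGroup_iff'.1 hU
  have hUU' : R t0 * star (R t0) = 1 := Matrix.mem_unitaryGroup_iff.1 hU
  -- action of the adjoint on eigenvectors
  have hadj : ∀ (x : P → ℂ) (z : ℂ), ‖z‖ = 1 → (R t0) *ᵥ x = z • x →
      (star (R t0)) *ᵥ x = star z • x := by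
    intro x z hz hx
    have h1 : star (R t0) *ᵥ (z • x) = x := by
      rw [← hx, Matrix.mulVec_mulVec, hUU, Matrix.one_mulVec]
    rw [Matrix.mulVec_smul] at h1
    calc (star (R t0)) *ᵥ x = (star z * z) • ((star (R t0)) *ᵥ x) := by rw [hconj z hz, one_smul]
      _ = star z • x := by rw [← smul_smul, h1]
  have hv' := hadj v _ hlam hv
  have hw' := hadj w _ hμ hw
  have hvl : star v ᵥ* (R t0) = exp (α * I) • star v := by
    have := congrArg star hv'
    rw [Matrix.star_mulVec, star_smul, star_star, Matrix.star_eq_conjTranspose,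
      Matrix.conjTranspose_conjTranspose] at this
    exact this
  have hvl' : star v ᵥ* (star (R t0)) = star (exp (α * I)) • star v := by
    have := congrArg star hv
    rw [Matrix.star_mulVec, star_smul] at this
    exact this
  have hexp : HasDerivAt (fun t : ℝ => exp (t * I)) (exp (α * I) * I) α := by
    have := ((hasDerivAt_id (α : ℂ)).mul_const I).cexp.comp_ofReal
    simpa using this
  constructor
  · refine ⟨R', 1, hMD, hvl, hw, by rw [one_mul], by ring, fun _ => ?_⟩
    simpa using hexp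
  · refine ⟨_, -(star (exp (α * I)) * star μ), hMDS, by rw [hS0]; exact hvl', by rw [hS0]; exact hw',
      ?_, ?_, ?_⟩
    · rw [Matrix.neg_mulVec, dotProduct_neg, ← Matrix.mulVec_mulVec, hw', Matrix.mulVec_smul,
        dotProduct_smul, ← Matrix.mulVec_mulVec, dotProduct_mulVec (star v) (star (R t0)), hvl',
        smul_dotProduct]
      simp only [smul_eq_mul]; ring
    · have e1 := hconj _ hlam
      have e2 := hconj _ hμ
      linear_combination (-star μ) * e1 + star (exp (α * I)) * e2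
    · intro h
      have := hexp.star
      refine this.congr_deriv ?_
      rw [← h, star_mul']
      have e1 := hconj _ hlam
      have : star I = -I := by rw [Complex.star_def, Complex.conj_I]
      rw [this]
      linear_combination (star (exp (α * I)) * I) * e1

end good

/-! ### the localising functions on unitary matrices -/

lemma hA_mulVec {R : Matrix P P ℂ} (hR : R ∈ Matrix.unitaryGroup P ℂ) {w : P → ℂ} {μ : ℂ}
    (hμ : ‖μ‖ = 1) (hw : R *ᵥ w = μ • w) (n : ℕ) (a : ℕ → ℂ) (m : ℕ) (s : ℝ) :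
    (hA n a m s R) *ᵥ w = hA n a m s μ • w := by
  obtain ⟨h1, h2⟩ := Good.base (t0 := 0) (R' := 0) (v := 0) (w := w) (α := 0) (μ := μ)
    (R := fun _ => R) (S := fun _ => star R) (MD.const R 0) hR rfl
    (by simpa using MD.const (star R) 0) (by simp) hw hμ
  obtain ⟨_, _, _, _, h, _⟩ := Good.hB h1 h2 n a m ((s / m : ℝ) : ℂ)
  exact h

lemma hA_diag {R V : Matrix P P ℂ} {d : P → ℂ} (hV : V ∈ Matrix.unitaryGroup P ℂ)
    (hd : ∀ p, ‖d p‖ = 1) (hR : R = V * Matrix.diagonal d * star V) (n : ℕ) (a : ℕ → ℂ) (m : ℕ)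
    (s : ℝ) :
    hA n a m s R = V * Matrix.diagonal (fun p => hA n a m s (d p)) * star V := by
  have hVV : V * star V = 1 := Matrix.mem_unitaryGroup_iff.1 hV
  have hVV' : star V * V = 1 := Matrix.mem_unitaryGroup_iff'.1 hV
  have hdm : Matrix.diagonal d ∈ Matrix.unitaryGroup P ℂ := by
    rw [Matrix.mem_unitaryGroup_iff, Matrix.star_eq_conjTranspose, Matrix.diagonal_conjTranspose,
      Matrix.diagonal_mul_diagonal]
    have : (fun i => d i * (star d) i) = fun _ => 1 := by
      funext i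
      show d i * star (d i) = 1
      rw [Complex.star_def, Complex.mul_conj, Complex.normSq_eq_norm_sq, hd i]; simp
    rw [this, Matrix.diagonal_one]
  have hRm : R ∈ Matrix.unitaryGroup P ℂ := by
    rw [hR]; exact mul_mem (mul_mem hV hdm) (Unitary.star_mem hV)
  have hRV : R * V = V * Matrix.diagonal d := by
    rw [hR, mul_assoc, hVV', mul_one]
  have hcol : ∀ q, R *ᵥ (fun p => V p q) = d q • (fun p => V p q) := by
    intro q
    ext p
    have := congrFun (congrFun hRV p) q
    rw [Matrix.mul_diagonal, Matrix.mul_apply] at this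
    simp only [Matrix.mulVec, dotProduct, Pi.smul_apply, smul_eq_mul]
    rw [mul_comm (d q)]
    exact this
  have h1 : hA n a m s R * V = V * Matrix.diagonal (fun p => hA n a m s (d p)) := by
    ext p q
    have := congrFun (hA_mulVec hRm (hd q) (hcol q) n a m s) p
    simp only [Matrix.mulVec, dotProduct, Pi.smul_apply, smul_eq_mul] at this
    rw [Matrix.mul_diagonal, Matrix.mul_apply, mul_comm (V p q)]
    exact this
  rw [← h1, mul_assoc, hVV, mul_one]

lemma hA_isUnit_det {R : Matrix P P ℂ} (hR : R ∈ Matrix.unitaryGroup P ℂ)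
    (n : ℕ) (a : ℕ → ℂ) (m : ℕ) (s : ℝ) : IsUnit (hA n a m s R).det := by
  obtain ⟨V, d, hV, hd, hRV⟩ := unitary_diag hR
  have hVV : V * star V = 1 := Matrix.mem_unitaryGroup_iff.1 hV
  rw [hA_diag hV hd hRV, Matrix.det_mul, Matrix.det_mul, Matrix.det_diagonal]
  have h1 : V.det * (star V).det = 1 := by rw [← Matrix.det_mul, hVV, Matrix.det_one]
  have h2 : (∏ p, hA n a m s (d p)) ≠ 0 := by
    rw [Finset.prod_ne_zero_iff]
    intro p _ h0
    have := one_le_norm_hA n a m s (hd p)
    rw [h0, norm_zero] at this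
    linarith
  rw [isUnit_iff_ne_zero]
  intro h0
  have h3 : (∏ p, hA n a m s (d p)) = 0 := by
    calc (∏ p, hA n a m s (d p)) = (V.det * (star V).det) * (∏ p, hA n a m s (d p)) := by
          rw [h1, one_mul]
      _ = V.det * (∏ p, hA n a m s (d p)) * (star V).det := by ring
      _ = 0 := h0
  exact h2 h3

section loc
variable {δ : ℝ} {n : ℕ} {a : ℕ → ℂ} {m : ℕ} {B b : ℝ}

/-- entries of the derivative of `h(R)` in an eigenbasis -/
lemma eig_bound (hL : LocFn δ n a m B b) {R S : ℝ → Matrix P P ℂ} {R' H' : Matrix P P ℂ} {t0 : ℝ}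
    (hU : R t0 ∈ Matrix.unitaryGroup P ℂ) (hMD : MD R R' t0) (hS0 : S t0 = star (R t0))
    (hMDS : MD S (-(star (R t0) * R' * star (R t0))) t0)
    (hH : MD (fun t => hB n a m ((1 / m : ℝ) : ℂ) (R t) (S t)) H' t0) {v w : P → ℂ} {ν μ : ℂ} (hν : ‖ν‖ = 1)
    (hμ : ‖μ‖ = 1) (hv : (R t0) *ᵥ v = ν • v) (hw : (R t0) *ᵥ w = μ • w) :
    ‖star v ⬝ᵥ (H' *ᵥ w)‖ ≤ B * ‖star v ⬝ᵥ (R' *ᵥ w)‖ ∧
      (ν.re ≤ Real.cos δ → μ.re ≤ Real.cos δ →
        ‖star v ⬝ᵥ (H' *ᵥ w)‖ ≤ b * ‖star v ⬝ᵥ (R' *ᵥ w)‖) := by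
  have hν' : exp (ν.arg * I) = ν := by
    have := Complex.norm_mul_exp_arg_mul_I ν
    rwa [hν, ofReal_one, one_mul] at this
  obtain ⟨h1, h2⟩ := Good.base (α := ν.arg) hMD hU hS0 hMDS (by rw [hν']; exact hv) hw hμ
  obtain ⟨F', fd, hF', _, _, k1, k2, k3⟩ := Good.hB h1 h2 n a m ((1 / m : ℝ) : ℂ)
  simp only [hB_eq_hA] at k2 k3
  have : F' = H' := hF'.unique hH
  subst this
  rw [k1, norm_mul]
  rw [hν'] at k2 k3
  by_cases hne : ν = μ
  · have k4 := k3 hne
    obtain ⟨g', hg1, hg2, hg3⟩ := hL.der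
    have k5 : fd * (ν * I) = g' ν.arg := k4.unique (hg1 ν.arg)
    have k6 : ‖fd‖ = ‖g' ν.arg‖ := by
      rw [← k5, norm_mul, norm_mul, hν, Complex.norm_I]; ring
    rw [k6]
    refine ⟨mul_le_mul_of_nonneg_right (hg2 _) (norm_nonneg _), fun h _ => ?_⟩
    refine mul_le_mul_of_nonneg_right (hg3 _ ?_) (norm_nonneg _)
    have : Real.cos ν.arg = ν.re := by
      conv_rhs => rw [← hν']
      rw [Complex.exp_ofReal_mul_I_re]
    rw [this]; exact h
  · have hpos : 0 < ‖ν - μ‖ := norm_pos_iff.2 (sub_ne_zero.2 hne)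
    have k4 : ‖fd‖ * ‖ν - μ‖ = ‖hA n a m 1 ν - hA n a m 1 μ‖ := by rw [← norm_mul, k2]
    constructor
    · refine mul_le_mul_of_nonneg_right ?_ (norm_nonneg _)
      have := hL.two ν μ hν hμ
      rw [← k4] at this
      exact le_of_mul_le_mul_right this hpos
    · intro e1 e2
      refine mul_le_mul_of_nonneg_right ?_ (norm_nonneg _)
      have := hL.off ν μ hν hμ e1 e2
      rw [← k4] at this
      exact le_of_mul_le_mul_right this hpos

/-- sum bound for a sesquilinear expression -/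
lemma norm_triple_le {N : ℝ} {x y : P → ℂ} {M : Matrix P P ℂ} {X Y : ℝ} (hX0 : 0 ≤ X)
    (hx : ∀ p, ‖x p‖ ≤ X) (hy : ∀ p, ‖y p‖ ≤ Y) (hM : ∀ p q, x p ≠ 0 → y q ≠ 0 → ‖M p q‖ ≤ N)
    (hN : 0 ≤ N) :
    ‖star x ⬝ᵥ (M *ᵥ y)‖ ≤ (Fintype.card P : ℝ) ^ 2 * (X * N * Y) := by
  have hterm : ∀ p q, ‖star (x p) * (M p q * y q)‖ ≤ X * N * Y := by
    intro p q
    have hY0 : 0 ≤ Y := (norm_nonneg _).trans (hy q)
    by_cases hp : x p = 0
    · rw [hp]; simp; positivity
    by_cases hq : y q = 0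
    · rw [hq]; simp; positivity
    rw [norm_mul, norm_mul, norm_star, mul_assoc]
    exact mul_le_mul (hx p) (mul_le_mul (hM p q hp hq) (hy q) (norm_nonneg _) hN)
      (by positivity) hX0
  calc ‖star x ⬝ᵥ (M *ᵥ y)‖ = ‖∑ p, ∑ q, star (x p) * (M p q * y q)‖ := by
        congr 1
        simp only [dotProduct, Matrix.mulVec, Finset.mul_sum, Pi.star_apply]
    _ ≤ ∑ p, ∑ q, ‖star (x p) * (M p q * y q)‖ :=
        (norm_sum_le _ _).trans (sum_le_sum fun p _ => norm_sum_le _ _)
    _ ≤ ∑ _p : P, ∑ _q : P, X * N * Y := sum_le_sum fun p _ => sum_le_sum fun q _ => hterm p q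
    _ = _ := by simp; ring

/-- **G7a**: the matrix localisation estimate. `A = H' h(R)⁻¹`. -/
theorem matrix_loc (hL : LocFn δ n a m B b) {R S : ℝ → Matrix P P ℂ} {R' H' : Matrix P P ℂ}
    {t0 : ℝ} (hU : R t0 ∈ Matrix.unitaryGroup P ℂ) (hMD : MD R R' t0) (hS0 : S t0 = star (R t0))
    (hMDS : MD S (-(star (R t0) * R' * star (R t0))) t0)
    (hH : MD (fun t => hB n a m ((1 / m : ℝ) : ℂ) (R t) (S t)) H' t0) {c : ℝ} (hc : ∀ p q, ‖R' p q‖ ≤ c) (hc0 : 0 ≤ c)
    {V : Matrix P P ℂ} {d : P → ℂ} (hV : V ∈ Matrix.unitaryGroup P ℂ) (hd : ∀ p, ‖d p‖ = 1)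
    (hRV : R t0 = V * Matrix.diagonal d * star V) {x y : P → ℂ} {X : ℝ} (hX0 : 0 ≤ X)
    (hx : ∀ p, ‖x p‖ ≤ X) (hy : ∀ p, ‖y p‖ ≤ X) :
    ‖star x ⬝ᵥ ((H' * (hA n a m 1 (R t0))⁻¹) *ᵥ y)‖
        ≤ (Fintype.card P : ℝ) ^ 6 * X ^ 2 * c * B ∧
      ((∀ p, Real.cos δ < (d p).re → (star V *ᵥ x) p = 0) →
       (∀ p, Real.cos δ < (d p).re → (star V *ᵥ y) p = 0) →
        ‖star x ⬝ᵥ ((H' * (hA n a m 1 (R t0))⁻¹) *ᵥ y)‖
          ≤ (Fintype.card P : ℝ) ^ 6 * X ^ 2 * c * b) := by
  have hVV : V * star V = 1 := Matrix.mem_unitaryGroup_iff.1 hV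
  have hVV' : star V * V = 1 := Matrix.mem_unitaryGroup_iff'.1 hV
  have hB0 : 0 ≤ B := hL.pos
  have hb0 := hL.nonneg
  have hVe : ∀ i j, ‖V i j‖ ≤ 1 := fun i j => entry_norm_bound_of_unitary hV i j
  have hcolV : ∀ q, (R t0) *ᵥ (fun p => V p q) = d q • (fun p => V p q) := by
    intro q
    have hRV' : R t0 * V = V * Matrix.diagonal d := by rw [hRV, mul_assoc, hVV', mul_one]
    ext p
    have := congrFun (congrFun hRV' p) q
    rw [Matrix.mul_diagonal, Matrix.mul_apply] at this
    simp only [Matrix.mulVec, dotProduct, Pi.smul_apply, smul_eq_mul]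
    rw [mul_comm (d q)]
    exact this
  -- inverse of h(R)
  have hdet := hA_isUnit_det hU n a m 1
  have hne : ∀ q, hA n a m 1 (d q) ≠ 0 := fun q h0 => by
    have := one_le_norm_hA n a m 1 (hd q)
    rw [h0, norm_zero] at this; linarith
  have hinvV : (hA n a m 1 (R t0))⁻¹ * V
      = V * Matrix.diagonal (fun q => (hA n a m 1 (d q))⁻¹) := by
    have h1 : hA n a m 1 (R t0) * V = V * Matrix.diagonal (fun q => hA n a m 1 (d q)) := by
      rw [hA_diag hV hd hRV, mul_assoc, hVV', mul_one]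
    have h2 : V * Matrix.diagonal (fun q => (hA n a m 1 (d q))⁻¹)
        = (hA n a m 1 (R t0))⁻¹ * (hA n a m 1 (R t0) *
          (V * Matrix.diagonal (fun q => (hA n a m 1 (d q))⁻¹))) := by
      rw [← mul_assoc, Matrix.nonsing_inv_mul _ hdet, one_mul]
    rw [h2, ← mul_assoc (hA n a m 1 (R t0)), h1, mul_assoc V, Matrix.diagonal_mul_diagonal]
    have h3 : (fun i => hA n a m 1 (d i) * (hA n a m 1 (d i))⁻¹) = fun _ => (1 : ℂ) := by
      funext i; exact mul_inv_cancel₀ (hne i)
    rw [h3, Matrix.diagonal_one, mul_one]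
  -- the matrix in the eigenbasis
  set Ah : Matrix P P ℂ := star V * H' * V * Matrix.diagonal (fun q => (hA n a m 1 (d q))⁻¹)
    with hAh
  have hA_eq : H' * (hA n a m 1 (R t0))⁻¹ = V * Ah * star V := by
    calc H' * (hA n a m 1 (R t0))⁻¹ = (V * star V) * (H' * ((hA n a m 1 (R t0))⁻¹ * V) * star V) := by
          rw [hVV, one_mul, mul_assoc H', mul_assoc _ V, hVV, mul_one]
      _ = _ := by rw [hinvV, hAh]; simp only [mul_assoc]
  have hsand : ∀ (M : Matrix P P ℂ) p q, (star V * M * V) p q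
      = star (fun i => V i p) ⬝ᵥ (M *ᵥ (fun i => V i q)) := by
    intro M p q
    rw [mul_assoc, Matrix.mul_apply]
    simp only [Matrix.star_apply, dotProduct, Pi.star_apply, Matrix.mulVec, Matrix.mul_apply]
  have hR'V : ∀ p q, ‖(star V * R' * V) p q‖ ≤ (Fintype.card P : ℝ) ^ 2 * c := by
    intro p q
    rw [hsand]
    have := norm_triple_le (x := fun i => V i p) (y := fun i => V i q) (M := R') (N := c)
      (X := 1) (Y := 1) zero_le_one (fun i => hVe i p) (fun i => hVe i q)
      (fun i j _ _ => hc i j) hc0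
    simpa using this
  have hinvle : ∀ q, ‖(hA n a m 1 (d q))⁻¹‖ ≤ 1 := by
    intro q
    rw [norm_inv]
    exact inv_le_one_of_one_le₀ (one_le_norm_hA n a m 1 (hd q))
  have hAhB : ∀ p q, ‖Ah p q‖ ≤ (Fintype.card P : ℝ) ^ 2 * c * B := by
    intro p q
    rw [hAh, Matrix.mul_diagonal, norm_mul, hsand]
    have h1 := (eig_bound hL hU hMD hS0 hMDS hH (hd p) (hd q) (hcolV p) (hcolV q)).1
    rw [← hsand R'] at h1
    have h2 := hR'V p q
    have h3 := hinvle q
    calc _ ≤ (B * ((Fintype.card P : ℝ) ^ 2 * c)) * 1 :=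
          mul_le_mul (h1.trans (by gcongr)) h3 (norm_nonneg _) (by positivity)
      _ = _ := by ring
  have hAhb : ∀ p q, (d p).re ≤ Real.cos δ → (d q).re ≤ Real.cos δ →
      ‖Ah p q‖ ≤ (Fintype.card P : ℝ) ^ 2 * c * b := by
    intro p q hp hq
    rw [hAh, Matrix.mul_diagonal, norm_mul, hsand]
    have h1 := (eig_bound hL hU hMD hS0 hMDS hH (hd p) (hd q) (hcolV p) (hcolV q)).2 hp hq
    rw [← hsand R'] at h1
    have h2 := hR'V p q
    have h3 := hinvle q
    calc _ ≤ (b * ((Fintype.card P : ℝ) ^ 2 * c)) * 1 :=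
          mul_le_mul (h1.trans (by gcongr)) h3 (norm_nonneg _) (by positivity)
      _ = _ := by ring
  have hform : star x ⬝ᵥ ((H' * (hA n a m 1 (R t0))⁻¹) *ᵥ y)
      = star (star V *ᵥ x) ⬝ᵥ (Ah *ᵥ (star V *ᵥ y)) := by
    rw [hA_eq, Matrix.star_mulVec, ← Matrix.mulVec_mulVec, ← Matrix.mulVec_mulVec,
      dotProduct_mulVec (star x) V, Matrix.star_eq_conjTranspose, Matrix.conjTranspose_conjTranspose]
  have hVx : ∀ (z : P → ℂ), (∀ p, ‖z p‖ ≤ X) → ∀ p, ‖(star V *ᵥ z) p‖ ≤ Fintype.card P * X := by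
    intro z hz p
    simp only [Matrix.mulVec, dotProduct, Matrix.star_apply]
    refine (norm_sum_le _ _).trans ?_
    have : ∀ i ∈ univ, ‖star (V i p) * z i‖ ≤ X := by
      intro i _
      rw [norm_mul, norm_star]
      calc ‖V i p‖ * ‖z i‖ ≤ 1 * X := mul_le_mul (hVe i p) (hz i) (norm_nonneg _) zero_le_one
        _ = X := one_mul X
    refine (sum_le_sum this).trans ?_
    simp
  rw [hform]
  constructor
  · have := norm_triple_le (x := star V *ᵥ x) (y := star V *ᵥ y) (M := Ah)
      (N := (Fintype.card P : ℝ) ^ 2 * c * B)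
      (X := Fintype.card P * X) (Y := Fintype.card P * X) (by positivity) (hVx x hx) (hVx y hy)
      (fun i j _ _ => hAhB i j) (by positivity)
    refine this.trans (le_of_eq (by ring))
  · intro hx1 hy1
    have := norm_triple_le (x := star V *ᵥ x) (y := star V *ᵥ y) (M := Ah)
      (N := (Fintype.card P : ℝ) ^ 2 * c * b)
      (X := Fintype.card P * X) (Y := Fintype.card P * X) (by positivity) (hVx x hx) (hVx y hy)
      (fun i j hi hj => hAhb i j ?_ ?_) (by positivity)
    · refine this.trans (le_of_eq (by ring))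
    · by_contra h
      push Not at h
      exact hi (hx1 i h)
    · by_contra h
      push Not at h
      exact hj (hy1 j h)

end loc

end Crest.Agent.R174.GRLoc
end

-- ▼ part R174/GRLoc3
section

/-!
# R174, P3 (GR): `LocFam` and `DiagProp` (interface of `GRLocDef`)
-/

set_option autoImplicit false
open scoped Matrix.Norms.L2Operator

namespace Crest.Agent.R174.GRLoc

open Complex Finset Matrix

variable {N : Type} [Fintype N] [DecidableEq N]

theorem diagProp (N : Type) [Fintype N] [DecidableEq N] : GR.DiagProp N := by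
  intro Z hZ
  obtain ⟨V, d, hV, hd, h⟩ := unitary_diag (P := N) hZ
  exact ⟨V, hV, d, hd, h⟩

/-- the localising map -/
noncomputable def HH (n : ℕ) (a : ℕ → ℂ) (m : ℕ) (p : ℂ × Matrix N N ℂ) : Matrix N N ℂ :=
  hB n a m (p.1 / m) p.2 (Ring.inverse p.2)

lemma isUnit_of_unitary {Z : Matrix N N ℂ} (hZ : Z ∈ unitary (Matrix N N ℂ)) : IsUnit Z :=
  ⟨⟨Z, star Z, hZ.2, hZ.1⟩, rfl⟩

lemma inverse_of_unitary {Z : Matrix N N ℂ} (hZ : Z ∈ unitary (Matrix N N ℂ)) :
    Ring.inverse Z = star Z := by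
  have : Ring.inverse ((⟨Z, star Z, hZ.2, hZ.1⟩ : (Matrix N N ℂ)ˣ) : Matrix N N ℂ) = star Z := by
    rw [Ring.inverse_unit]; rfl
  exact this

lemma contDiffAt_HH (n : ℕ) (a : ℕ → ℂ) (m : ℕ) (s : ℂ) {Z : Matrix N N ℂ} (hZ : IsUnit Z) :
    ContDiffAt ℂ ⊤ (HH (N := N) n a m) (s, Z) := by
  unfold HH hB uB
  obtain ⟨u, rfl⟩ := hZ
  have h1 : ContDiffAt ℂ ⊤ (fun p : ℂ × Matrix N N ℂ => p.2) (s, (u : Matrix N N ℂ)) :=
    contDiffAt_snd
  have h0 : ContDiffAt ℂ ⊤ (fun p : ℂ × Matrix N N ℂ => p.1) (s, (u : Matrix N N ℂ)) :=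
    contDiffAt_fst
  have h2 : ContDiffAt ℂ ⊤ (fun p : ℂ × Matrix N N ℂ => Ring.inverse p.2) (s, (u : Matrix N N ℂ)) :=
    ContDiffAt.comp (g := Ring.inverse) (f := fun p : ℂ × Matrix N N ℂ => p.2)
      (s, (u : Matrix N N ℂ)) (contDiffAt_ringInverse ℂ u) h1
  have h3 : ContDiffAt ℂ ⊤ (fun p : ℂ × Matrix N N ℂ => ∑ j ∈ range n,
      (a j • p.2 ^ (j + 1) + star (a j) • Ring.inverse p.2 ^ (j + 1))) (s, (u : Matrix N N ℂ)) := by
    refine ContDiffAt.sum fun j _ => ?_
    exact ((h1.pow _).const_smul _).add ((h2.pow _).const_smul _)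
  have h4 : ContDiffAt ℂ ⊤ (fun p : ℂ × Matrix N N ℂ => (p.1 / m * I)) (s, (u : Matrix N N ℂ)) :=
    (h0.div_const _).mul contDiffAt_const
  have h5 : ContDiffAt ℂ ⊤ (fun p : ℂ × Matrix N N ℂ => (1 : Matrix N N ℂ) + (p.1 / m * I) •
      ∑ j ∈ range n, (a j • p.2 ^ (j + 1) + star (a j) • Ring.inverse p.2 ^ (j + 1)))
      (s, (u : Matrix N N ℂ)) := contDiffAt_const.add (h4.smul h3)
  exact h1.mul (h5.pow m)

lemma HH_zero (n : ℕ) (a : ℕ → ℂ) (m : ℕ) (Z : Matrix N N ℂ) : HH n a m (0, Z) = Z := by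
  unfold HH hB
  simp

lemma HH_unitary (n : ℕ) (a : ℕ → ℂ) (m : ℕ) (s : ℝ) {Z : Matrix N N ℂ}
    (hZ : Z ∈ unitary (Matrix N N ℂ)) : HH n a m ((s : ℂ), Z) = hA n a m s Z := by
  unfold HH
  rw [inverse_of_unitary hZ, ← hB_eq_hA]
  push_cast
  rfl

lemma isUnit_HH (n : ℕ) (a : ℕ → ℂ) (m : ℕ) (s : ℝ) {Z : Matrix N N ℂ}
    (hZ : Z ∈ unitary (Matrix N N ℂ)) : IsUnit (HH n a m ((s : ℂ), Z)) := by
  rw [HH_unitary n a m s hZ, Matrix.isUnit_iff_isUnit_det]
  exact hA_isUnit_det hZ n a m s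

/-- entries of a matrix as continuous linear functionals -/
lemma norm_entry_le (A : Matrix N N ℂ) (i j : N) : ‖A i j‖ ≤ ‖A‖ := by
  have h := Matrix.l2_opNorm_mulVec A (WithLp.toLp 2 (Pi.single j (1:ℂ)))
  have h1 : ‖(WithLp.toLp 2 (Pi.single j (1:ℂ)) : EuclideanSpace ℂ N)‖ = 1 := by
    simp
  rw [h1, mul_one] at h
  refine le_trans ?_ h
  have h2 := PiLp.norm_apply_le (p := 2) ((EuclideanSpace.equiv N ℂ).symm
    (A *ᵥ (WithLp.toLp 2 (Pi.single j (1:ℂ)) : EuclideanSpace ℂ N))) i
  simpa using h2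

lemma exists_entry_const (N : Type) [Fintype N] [DecidableEq N] :
    ∃ K : ℝ, 0 < K ∧ ∀ (A : Matrix N N ℂ) (c : ℝ), 0 ≤ c → (∀ i j, ‖A i j‖ ≤ c) → ‖A‖ ≤ K * c := by
  let e : (N → N → ℂ) →ₗ[ℂ] Matrix N N ℂ := (Matrix.ofLinearEquiv ℂ : (N → N → ℂ) ≃ₗ[ℂ] Matrix N N ℂ)
  let e' := LinearMap.toContinuousLinearMap e
  refine ⟨‖e'‖ + 1, by positivity, fun A c hc h => ?_⟩
  have h1 : ‖e' (fun i j => A i j)‖ ≤ ‖e'‖ * ‖(fun i j => A i j : N → N → ℂ)‖ := e'.le_opNorm _
  have h2 : e' (fun i j => A i j) = A := rfl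
  rw [h2] at h1
  have h3 : ‖(fun i j => A i j : N → N → ℂ)‖ ≤ c :=
    (pi_norm_le_iff_of_nonneg hc).2 fun i => (pi_norm_le_iff_of_nonneg hc).2 fun j => h i j
  calc ‖A‖ ≤ ‖e'‖ * c := h1.trans (mul_le_mul_of_nonneg_left h3 (norm_nonneg _))
    _ ≤ (‖e'‖ + 1) * c := by nlinarith

/-- the derivative data of `HH` along `Z + t X Z` -/
lemma HH_curve (n : ℕ) (a : ℕ → ℂ) (m : ℕ) {Z : Matrix N N ℂ} (hZ : Z ∈ unitary (Matrix N N ℂ))
    (X : Matrix N N ℂ) :
    MD (fun t : ℝ => Z + (t : ℂ) • (X * Z)) (X * Z) 0 ∧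
    MD (fun t : ℝ => Ring.inverse (Z + (t : ℂ) • (X * Z))) (-(star Z * (X * Z) * star Z)) 0 ∧
    MD (fun t : ℝ => hB n a m ((1 / m : ℝ) : ℂ) (Z + (t : ℂ) • (X * Z))
      (Ring.inverse (Z + (t : ℂ) • (X * Z))))
      (fderiv ℂ (fun Y : Matrix N N ℂ => HH n a m (1, Y)) Z (X * Z)) 0 := by
  have hc : HasDerivAt (fun t : ℂ => Z + t • (X * Z)) (X * Z) 0 := by
    have := ((hasDerivAt_id (0 : ℂ)).smul_const (X * Z)).const_add Z
    simpa using this
  -- from a Frechet derivative at Z to entrywise real derivatives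
  have key : ∀ (Φ : Matrix N N ℂ → Matrix N N ℂ) (L : Matrix N N ℂ →L[ℂ] Matrix N N ℂ),
      HasFDerivAt Φ L Z → MD (fun t : ℝ => Φ (Z + (t : ℂ) • (X * Z))) (L (X * Z)) 0 := by
    intro Φ L hL i j
    have hL' : HasFDerivAt Φ L (Z + (0 : ℂ) • (X * Z)) := by simpa using hL
    have h1 : HasDerivAt (fun t : ℂ => Φ (Z + t • (X * Z))) (L (X * Z)) 0 :=
      HasFDerivAt.comp_hasDerivAt (0 : ℂ) hL' hc
    let pr : Matrix N N ℂ →ₗ[ℂ] ℂ := Matrix.entryLinearMap ℂ ℂ i j
    let pr' := LinearMap.toContinuousLinearMap pr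
    have h2 : HasDerivAt (fun t : ℂ => pr' (Φ (Z + t • (X * Z)))) (pr' (L (X * Z))) 0 :=
      HasFDerivAt.comp_hasDerivAt (0 : ℂ) pr'.hasFDerivAt h1
    have h3 : HasDerivAt (fun t : ℂ => pr' (Φ (Z + t • (X * Z)))) (pr' (L (X * Z))) ((0 : ℝ) : ℂ) := by
      simpa using h2
    exact h3.comp_ofReal
  refine ⟨?_, ?_, ?_⟩
  · have := key (fun Y => Y) (ContinuousLinearMap.id ℂ _) (hasFDerivAt_id Z)
    simpa using this
  · let u : (Matrix N N ℂ)ˣ := ⟨Z, star Z, hZ.2, hZ.1⟩
    have h1 := hasFDerivAt_ringInverse (𝕜 := ℂ) u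
    have := key _ _ h1
    simpa [u, mul_assoc] using this
  · have hd : DifferentiableAt ℂ (fun Y : Matrix N N ℂ => HH n a m (1, Y)) Z := by
      have h1 := contDiffAt_HH n a m 1 (isUnit_of_unitary hZ)
      have h2 : ContDiffAt ℂ ⊤ (fun Y : Matrix N N ℂ => ((1 : ℂ), Y)) Z :=
        contDiffAt_const.prodMk contDiffAt_id
      exact (ContDiffAt.comp Z h1 h2).differentiableAt (by simp)
    have := key _ _ hd.hasFDerivAt
    refine Eq.mp ?_ this
    congr 1
    funext t
    unfold HH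
    push_cast
    rfl

/-- a constant for the size `N` -/
theorem exists_const (N : Type) [Fintype N] [DecidableEq N] :
    ∃ K : ℝ, 0 ≤ K ∧ ∀ (K' : ℝ), K ≤ K' → ∀ (δ δ' : ℝ), 0 < δ' → δ' ≤ δ →
      ∀ (n : ℕ) (a : ℕ → ℂ) (m : ℕ) (B b : ℝ), LocFn δ' n a m B b →
        GR.LocData N K' δ B b (HH n a m) := by
  obtain ⟨K, hK0, hK⟩ := exists_entry_const N
  set c6 : ℝ := (Fintype.card N : ℝ) ^ 6 with hc6
  have hc60 : 0 ≤ c6 := by positivity
  refine ⟨(K + 1) * c6, by positivity, fun K' hK' δ δ' hδ'0 hδ'2 n a m B b hL => ?_⟩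
  have hb0 := hL.nonneg
  have hB0 := hL.pos
  have hKc : K * c6 ≤ K' := by nlinarith
  have hc6K : c6 ≤ K' := by nlinarith
  refine ⟨fun s _ Z hZ => contDiffAt_HH n a m _ (isUnit_of_unitary hZ),
    fun s _ Z hZ => isUnit_HH n a m s hZ, HH_zero n a m, ?_, ?_⟩
  · intro Z hZ X
    obtain ⟨V, d, hV, hd, hZV⟩ := unitary_diag (P := N) hZ
    obtain ⟨m1, m2, m3⟩ := HH_curve n a m hZ X
    have hZn : ‖Z‖ ≤ 1 := by
      rcases isEmpty_or_nonempty N with h | h
      · have : Z = 0 := by ext i; exact isEmptyElim i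
        rw [this]; simp
      · exact (CStarRing.norm_of_mem_unitary hZ).le
    have hXZ : ∀ i j, ‖(X * Z) i j‖ ≤ ‖X‖ := fun i j =>
      (norm_entry_le _ i j).trans ((norm_mul_le _ _).trans (by nlinarith [norm_nonneg X]))
    have hinv : Ring.inverse (HH n a m (1, Z)) = (hA n a m 1 Z)⁻¹ := by
      have := HH_unitary n a m 1 hZ
      rw [Complex.ofReal_one] at this
      rw [this, Matrix.nonsing_inv_eq_ringInverse]
    have hZ0 : Z + ((0 : ℝ) : ℂ) • (X * Z) = Z := by simp
    rw [hinv]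
    refine (hK _ (c6 * ‖X‖ * B) (by positivity) fun i j => ?_).trans ?_
    swap
    · calc K * (c6 * ‖X‖ * B) = (K * c6) * (B * ‖X‖) := by ring
        _ ≤ K' * (B * ‖X‖) := mul_le_mul_of_nonneg_right hKc (by positivity)
        _ = _ := by ring
    have hml := matrix_loc hL (R := fun t : ℝ => Z + (t : ℂ) • (X * Z))
      (S := fun t : ℝ => Ring.inverse (Z + (t : ℂ) • (X * Z))) (t0 := 0)
      (by simp only [hZ0]; exact hZ) m1 (by simp only [hZ0]; exact inverse_of_unitary hZ)
      (by simp only [hZ0]; exact m2) m3 hXZ (norm_nonneg X) hV hd (by simp only [hZ0]; exact hZV)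
      (x := Pi.single i 1) (y := Pi.single j 1) (X := 1) zero_le_one
      (fun p => by
        by_cases hp : p = i
        · subst hp; simp
        · simp [hp]) (fun p => by
        by_cases hp : p = j
        · subst hp; simp
        · simp [hp])
    have h1 := hml.1
    simp only [hZ0] at h1
    have h2 : star (Pi.single i (1:ℂ) : N → ℂ) ⬝ᵥ
        ((fderiv ℂ (fun Y : Matrix N N ℂ => HH n a m (1, Y)) Z (X * Z) * (hA n a m 1 Z)⁻¹) *ᵥ
          Pi.single j 1)
        = (fderiv ℂ (fun Y : Matrix N N ℂ => HH n a m (1, Y)) Z (X * Z) * (hA n a m 1 Z)⁻¹) i j := by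
      rw [Matrix.mulVec_single_one]
      have : star (Pi.single i (1:ℂ) : N → ℂ) = Pi.single i 1 := by
        ext p
        by_cases hp : p = i
        · subst hp; simp
        · simp [hp]
      rw [this, single_one_dotProduct]
      rfl
    rw [h2] at h1
    refine h1.trans (le_of_eq (by ring))
  · intro Z hZ W hW d hZW X w hw
    -- modulus one
    have hd : ∀ p, ‖d p‖ = 1 := by
      have hWW : star W * W = 1 := hW.1
      have hD : Matrix.diagonal d = star W * Z * W := by
        rw [hZW]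
        simp only [mul_assoc]
        rw [hWW, mul_one, ← mul_assoc, hWW, one_mul]
      have hDm : Matrix.diagonal d ∈ unitary (Matrix N N ℂ) := by
        rw [hD]
        exact mul_mem (mul_mem (Unitary.star_mem hW) hZ) hW
      intro p
      have h3 := congrFun (congrFun hDm.2 p) p
      rw [Matrix.star_eq_conjTranspose, Matrix.diagonal_conjTranspose, Matrix.diagonal_mul_diagonal,
        Matrix.diagonal_apply_eq, Matrix.one_apply_eq] at h3
      have h4 : d p * star (d p) = 1 := h3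
      rw [Complex.star_def, Complex.mul_conj, Complex.normSq_eq_norm_sq] at h4
      have h5 : ‖d p‖ ^ 2 = 1 := by exact_mod_cast h4
      nlinarith [norm_nonneg (d p)]
    obtain ⟨m1, m2, m3⟩ := HH_curve n a m hZ X
    have hZn : ‖Z‖ ≤ 1 := by
      rcases isEmpty_or_nonempty N with h | h
      · have : Z = 0 := by ext i; exact isEmptyElim i
        rw [this]; simp
      · exact (CStarRing.norm_of_mem_unitary hZ).le
    have hXZ : ∀ i j, ‖(X * Z) i j‖ ≤ ‖X‖ := fun i j =>
      (norm_entry_le _ i j).trans ((norm_mul_le _ _).trans (by nlinarith [norm_nonneg X]))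
    have hinv : Ring.inverse (HH n a m (1, Z)) = (hA n a m 1 Z)⁻¹ := by
      have := HH_unitary n a m 1 hZ
      rw [Complex.ofReal_one] at this
      rw [this, Matrix.nonsing_inv_eq_ringInverse]
    have hZ0 : Z + ((0 : ℝ) : ℂ) • (X * Z) = Z := by simp
    rw [hinv]
    have hS0 : 0 ≤ ∑ j, ‖w j‖ ^ 2 := sum_nonneg fun j _ => by positivity
    have hwle : ∀ p, ‖w p‖ ≤ Real.sqrt (∑ j, ‖w j‖ ^ 2) := by
      intro p
      apply Real.le_sqrt_of_sq_le
      exact single_le_sum (f := fun j => ‖w j‖ ^ 2) (fun j _ => by positivity) (mem_univ p)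
    have hml := (matrix_loc hL (R := fun t : ℝ => Z + (t : ℂ) • (X * Z))
      (S := fun t : ℝ => Ring.inverse (Z + (t : ℂ) • (X * Z))) (t0 := 0)
      (by simp only [hZ0]; exact hZ) m1 (by simp only [hZ0]; exact inverse_of_unitary hZ)
      (by simp only [hZ0]; exact m2) m3 hXZ (norm_nonneg X) hW hd (by simp only [hZ0]; exact hZW)
      (x := w) (y := w) (Real.sqrt_nonneg _) hwle hwle).2
    simp only [hZ0] at hml
    have harc : ∀ p, Real.cos δ' < (d p).re → (star W *ᵥ w) p = 0 := by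
      intro p hp
      apply hw p
      have h1 : ‖d p - 1‖ ^ 2 = 2 - 2 * (d p).re := by
        have h2 := hd p
        have h3 : (d p).re ^ 2 + (d p).im ^ 2 = 1 := by
          have := Complex.sq_norm (d p)
          rw [h2, Complex.normSq_apply] at this
          nlinarith
        rw [Complex.sq_norm, Complex.normSq_apply]
        simp only [Complex.sub_re, Complex.one_re, Complex.sub_im, Complex.one_im, sub_zero]
        nlinarith
      have h4 := Real.one_sub_sq_div_two_le_cos (x := δ')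
      have h5 : ‖d p - 1‖ ^ 2 < δ' ^ 2 := by rw [h1]; linarith
      have h6 : ‖d p - 1‖ < δ' := lt_of_pow_lt_pow_left₀ 2 hδ'0.le h5
      linarith
    have h7 := hml harc harc
    refine h7.trans ?_
    rw [Real.sq_sqrt hS0]
    calc (Fintype.card N : ℝ) ^ 6 * (∑ j, ‖w j‖ ^ 2) * ‖X‖ * b
        = c6 * (b * ‖X‖ * ∑ j, ‖w j‖ ^ 2) := by rw [hc6]; ring
      _ ≤ K' * (b * ‖X‖ * ∑ j, ‖w j‖ ^ 2) := mul_le_mul_of_nonneg_right hc6K (by positivity)
      _ = _ := by ring

theorem locFam {ι : Type} [Fintype ι] (N : ι → Type) [∀ x, Fintype (N x)]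
    [∀ x, DecidableEq (N x)] : GR.LocFam N := by
  have hπ := Real.pi_pos
  choose K hK0 hK using fun x => exists_const (N x)
  refine ⟨∑ x, K x, fun δ hδ D ε hε => ?_⟩
  set δ' : ℝ := min δ (Real.pi / 2) with hδ'
  have hδ'0 : 0 < δ' := by rw [hδ']; positivity
  have hδ'1 : δ' ≤ Real.pi / 2 := min_le_right _ _
  have hδ'2 : δ' ≤ δ := min_le_left _ _
  obtain ⟨B, hB0, hB⟩ := exists_locFn hδ'0 hδ'1
  set B' : ℝ := max 1 B with hB'
  have hB'1 : 1 ≤ B' := le_max_left _ _
  have hB'B : B ≤ B' := le_max_right _ _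
  have hB'pos : 0 < B' := by linarith
  obtain ⟨n, a, m, b, hL, hb⟩ := hB (ε / B' ^ D) (by positivity)
  refine ⟨B', b, hB'1, hL.nonneg, ?_, fun x => ⟨HH n a m, ?_⟩⟩
  · rw [le_div_iff₀ (by positivity)] at hb
    linarith
  · refine hK x _ (single_le_sum (f := K) (fun x _ => hK0 x) (mem_univ x)) δ δ' hδ'0 hδ'2
      n a m B' b ⟨hB'pos.le, hL.nonneg, ?_, ?_, hL.off⟩
    · obtain ⟨g', h1, h2, h3⟩ := hL.der
      exact ⟨g', h1, fun θ => (h2 θ).trans hB'B, h3⟩
    · intro z w hz hw
      exact (hL.two z w hz hw).trans (mul_le_mul_of_nonneg_right hB'B (norm_nonneg _))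

end Crest.Agent.R174.GRLoc
end

-- ▼ part R174/GRMain
section

/-! # R174 P3: the unitary Gerstenhaber-Rothaus theorem (GR). -/

set_option autoImplicit false
open scoped Matrix.Norms.L2Operator

noncomputable section

namespace Crest.Agent.R174.GR.MainP

open Crest.Agent.R174.GR Crest.Agent.R174.GR.T4P

variable {ι A Q : Type} [Fintype ι] [LinearOrder ι] [Fintype A] [DecidableEq A]
  [Fintype Q] [DecidableEq Q]

theorem gr_of (S : Sys ι A Q) (h2 : T2 S.KA S.VA) (h3 : T3 S) (h4 : T4 S) : GR S := by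
  classical
  intro htri hdiag M hM
  by_contra hcon
  push Not at hcon
  have hq0 : ∀ x : ι, ∃ q : Q, S.rel q = x ∧ S.var q = x := by
    intro x
    by_contra hne
    push Not at hne
    apply hdiag x
    unfold Sys.E
    refine Finset.sum_eq_zero fun q _ => ?_
    rw [if_neg]
    rintro ⟨h1, h2⟩
    exact hne q h1 h2
  choose q0 hq using hq0
  have e4 := h4 M hM hcon q0 hq
  have e3 := h3 htri hdiag q0 hq
  have e2 := h2 (S.refR q0 hq) S.Jm (star M) (Unitary.star_mem hM) (fun σ hσ =>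
    (S.Jm_contDiffAt 1 (fun i => isUnit_of_unitary (pi_unitary.1 hσ i))).differentiableAt
      (by norm_num))
  exact e3 (e2.symm.trans e4)

/-- The unitary Gerstenhaber-Rothaus theorem for triangular systems. -/
theorem gr (S : Sys ι A Q) : GR S :=
  gr_of S Crest.Agent.R174.GRHaar.t2 (Crest.Agent.R174.GR.t3 S)
    (t4 S Crest.Agent.R174.HInv.t1 (Crest.Agent.R174.GRHaar.t0 S)
      (Crest.Agent.R174.GRLoc.locFam _) (fun _ => Crest.Agent.R174.GRLoc.diagProp _))

end Crest.Agent.R174.GR.MainP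
end
end

-- ▼ part R174/Final83
section

set_option autoImplicit false

/-!
# R174, W7b (helper83): final assembly of the key statement
-/

open scoped Matrix.Norms.L2Operator
open Monoid Finset
open Crest.Agent.R174.Red Crest.Agent.R174.GR

namespace Crest.Agent.R174.Glue

universe u

/-- `imT` from a list of cycle terms -/
lemma im_sum_cterm {G : Type u} [Group G] (c : List ℕ) (hc : ∀ k ∈ c, 0 < k) (δ θ : ℝ) (q : ℕ) :
    ((Complex.exp (2 * Real.pi * Complex.I * δ)) ^ q *
      (c.map fun k => WD.cterm k (1 : G) (Complex.exp (2 * Real.pi * Complex.I * θ)) q).sum).im =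
    Lim.imT (fun v : Fin c.length => c.get v) (fun _ => 1) (fun v => (c.get v : ℝ) * δ + θ) q := by
  rw [← Fin.sum_univ_fun_getElem, mul_sum, Complex.im_sum]
  unfold Lim.imT
  apply sum_congr rfl
  intro v _
  have h := im_cterm (G := G) (c.get v) (hc _ (List.get_mem c v)) 1 δ θ q
  rw [orderOf_one] at h
  exact h

/-- with the extra cycle -/
lemma im_sum_cterm_some {G : Type u} [Group G] (c : List ℕ) (hc : ∀ k ∈ c, 0 < k) (c0 : ℕ)
    (hc0 : 0 < c0) (g : G) (δ θ θ0 : ℝ) (q : ℕ) :
    ((Complex.exp (2 * Real.pi * Complex.I * δ)) ^ q *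
      (WD.cterm c0 g (Complex.exp (2 * Real.pi * Complex.I * θ0)) q +
      (c.map fun k => WD.cterm k (1 : G) (Complex.exp (2 * Real.pi * Complex.I * θ)) q).sum)).im =
    Lim.imT (fun v : Option (Fin c.length) => v.elim c0 c.get)
      (fun v => v.elim (orderOf g) (fun _ => 1))
      (fun v => v.elim ((c0 : ℝ) * δ + θ0) (fun v => (c.get v : ℝ) * δ + θ)) q := by
  rw [mul_add, Complex.add_im, im_sum_cterm c hc, im_cterm c0 hc0]
  unfold Lim.imT
  rw [Fintype.sum_option]
  rfl

/-- the real arithmetic at the end -/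
lemma final_arith (N F lX lY d : ℕ) (hN : 0 < N) (hX : 2 * lX = N) (hY : 2 * lY + 4 * F = N + 2)
    (h : (lY : ℝ) / 2 - N * (1 / (16 * (N : ℝ) ^ 2)) ≤
      -(((lX + 1 : ℕ) : ℝ) - 1) * (1 / 2 - 1 / (4 * N)) + 1 / 4 + ((lX : ℝ) - d)) : d < F := by
  have hNr : (0 : ℝ) < N := by exact_mod_cast hN
  have hN1 : (1 : ℝ) ≤ N := by exact_mod_cast hN
  have e1 : (N : ℝ) * (1 / (16 * (N : ℝ) ^ 2)) = 1 / (16 * N) := by field_simp
  have e2 : (lX : ℝ) = N / 2 := by
    have : (2 : ℝ) * lX = N := by exact_mod_cast hX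
    linarith
  have e3 : (lY : ℝ) = N / 2 + 1 - 2 * F := by
    have : (2 : ℝ) * lY + 4 * F = N + 2 := by exact_mod_cast hY
    linarith
  rw [e1] at h
  push_cast at h
  rw [e2, e3] at h
  have e4 : -((N : ℝ) / 2 + 1 - 1) * (1 / 2 - 1 / (4 * N)) = -(N / 4) + 1 / 8 := by
    field_simp
    ring
  rw [e4] at h
  have e5 : (1 : ℝ) / (16 * N) ≤ 1 / 16 := by
    apply one_div_le_one_div_of_le (by norm_num)
    linarith
  have h2 : (d : ℝ) < F := by linarith
  exact_mod_cast h2

section

variable {G : Type u} [Group G] {n : ℕ}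

set_option synthInstance.maxSize 1000 in
/-- the key inequality: all `σ` have a small kernel -/
theorem small_kernel (W : Fin n → List (G × Fin n × Bool)) (f : Fin n → ℕ)
    (hW : ∀ i, 0 < (W i).length) (st : Ka f → List (G × Fin n × Bool))
    (hst : ∀ k, 0 < (st k).length) (ord : List (Ka f)) (hnd : ord.Nodup)
    (hall : ∀ k, k ∈ ord) (hne : ord ≠ [])
    (ha0 : ∀ k, (blk W f hW st hst ord hnd hall).a0 k = 1) (g : G) (hg : g ≠ 1)
    (hval : (ord.map (blk W f hW st hst ord hnd hall).val).prod = Coprod.inl g)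
    (hW4 : W4 W f hW st hst ord hnd hall) :
    ∃ M : ∀ x, Matrix ((sys W f).Po x ⊕ St f st x) ((sys W f).Po x ⊕ St f st x) ℂ,
      (∀ x, M x ∈ Matrix.unitaryGroup _ ℂ) ∧
      ∀ σ : (sys W f).KA, σ ∈ unitary (sys W f).KA →
        Module.finrank ℂ (LinearMap.ker (Matrix.mulVecLin
          (Jbig (sys W f) (St f st) σ - Matrix.blockDiagonal' M))) < ∑ i, f i := by
  set B := blk W f hW st hst ord hnd hall with hB
  set N : ℕ := Fintype.card B.Pos with hN
  obtain ⟨k0, hk0⟩ : ∃ k, k ∈ ord := List.exists_mem_of_ne_nil ord hne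
  have hN0 : 0 < N := Fintype.card_pos_iff.2 ⟨B.up k0 (B.r0 k0)⟩
  set ε : ℝ := 1 / (4 * N) with hε
  set δ : ℝ := 1 / (16 * (N : ℝ) ^ 2) with hδ
  have hNr : (0 : ℝ) < N := by exact_mod_cast hN0
  have hN1 : (1 : ℝ) ≤ N := by exact_mod_cast hN0
  set ω : ℂ := Complex.exp (2 * Real.pi * Complex.I * ((-ε : ℝ) : ℂ)) with hω
  have hωs : star ω = Complex.exp (2 * Real.pi * Complex.I * (ε : ℂ)) := by
    rw [hω, Complex.star_def, ← Complex.exp_conj]
    congr 1
    simp only [map_mul, Complex.conj_ofReal, Complex.conj_I, map_ofNat, Complex.ofReal_neg, map_neg]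
    ring
  have hωω : ω * star ω = 1 := by
    rw [hωs, hω, ← Complex.exp_add]
    rw [← Complex.exp_zero]
    congr 1
    push_cast
    ring
  obtain ⟨μ, z, hμz, c, c0, hc1, hc2, hc3, hc4, hc5⟩ :=
    WD.x_spec_blk B ha0 hne hval ω hωω
  have hunk : ∀ i, (ePos W f hW st hst ord hnd hall i).1.1 = B.unk i := by
    rintro ⟨k, j | j | j⟩ <;> rfl
  have hsgn : ∀ i, (ePos W f hW st hst ord hnd hall i).2 = B.sgn i := fun i => rfl
  obtain ⟨M, hM, hMM⟩ := mat_eq_anti (ePos W f hW st hst ord hnd hall) μ z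
    (fun i => (hμz i).1) (fun i => (hμz i).2.2.2.1) (fun i => (hμz i).2.2.2.2.2)
    (fun i => by rw [hunk, hunk]; exact (hμz i).2.1)
    (fun i => by rw [hsgn, hsgn]; exact (hμz i).2.2.1)
  refine ⟨M, hM, fun σ hσ => ?_⟩
  obtain ⟨cY, hY1, hY2, hY3, hY4⟩ := hW4 σ hσ
  -- the unitary shift with phase `u`
  set u : ℂ := Complex.exp (2 * Real.pi * Complex.I * (δ : ℂ)) with hu
  have hun : ‖u‖ = 1 := by
    have : u = Complex.exp (((2 * Real.pi * δ : ℝ) : ℂ) * Complex.I) := by
      rw [hu]; congr 1; push_cast; ring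
    rw [this, Complex.norm_exp_ofReal_mul_I]
  have hmono : ∀ (nx : B.Pos → B.Pos) (la : B.Pos → G) (ze : B.Pos → ℂ),
      WD.mono nx la (fun i => u * ze i) = u • WD.mono nx la ze := by
    intro nx la ze
    ext1 j i
    rw [Matrix.smul_apply, TrIneq.mono_apply, TrIneq.mono_apply]
    split_ifs
    · rw [MonoidAlgebra.smul_single, smul_eq_mul]
    · rw [smul_zero]
  have htr : ∀ (c : ℂ) (A : Matrix B.Pos B.Pos (MonoidAlgebra ℂ G)),
      WD.trG (c • A) = c * WD.trG A := by
    intro c A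
    rw [← TrIneq.trG_eq, ← TrIneq.trG_eq, map_smul, smul_eq_mul]
  set U : Matrix B.Pos B.Pos (MonoidAlgebra ℂ G) := WD.mono B.pred B.lab (fun _ => 1) with hU
  have hZ : WD.mono B.pred B.lab (fun _ => u) = u • U := by
    have := hmono B.pred B.lab (fun _ => 1)
    simpa using this
  have hZu : (u • U) * star (u • U) = 1 := by
    rw [← hZ]
    have h := TrIneq.mono_unitary (FlatK.predE B) B.lab (fun _ => u) (fun _ => hun)
    rwa [FlatK.coe_predE] at h
  -- the two unitaries
  have hJ : Jbig (sys W f) (St f st) σ ∈ Matrix.unitaryGroup _ ℂ := by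
    have h1 := (sys W f).Jm_unitary hσ
    have h2 : ∀ x, (sys W f).Jm σ x * star ((sys W f).Jm σ x) = 1 := fun x =>
      congrFun (Unitary.mul_star_self_of_mem h1) x
    unfold Jbig
    rw [Matrix.mem_unitaryGroup_iff, Matrix.star_eq_conjTranspose,
      Matrix.blockDiagonal'_conjTranspose, ← Matrix.blockDiagonal'_mul, ← Matrix.blockDiagonal'_one]
    congr 1
    funext x
    rw [Matrix.fromBlocks_conjTranspose, Matrix.fromBlocks_multiply]
    have h3 := h2 x
    rw [Matrix.star_eq_conjTranspose] at h3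
    simp only [Matrix.conjTranspose_zero, Matrix.mul_zero, Matrix.zero_mul, add_zero, zero_add,
      Matrix.conjTranspose_one, Matrix.mul_one, h3]
    exact Matrix.fromBlocks_one
  have hMb : Matrix.blockDiagonal' M ∈ Matrix.unitaryGroup _ ℂ := by
    rw [Matrix.mem_unitaryGroup_iff, Matrix.star_eq_conjTranspose,
      Matrix.blockDiagonal'_conjTranspose, ← Matrix.blockDiagonal'_mul, ← Matrix.blockDiagonal'_one]
    congr 1
    funext x
    exact Matrix.mem_unitaryGroup_iff.1 (hM x)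
  have hineq : ∀ K : ℕ, _ := fun K =>
    TrIneq.w5_blocks ((ePos W f hW st hst ord hnd hall).trans (eBool _))
      (GRLoc.diagProp _) hMb hJ hZu K
  -- cardinalities
  have hcard : 2 * Fintype.card (PP W f st) = N := by
    rw [hN, Fintype.card_congr (ePos W f hW st hst ord hnd hall), Fintype.card_prod,
      Fintype.card_bool]
    ring
  set d : ℕ := Module.finrank ℂ (LinearMap.ker (Matrix.mulVecLin
          (Jbig (sys W f) (St f st) σ - Matrix.blockDiagonal' M))) with hd
  -- powers of X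
  have hX : ∀ q, (WD.trG ((TrIneq.sc G (mat μ z) * (u • U)) ^ q)).im =
      Lim.imT (fun v : Option (Fin c.length) => v.elim c0 c.get)
      (fun v => v.elim (orderOf g) (fun _ => 1))
      (fun v => v.elim ((c0 : ℝ) * δ + c.length * ε) (fun v => (c.get v : ℝ) * δ + (-ε))) q := by
    intro q
    have h1 : TrIneq.sc G (mat μ z) * (u • U) =
        u • WD.mono (fun i => μ (B.pred i)) B.lab (fun i => z (B.pred i)) := by
      rw [mul_smul_comm]
      congr 1
      unfold mat
      rw [TrIneq.sc_mono, hU, TrIneq.mono_mul]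
      congr 1
      · funext i; simp
      · funext i; simp
    have h2 : (star ω) ^ c.length = Complex.exp (2 * Real.pi * Complex.I *
        ((c.length * ε : ℝ) : ℂ)) := by
      rw [hωs, ← Complex.exp_nat_mul]
      congr 1
      push_cast
      ring
    rw [h1, smul_pow, htr, hc5, h2, hω, hu]
    exact im_sum_cterm_some c hc2 c0 hc3 g δ (-ε) (c.length * ε) q
  have hY : ∀ q, (WD.trG ((TrIneq.sc G (anti (ePos W f hW st hst ord hnd hall)
          (Jbig (sys W f) (St f st) σ)) * (u • U)) ^ q)).im =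
      Lim.imT (fun v : Fin cY.length => cY.get v) (fun _ => 1)
        (fun v => (cY.get v : ℝ) * δ + 0) q := by
    intro q
    rw [mul_smul_comm, smul_pow, htr, hY4, hu]
    have := im_sum_cterm (G := G) cY hY1 δ 0 q
    simpa using this
  have hδ0 : 0 < δ := by rw [hδ]; positivity
  have hε0 : 0 < ε := by rw [hε]; positivity
  have hε1 : ε < 1 := by
    rw [hε, div_lt_one (by positivity)]
    linarith
  have hNδ : (N : ℝ) * δ < ε := by
    rw [hδ, hε]
    have e1 : (N : ℝ) * (1 / (16 * (N : ℝ) ^ 2)) = 1 / (16 * N) := by field_simp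
    rw [e1]
    apply one_div_lt_one_div_of_lt (by positivity)
    linarith
  have hle : ∀ (l : List ℕ) (v : Fin l.length), l.sum ≤ N → (l.get v : ℝ) * δ ≤ N * δ := by
    intro l v hl
    have h1 : l.get v ≤ l.sum := List.le_sum_of_mem (List.get_mem l v)
    have h2 : (l.get v : ℝ) ≤ N := by exact_mod_cast h1.trans hl
    exact mul_le_mul_of_nonneg_right h2 hδ0.le
  have hlim := limit_ineq' (none : Option (Fin c.length))
    (fun v : Option (Fin c.length) => v.elim c0 c.get)
    (fun v => v.elim (orderOf g) (fun _ => 1))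
    (fun v => v.elim ((c0 : ℝ) * δ + c.length * ε) (fun v => (c.get v : ℝ) * δ + (-ε)))
    (by
      rintro (_ | v)
      · exact hc3
      · exact hc2 _ (List.get_mem c v))
    (by
      rintro (_ | v) h
      · exact absurd rfl h
      · rfl)
    (by
      intro h
      exact hg (orderOf_eq_one_iff.1 h))
    ε hε1
    (by
      rintro (_ | v) h
      · exact absurd rfl h
      · refine ⟨ε - (c.get v : ℝ) * δ, ?_, ?_, ?_⟩
        · have := hle c v (by omega)
          linarith
        · have : (0 : ℝ) ≤ (c.get v : ℝ) * δ := by positivity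
          linarith
        · simp only [Option.elim]
          ring)
    (fun v : Fin cY.length => cY.get v) (fun v => (cY.get v : ℝ) * δ + 0)
    (fun v => hY1 _ (List.get_mem cY v))
    (fun v => by
      have h1 : (0 : ℝ) < cY.get v := by exact_mod_cast hY1 _ (List.get_mem cY v)
      positivity)
    (fun v => by
      have := hle cY v hY2.le
      linarith)
    ((Fintype.card (PP W f st) : ℝ) - d)
    (fun K _ => by
      have h := hineq K
      rw [TrIneq.SK_eq, TrIneq.SK_eq] at h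
      have h1 : (fun q => (WD.trG ((TrIneq.sc G (mat μ z) * (u • U)) ^ q)).im) =
        Lim.imT (fun v : Option (Fin c.length) => v.elim c0 c.get)
        (fun v => v.elim (orderOf g) (fun _ => 1))
        (fun v => v.elim ((c0 : ℝ) * δ + c.length * ε) (fun v => (c.get v : ℝ) * δ + (-ε))) :=
        funext hX
      have h2 := funext hY
      rw [← h1, ← h2]
      rw [hMM]
      exact h)
  have hsum : ∑ v : Fin cY.length, (1 / 2 - ((cY.get v : ℝ) * δ + 0)) =
      (cY.length : ℝ) / 2 - N * δ := by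
    rw [sum_sub_distrib, sum_const, card_univ, Fintype.card_fin]
    have h1 : ∑ v : Fin cY.length, ((cY.get v : ℝ) * δ + 0) = (N : ℝ) * δ := by
      simp only [add_zero]
      rw [← sum_mul]
      congr 1
      have hY2' : cY.sum = N := hY2
      have h3 : ∑ v : Fin cY.length, cY.get v = cY.sum := by
        have := Fin.sum_univ_getElem cY
        simpa using this
      rw [← hY2', ← h3]
      push_cast
      rfl
    rw [h1]
    simp only [nsmul_eq_mul]
    ring
  rw [hsum, Fintype.card_option, Fintype.card_fin] at hlim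
  have hPP : (Fintype.card (PP W f st) : ℝ) = c.length := by
    have : Fintype.card (PP W f st) = c.length := by omega
    exact_mod_cast this
  rw [hPP] at hlim
  exact final_arith N (∑ i, f i) c.length cY.length d hN0 hc1 hY3 hlim

/-- final statement, given W4 -/
theorem key_of_W4 (hW4 : ∀ (n : ℕ) (W : Fin n → List (G × Fin n × Bool)) (f : Fin n → ℕ)
    (hW : ∀ i, 0 < (W i).length) (st : Ka f → List (G × Fin n × Bool))
    (hst : ∀ k, 0 < (st k).length) (ord : List (Ka f)) (hnd : ord.Nodup)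
    (hall : ∀ k, k ∈ ord), ord ≠ [] → (∀ k, (blk W f hW st hst ord hnd hall).a0 k = 1) →
    W4 W f hW st hst ord hnd hall) : Key G := by
  intro n W htri hdiag g hg
  by_contra hg1
  obtain ⟨f, st, ord, hst1, hnd, hall, hprod⟩ := W259.exists_kappa W htri hdiag g hg
  have hW : ∀ i, 0 < (W i).length := by
    intro i
    rw [List.length_pos_iff_ne_nil]
    intro h
    apply hdiag i
    rw [h]
    rfl
  have hst : ∀ k, 0 < (st k).length := by
    intro k
    obtain ⟨p, t, h⟩ := hst1 k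
    rw [h]
    simp
  have hne : ord ≠ [] := by
    rintro rfl
    apply hg1
    rw [List.map_nil, List.prod_nil] at hprod
    exact Coprod.inl_injective (hprod.trans (map_one _).symm)
  have ha0 : ∀ k, (blk W f hW st hst ord hnd hall).a0 k = 1 := by
    intro k
    obtain ⟨p, t, h⟩ := hst1 k
    have : ∀ (l : List (G × Fin n × Bool)) (hl : 0 < l.length), l = (1, p) :: t →
        (l.get ⟨0, hl⟩).1 = 1 := by
      rintro l hl rfl
      rfl
    exact this (st k) (hst k) h
  have hval : (ord.map (blk W f hW st hst ord hnd hall).val).prod = Coprod.inl g := by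
    rw [hprod]
    rfl
  obtain ⟨M, hM, hsmall⟩ := small_kernel W f hW st hst ord hnd hall hne ha0 g hg1 hval
    (hW4 n W f hW st hst ord hnd hall hne ha0)
  have hcardA : Fintype.card (Σ i : Fin n, Fin (f i)) = ∑ i, f i := by
    simp
  refine contra (sys W f) (St f st) (MainP.gr (sys W f)) ?_ ?_ M hM ?_
  · intro i x hx
    rw [sys_E]
    exact htri i x hx
  · intro i
    rw [sys_E]
    exact hdiag i
  · intro σ hσ
    rw [hcardA]
    exact hsmall σ hσ

end

end Crest.Agent.R174.Glue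
end

-- ▼ part R174/W4Sim477
section

set_option autoImplicit false

/-!
# R174, W4 (part 1): the matrix `Y = JJ(σ) U_c` is similar to a monomial matrix.
-/

open Matrix

namespace Crest.Agent.R174.W4

open Crest.Agent.R174.WD Crest.Agent.R174.TrIneq

universe u

/-- index type of the blocks: `((i, a), s)` = face number `a` of type `i` with sign `s` -/
abbrev KK {n : ℕ} (f : Fin n → ℕ) : Type := ((i : Fin n) × Fin (f i)) × Bool

/-- block data with the concrete index type -/
structure Dat (G : Type u) (n : ℕ) (f : Fin n → ℕ) where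
  W : Fin n → List (G × Fin n × Bool)
  ord : List (KK f)
  hnd : ord.Nodup
  hall : ∀ k, k ∈ ord
  st : KK f → List (G × Fin n × Bool)
  hst : ∀ k, 0 < (st k).length
  hW : ∀ i, 0 < (W i).length

variable {G : Type u} {n : ℕ} {f : Fin n → ℕ}

/-- the associated `WD.Blk` -/
abbrev Dat.blk (D : Dat G n f) : Blk G n (KK f) where
  W := D.W
  ord := D.ord
  hnd := D.hnd
  hall := D.hall
  st := D.st
  ty := fun k => k.1.1
  sg := fun k => k.2
  hst := D.hst
  hW := D.hW

section sc
variable [Group G] {P : Type} [Fintype P] [DecidableEq P]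

lemma sc_mulVec_single (M : Matrix P P ℂ) (p : P) (x : MonoidAlgebra ℂ G) :
    (sc G M) *ᵥ Pi.single p x = fun p' => M p' p • x := by
  funext p'
  rw [Matrix.mulVec_single]
  simp only [Matrix.col_apply, Pi.smul_apply, MulOpposite.smul_eq_mul_unop, sc_apply,
    MulOpposite.unop_op]
  rw [Algebra.smul_def]
  rfl

lemma mono_mulVec_single (nxt : P → P) (g : P → G) (p : P) (x : MonoidAlgebra ℂ G) :
    (WD.mono nxt g (fun _ => 1)) *ᵥ Pi.single p x =
      Pi.single (nxt p) (MonoidAlgebra.single (g p) 1 * x) := by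
  funext p'
  rw [Matrix.mulVec_single]
  simp only [WD.mono, Matrix.of_apply, Matrix.col_apply, Pi.smul_apply,
    MulOpposite.smul_eq_mul_unop, MulOpposite.unop_op]
  by_cases h : p' = nxt p
  · subst h
    simp
  · simp [h]

/-- a column of a scalar matrix -/
lemma sc_col {ι : Type*} [Fintype ι] (M : Matrix P P ℂ) (p : P) (v : ι → P) (s : ι → ℂ)
    (h : ∀ p', M p' p = ∑ a, if p' = v a then s a else 0) (x : MonoidAlgebra ℂ G) :
    (sc G M) *ᵥ Pi.single p x = ∑ a, Pi.single (v a) (s a • x) := by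
  rw [sc_mulVec_single]
  funext p'
  rw [h, Finset.sum_smul, Finset.sum_apply]
  refine Finset.sum_congr rfl fun a _ => ?_
  by_cases h' : p' = v a
  · subst h'
    simp
  · simp [h']

lemma sc_col_one (M : Matrix P P ℂ) (p v : P)
    (h : ∀ p', M p' p = if p' = v then 1 else 0) (x : MonoidAlgebra ℂ G) :
    (sc G M) *ᵥ Pi.single p x = Pi.single v x := by
  rw [sc_mulVec_single]
  funext p'
  rw [h]
  by_cases h' : p' = v
  · subst h'
    simp
  · simp [h']

omit [Fintype P] in
/-- cancellation of two scalar column operations -/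
lemma sum_cancel {ι : Type*} [Fintype ι] [DecidableEq ι] (σ τ : Matrix ι ι ℂ) (h : τ * σ = 1)
    (v : ι → P) (a : ι) (x : MonoidAlgebra ℂ G) :
    ∑ a', ∑ a'', (Pi.single (v a'') (τ a'' a' • (σ a' a • x)) : P → MonoidAlgebra ℂ G) =
      Pi.single (v a) x := by
  rw [Finset.sum_comm]
  have h1 : ∀ a'', ∑ a', (Pi.single (v a'') (τ a'' a' • (σ a' a • x)) : P → MonoidAlgebra ℂ G) =
      Pi.single (v a'') ((1 : Matrix ι ι ℂ) a'' a • x) := by
    intro a''
    rw [← h, Matrix.mul_apply, Finset.sum_smul]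
    simp only [mul_smul]
    funext p
    rw [Finset.sum_apply]
    by_cases hp : p = v a''
    · subst hp
      simp
    · simp [hp]
  simp only [h1]
  rw [Finset.sum_eq_single a]
  · rw [Matrix.one_apply_eq, one_smul]
  · intro b _ hb
    rw [Matrix.one_apply_ne hb, zero_smul, Pi.single_zero]
  · intro h; exact absurd (Finset.mem_univ _) h

end sc

variable (D : Dat G n f)

/-- the node matrix: exchanges stem letters with their mirror letters, and the letter `j` of
the positive faces of type `i` with the letter `j` of the negative faces of type `i` by `σ i`. -/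
structure IsJJ (σ : (i : Fin n) → Matrix (Fin (f i)) (Fin (f i)) ℂ)
    (JJ : Matrix D.blk.Pos D.blk.Pos ℂ) : Prop where
  up : ∀ k j p', JJ p' (D.blk.up k j) = if p' = D.blk.dn k j then 1 else 0
  dn : ∀ k j p', JJ p' (D.blk.dn k j) = if p' = D.blk.up k j then 1 else 0
  fp : ∀ i a (j : Fin (D.W i).length) p', JJ p' (D.blk.fc (⟨i, a⟩, true) j) =
    ∑ a', if p' = D.blk.fc (⟨i, a'⟩, false) j then σ i a' a else 0
  fm : ∀ i a (j : Fin (D.W i).length) p', JJ p' (D.blk.fc (⟨i, a⟩, false) j) =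
    ∑ a', if p' = D.blk.fc (⟨i, a'⟩, true) j then (star (σ i)) a' a else 0

/-- the columns of the gauge matrix -/
def gcol (σ : (i : Fin n) → Matrix (Fin (f i)) (Fin (f i)) ℂ) (p' : D.blk.Pos) :
    D.blk.Pos → ℂ
  | ⟨k, Sum.inl j⟩ => if p' = D.blk.up k j then 1 else 0
  | ⟨(⟨i, a⟩, true), Sum.inr (Sum.inl j)⟩ => if p' = D.blk.fc (⟨i, a⟩, true) j then 1 else 0
  | ⟨(⟨i, a⟩, false), Sum.inr (Sum.inl j)⟩ =>
      ∑ a', if p' = D.blk.fc (⟨i, a'⟩, false) j then σ i a' a else 0
  | ⟨(⟨i, a⟩, true), Sum.inr (Sum.inr j)⟩ => if p' = D.blk.dn (⟨i, a⟩, true) j then 1 else 0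
  | ⟨(⟨i, a⟩, false), Sum.inr (Sum.inr j)⟩ =>
      if j.1 + 1 < D.blk.r (⟨i, a⟩, false) then
        (if p' = D.blk.dn (⟨i, a⟩, false) j then 1 else 0)
      else ∑ a', if p' = D.blk.dn (⟨i, a'⟩, false) (D.blk.r1 _) then σ i a' a else 0

/-- the gauge matrix -/
def gau (σ : (i : Fin n) → Matrix (Fin (f i)) (Fin (f i)) ℂ) : Matrix D.blk.Pos D.blk.Pos ℂ :=
  Matrix.of fun p' p => gcol D σ p' p

/-- the matching of the positions for `σ = 1` -/
def mu1 : D.blk.Pos → D.blk.Pos
  | ⟨k, Sum.inl j⟩ => D.blk.dn k j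
  | ⟨(x, s), Sum.inr (Sum.inl j)⟩ => D.blk.fc (x, !s) j
  | ⟨k, Sum.inr (Sum.inr j)⟩ => D.blk.up k j


lemma lt_last {D : Dat G n f} {k : KK f} {j : Fin (D.blk.r k)} (h : ¬ j.1 + 1 < D.blk.r k) :
    j = D.blk.r1 k := by
  apply Fin.ext
  have := j.2
  simp only [Blk.r1]
  omega

lemma lt_lastf {D : Dat G n f} {k : KK f} {j : Fin (D.blk.l k)} (h : ¬ j.1 + 1 < D.blk.l k) :
    j = D.blk.l1 k := by
  apply Fin.ext
  have := j.2
  simp only [Blk.l1]
  omega

variable [Group G]

/-- the intertwining relation -/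
theorem intertwine (σ : (i : Fin n) → Matrix (Fin (f i)) (Fin (f i)) ℂ)
    (hσ : ∀ i, star (σ i) * σ i = 1)
    (JJ : Matrix D.blk.Pos D.blk.Pos ℂ) (hJ : IsJJ D σ JJ) :
    (sc G JJ * WD.mono D.blk.pred D.blk.lab (fun _ => 1)) * sc G (gau D σ) =
      sc G (gau D σ) * WD.mono (fun p => mu1 D (D.blk.pred p)) D.blk.lab (fun _ => 1) := by
  have hU := fun p x => mono_mulVec_single (G := G) D.blk.pred D.blk.lab p x
  have hY := fun p x => mono_mulVec_single (G := G) (fun p => mu1 D (D.blk.pred p)) D.blk.lab p x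
  have hJup := fun k j x => sc_col_one (G := G) JJ (D.blk.up k j) (D.blk.dn k j) (hJ.up k j) x
  have hJdn := fun k j x => sc_col_one (G := G) JJ (D.blk.dn k j) (D.blk.up k j) (hJ.dn k j) x
  have hJfp := fun i a (j : Fin (D.W i).length) x => sc_col (G := G) JJ (D.blk.fc (⟨i, a⟩, true) j)
    (fun a' => D.blk.fc (⟨i, a'⟩, false) j) (fun a' => σ i a' a) (hJ.fp i a j) x
  have hJfm := fun i a (j : Fin (D.W i).length) x => sc_col (G := G) JJ
    (D.blk.fc (⟨i, a⟩, false) j)
    (fun a' => D.blk.fc (⟨i, a'⟩, true) j) (fun a' => star (σ i) a' a) (hJ.fm i a j) x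
  have hGup := fun k j x => sc_col_one (G := G) (gau D σ) (D.blk.up k j) (D.blk.up k j)
    (fun p' => rfl) x
  have hGfp := fun i a (j : Fin (D.W i).length) x => sc_col_one (G := G) (gau D σ)
    (D.blk.fc (⟨i, a⟩, true) j) (D.blk.fc (⟨i, a⟩, true) j) (fun p' => rfl) x
  have hGdp := fun (i : Fin n) (a : Fin (f i)) (j : Fin (D.blk.r (⟨i, a⟩, true))) x =>
    sc_col_one (G := G) (gau D σ)
    (D.blk.dn (⟨i, a⟩, true) j) (D.blk.dn (⟨i, a⟩, true) j) (fun p' => rfl) x
  have hGfm := fun i a (j : Fin (D.W i).length) x => sc_col (G := G) (gau D σ)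
    (D.blk.fc (⟨i, a⟩, false) j) (fun a' => D.blk.fc (⟨i, a'⟩, false) j) (fun a' => σ i a' a)
    (fun p' => rfl) x
  have hGdm := fun (i : Fin n) (a : Fin (f i)) (j : Fin (D.blk.r (⟨i, a⟩, false)))
      (h : j.1 + 1 < D.blk.r (⟨i, a⟩, false)) x =>
    sc_col_one (G := G) (gau D σ)
    (D.blk.dn (⟨i, a⟩, false) j) (D.blk.dn (⟨i, a⟩, false) j)
    (fun p' => by simp only [gau, Matrix.of_apply, gcol]; rw [if_pos h]) x
  have hGdl := fun (i : Fin n) (a : Fin (f i)) (j : Fin (D.blk.r (⟨i, a⟩, false)))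
      (h : ¬ j.1 + 1 < D.blk.r (⟨i, a⟩, false)) x =>
    sc_col (G := G) (gau D σ)
    (D.blk.dn (⟨i, a⟩, false) j) (fun a' => D.blk.dn (⟨i, a'⟩, false) (D.blk.r1 _))
    (fun a' => σ i a' a)
    (fun p' => by simp only [gau, Matrix.of_apply, gcol]; rw [if_neg h]) x
  apply Matrix.ext_of_mulVec_single
  intro p
  rw [← Matrix.mulVec_mulVec, ← Matrix.mulVec_mulVec, ← Matrix.mulVec_mulVec, hY]
  rcases p with ⟨⟨⟨i, a⟩, s⟩, j | j | j⟩
  · -- up
    rw [hGup, hU]
    by_cases h : j.1 = 0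
    · have hp : D.blk.pred ⟨(⟨i, a⟩, s), Sum.inl j⟩ = D.blk.dn (D.blk.pk (⟨i, a⟩, s)) (D.blk.r0 _) := by
        simp only [Blk.pred, dif_pos h]
      rw [hp, hJdn]
      exact (hGup _ _ _).symm
    · have hp : D.blk.pred ⟨(⟨i, a⟩, s), Sum.inl j⟩ =
          D.blk.up (⟨i, a⟩, s) ⟨j.1 - 1, lt_of_le_of_lt (Nat.sub_le _ _) j.2⟩ := by
        simp only [Blk.pred, dif_neg h]
      have hlt : (⟨j.1 - 1, lt_of_le_of_lt (Nat.sub_le _ _) j.2⟩ :
          Fin (D.blk.r (⟨i, a⟩, s))).1 + 1 < D.blk.r (⟨i, a⟩, s) := by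
        have := j.2
        simp only
        omega
      rw [hp, hJup]
      cases s
      · exact (hGdm i a _ hlt _).symm
      · exact (hGdp i a _ _).symm
  · cases s
    · -- negative face
      have hlab : ∀ a' : Fin (f i), D.blk.lab (D.blk.fc (⟨i, a'⟩, false) j) =
        D.blk.lab (D.blk.fc (⟨i, a⟩, false) j) := fun a' => rfl
      have e1 : (sc G (gau D σ)) *ᵥ Pi.single (D.blk.fc (⟨i, a⟩, false) j) 1 =
        ∑ a', Pi.single (D.blk.fc (⟨i, a'⟩, false) j) (σ i a' a • 1) := hGfm i a j 1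
      rw [e1, Matrix.mulVec_sum, Matrix.mulVec_sum]
      by_cases h : j.1 + 1 < (D.W i).length
      · have hp : ∀ a' : Fin (f i), D.blk.pred (D.blk.fc (⟨i, a'⟩, false) j) =
            D.blk.fc (⟨i, a'⟩, false) ⟨j.1 + 1, h⟩ := by
          intro a'
          simp only [Blk.pred]
          rw [if_neg (by simp), dif_pos h]
        have e2 : ∀ a', sc G JJ *ᵥ ((WD.mono D.blk.pred D.blk.lab fun _ => 1) *ᵥ
            Pi.single (D.blk.fc (⟨i, a'⟩, false) j) (σ i a' a • (1 : MonoidAlgebra ℂ G))) =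
            ∑ a'', Pi.single (D.blk.fc (⟨i, a''⟩, true) ⟨j.1 + 1, h⟩)
              (star (σ i) a'' a' • (σ i a' a •
                MonoidAlgebra.single (D.blk.lab (D.blk.fc (⟨i, a⟩, false) j)) 1)) := by
          intro a'
          rw [hU, hp, hlab, hJfm]
          simp only [mul_smul_comm, mul_one]
        rw [Finset.sum_congr rfl fun a' _ => e2 a', sum_cancel (σ i) (star (σ i)) (hσ i)
          (fun a'' => D.blk.fc (⟨i, a''⟩, true) ⟨j.1 + 1, h⟩)]
        have e3 : mu1 D (D.blk.pred (D.blk.fc (⟨i, a⟩, false) j)) =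
          D.blk.fc (⟨i, a⟩, true) ⟨j.1 + 1, h⟩ := by rw [hp]; rfl
        rw [e3, hGfp, mul_one]
      · -- last letter
        have hp : ∀ a' : Fin (f i), D.blk.pred (D.blk.fc (⟨i, a'⟩, false) j) =
            D.blk.up (⟨i, a'⟩, false) (D.blk.r1 _) := by
          intro a'
          simp only [Blk.pred]
          rw [if_neg (by simp), dif_neg h]
        have e2 : ∀ a', sc G JJ *ᵥ ((WD.mono D.blk.pred D.blk.lab fun _ => 1) *ᵥ
            Pi.single (D.blk.fc (⟨i, a'⟩, false) j) (σ i a' a • (1 : MonoidAlgebra ℂ G))) =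
            Pi.single (D.blk.dn (⟨i, a'⟩, false) (D.blk.r1 _))
              (σ i a' a • MonoidAlgebra.single (D.blk.lab (D.blk.fc (⟨i, a⟩, false) j)) 1) := by
          intro a'
          rw [hU, hp, hlab, hJup]
          simp only [mul_smul_comm, mul_one]
        rw [Finset.sum_congr rfl fun a' _ => e2 a']
        have e3 : mu1 D (D.blk.pred (D.blk.fc (⟨i, a⟩, false) j)) =
          D.blk.dn (⟨i, a⟩, false) (D.blk.r1 _) := by rw [hp]; rfl
        have hlast : ¬ (D.blk.r1 (⟨i, a⟩, false)).1 + 1 < D.blk.r (⟨i, a⟩, false) := by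
          simp only [Blk.r1]
          have := D.blk.hst (⟨i, a⟩, false)
          simp only [Blk.r]
          omega
        rw [e3, hGdl i a _ hlast, mul_one]
    · -- positive face
      have e1 : (sc G (gau D σ)) *ᵥ Pi.single (D.blk.fc (⟨i, a⟩, true) j) 1 =
        Pi.single (D.blk.fc (⟨i, a⟩, true) j) 1 := hGfp i a j 1
      rw [e1, hU]
      by_cases h : j.1 = 0
      · have hp : D.blk.pred (D.blk.fc (⟨i, a⟩, true) j) =
            D.blk.up (⟨i, a⟩, true) (D.blk.r1 _) := by
          simp only [Blk.pred]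
          rw [if_pos trivial, dif_pos h]
        rw [hp, hJup]
        exact (hGdp i a _ _).symm
      · have hp : D.blk.pred (D.blk.fc (⟨i, a⟩, true) j) =
            D.blk.fc (⟨i, a⟩, true) ⟨j.1 - 1, lt_of_le_of_lt (Nat.sub_le _ _) j.2⟩ := by
          simp only [Blk.pred]
          rw [if_pos trivial, dif_neg h]
        rw [hp, hJfp]
        exact (hGfm i a _ _).symm
  · -- down
    cases s
    · -- negative block
      by_cases h : j.1 + 1 < D.blk.r (⟨i, a⟩, false)
      · have e1 : (sc G (gau D σ)) *ᵥ Pi.single (D.blk.dn (⟨i, a⟩, false) j) 1 =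
          Pi.single (D.blk.dn (⟨i, a⟩, false) j) 1 := hGdm i a j h 1
        have hp : D.blk.pred (D.blk.dn (⟨i, a⟩, false) j) =
            D.blk.dn (⟨i, a⟩, false) ⟨j.1 + 1, h⟩ := by
          simp only [Blk.pred]
          rw [dif_pos h]
        rw [e1, hU, hp, hJdn]
        exact (hGup _ _ _).symm
      · have hlab : ∀ a' : Fin (f i), D.blk.lab (D.blk.dn (⟨i, a'⟩, false) (D.blk.r1 _)) =
          D.blk.lab (D.blk.dn (⟨i, a⟩, false) j) := by
          intro a'
          have h' : ¬ (D.blk.r1 (⟨i, a'⟩, false)).1 + 1 < D.blk.r (⟨i, a'⟩, false) := by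
            simp only [Blk.r1]
            have := D.blk.hst (⟨i, a'⟩, false)
            simp only [Blk.r]
            omega
          simp only [Blk.lab]
          rw [dif_neg h, dif_neg h']
          rfl
        have hp : ∀ a' : Fin (f i), D.blk.pred (D.blk.dn (⟨i, a'⟩, false) (D.blk.r1 _)) =
            D.blk.fc (⟨i, a'⟩, false) (D.blk.l0 _) := by
          intro a'
          have h' : ¬ (D.blk.r1 (⟨i, a'⟩, false)).1 + 1 < D.blk.r (⟨i, a'⟩, false) := by
            simp only [Blk.r1]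
            have := D.blk.hst (⟨i, a'⟩, false)
            simp only [Blk.r]
            omega
          simp only [Blk.pred]
          rw [dif_neg h', if_neg (by simp)]
        have e1 : (sc G (gau D σ)) *ᵥ Pi.single (D.blk.dn (⟨i, a⟩, false) j) 1 =
          ∑ a', Pi.single (D.blk.dn (⟨i, a'⟩, false) (D.blk.r1 _)) (σ i a' a • 1) := hGdl i a j h 1
        have e2 : ∀ a', sc G JJ *ᵥ ((WD.mono D.blk.pred D.blk.lab fun _ => 1) *ᵥ
            Pi.single (D.blk.dn (⟨i, a'⟩, false) (D.blk.r1 _))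
              (σ i a' a • (1 : MonoidAlgebra ℂ G))) =
            ∑ a'', Pi.single (D.blk.fc (⟨i, a''⟩, true) ⟨0, D.hW i⟩)
              (star (σ i) a'' a' • (σ i a' a •
                MonoidAlgebra.single (D.blk.lab (D.blk.dn (⟨i, a⟩, false) j)) 1)) := by
          intro a'
          rw [hU, hp, hlab]
          have e4 := hJfm i a' ⟨0, D.hW i⟩ (MonoidAlgebra.single (D.blk.lab (D.blk.dn (⟨i, a⟩, false) j)) 1 *
            σ i a' a • (1 : MonoidAlgebra ℂ G))
          refine e4.trans ?_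
          simp only [mul_smul_comm, mul_one]
        rw [e1, Matrix.mulVec_sum, Matrix.mulVec_sum, Finset.sum_congr rfl fun a' _ => e2 a',
          sum_cancel (σ i) (star (σ i)) (hσ i)
          (fun a'' => D.blk.fc (⟨i, a''⟩, true) ⟨0, D.hW i⟩)]
        have e3 : mu1 D (D.blk.pred (D.blk.dn (⟨i, a⟩, false) j)) =
          D.blk.fc (⟨i, a⟩, true) ⟨0, D.hW i⟩ := by
          have hj : j = D.blk.r1 (⟨i, a⟩, false) := lt_last h
          rw [hj, hp]; rfl
        rw [e3, hGfp, mul_one]
    · -- positive block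
      have e1 : (sc G (gau D σ)) *ᵥ Pi.single (D.blk.dn (⟨i, a⟩, true) j) 1 =
        Pi.single (D.blk.dn (⟨i, a⟩, true) j) 1 := hGdp i a j 1
      rw [e1, hU]
      by_cases h : j.1 + 1 < D.blk.r (⟨i, a⟩, true)
      · have hp : D.blk.pred (D.blk.dn (⟨i, a⟩, true) j) =
            D.blk.dn (⟨i, a⟩, true) ⟨j.1 + 1, h⟩ := by
          simp only [Blk.pred]
          rw [dif_pos h]
        rw [hp, hJdn]
        exact (hGup _ _ _).symm
      · have hp : D.blk.pred (D.blk.dn (⟨i, a⟩, true) j) =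
            D.blk.fc (⟨i, a⟩, true) (D.blk.l1 _) := by
          simp only [Blk.pred]
          rw [dif_neg h, if_pos trivial]
        rw [hp]
        have e4 := hJfp i a (D.blk.l1 (⟨i, a⟩, true)) (MonoidAlgebra.single
          (D.blk.lab (D.blk.dn (⟨i, a⟩, true) j)) 1 * 1)
        refine e4.trans ?_
        exact (hGfm i a _ _).symm

/-- the gauge matrix is invertible -/
theorem gau_mul (σ τ : (i : Fin n) → Matrix (Fin (f i)) (Fin (f i)) ℂ)
    (hσ : ∀ i, σ i * τ i = 1) : sc G (gau D σ) * sc G (gau D τ) = 1 := by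
  have hup := fun (ρ : (i : Fin n) → Matrix (Fin (f i)) (Fin (f i)) ℂ) k j x =>
    sc_col_one (G := G) (gau D ρ) (D.blk.up k j) (D.blk.up k j) (fun p' => rfl) x
  have hfp := fun (ρ : (i : Fin n) → Matrix (Fin (f i)) (Fin (f i)) ℂ)
    i a (j : Fin (D.W i).length) x => sc_col_one (G := G) (gau D ρ)
    (D.blk.fc (⟨i, a⟩, true) j) (D.blk.fc (⟨i, a⟩, true) j) (fun p' => rfl) x
  have hdp := fun (ρ : (i : Fin n) → Matrix (Fin (f i)) (Fin (f i)) ℂ)
    (i : Fin n) (a : Fin (f i)) (j : Fin (D.blk.r (⟨i, a⟩, true))) x =>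
    sc_col_one (G := G) (gau D ρ)
    (D.blk.dn (⟨i, a⟩, true) j) (D.blk.dn (⟨i, a⟩, true) j) (fun p' => rfl) x
  have hfm := fun (ρ : (i : Fin n) → Matrix (Fin (f i)) (Fin (f i)) ℂ)
    i a (j : Fin (D.W i).length) x => sc_col (G := G) (gau D ρ)
    (D.blk.fc (⟨i, a⟩, false) j) (fun a' => D.blk.fc (⟨i, a'⟩, false) j) (fun a' => ρ i a' a)
    (fun p' => rfl) x
  have hdm := fun (ρ : (i : Fin n) → Matrix (Fin (f i)) (Fin (f i)) ℂ)
      (i : Fin n) (a : Fin (f i)) (j : Fin (D.blk.r (⟨i, a⟩, false)))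
      (h : j.1 + 1 < D.blk.r (⟨i, a⟩, false)) x =>
    sc_col_one (G := G) (gau D ρ)
    (D.blk.dn (⟨i, a⟩, false) j) (D.blk.dn (⟨i, a⟩, false) j)
    (fun p' => by simp only [gau, Matrix.of_apply, gcol]; rw [if_pos h]) x
  have hdl := fun (ρ : (i : Fin n) → Matrix (Fin (f i)) (Fin (f i)) ℂ)
      (i : Fin n) (a : Fin (f i)) (j : Fin (D.blk.r (⟨i, a⟩, false)))
      (h : ¬ j.1 + 1 < D.blk.r (⟨i, a⟩, false)) x =>
    sc_col (G := G) (gau D ρ)
    (D.blk.dn (⟨i, a⟩, false) j) (fun a' => D.blk.dn (⟨i, a'⟩, false) (D.blk.r1 _))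
    (fun a' => ρ i a' a)
    (fun p' => by simp only [gau, Matrix.of_apply, gcol]; rw [if_neg h]) x
  apply Matrix.ext_of_mulVec_single
  intro p
  rw [← Matrix.mulVec_mulVec, Matrix.one_mulVec]
  rcases p with ⟨⟨⟨i, a⟩, s⟩, j | j | j⟩
  · rw [hup, hup]
  · cases s
    · have e1 : (sc G (gau D τ)) *ᵥ Pi.single (D.blk.fc (⟨i, a⟩, false) j) 1 =
        ∑ a', Pi.single (D.blk.fc (⟨i, a'⟩, false) j) (τ i a' a • 1) := hfm τ i a j 1
      rw [e1, Matrix.mulVec_sum, Finset.sum_congr rfl fun a' _ => hfm σ i a' j _]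
      exact sum_cancel (τ i) (σ i) (hσ i) (fun a'' => D.blk.fc (⟨i, a''⟩, false) j) a 1
    · have e1 : (sc G (gau D τ)) *ᵥ Pi.single (D.blk.fc (⟨i, a⟩, true) j) 1 =
        Pi.single (D.blk.fc (⟨i, a⟩, true) j) 1 := hfp τ i a j 1
      rw [e1]
      exact hfp σ i a j 1
  · cases s
    · by_cases h : j.1 + 1 < D.blk.r (⟨i, a⟩, false)
      · rw [hdm τ i a j h, hdm σ i a j h]
      · have e1 : (sc G (gau D τ)) *ᵥ Pi.single (D.blk.dn (⟨i, a⟩, false) j) 1 =
          ∑ a', Pi.single (D.blk.dn (⟨i, a'⟩, false) (D.blk.r1 _)) (τ i a' a • 1) := hdl τ i a j h 1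
        have h' : ∀ a' : Fin (f i), ¬ (D.blk.r1 (⟨i, a'⟩, false)).1 + 1 <
            D.blk.r (⟨i, a'⟩, false) := by
          intro a'
          simp only [Blk.r1]
          have := D.blk.hst (⟨i, a'⟩, false)
          simp only [Blk.r]
          omega
        rw [e1, Matrix.mulVec_sum, Finset.sum_congr rfl fun a' _ => hdl σ i a' _ (h' a') _]
        have hj : j = D.blk.r1 (⟨i, a⟩, false) := lt_last h
        rw [hj]
        exact sum_cancel (τ i) (σ i) (hσ i)
          (fun a'' => D.blk.dn (⟨i, a''⟩, false) (D.blk.r1 _)) a 1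
    · rw [hdp, hdp]

/-- **W4, similarity**: the traces of the powers of `Y = JJ(σ) U_c` do not depend on `σ`. -/
theorem trG_Y_pow (σ : (i : Fin n) → Matrix (Fin (f i)) (Fin (f i)) ℂ)
    (hσ : ∀ i, σ i ∈ Matrix.unitaryGroup (Fin (f i)) ℂ)
    (JJ : Matrix D.blk.Pos D.blk.Pos ℂ) (hJ : IsJJ D σ JJ) (q : ℕ) :
    WD.trG ((sc G JJ * WD.mono D.blk.pred D.blk.lab (fun _ => 1)) ^ q) =
      WD.trG (WD.mono (fun p => mu1 D (D.blk.pred p)) D.blk.lab (fun _ => 1) ^ q) := by
  have h1 := intertwine D σ (fun i => (Matrix.mem_unitaryGroup_iff'.1 (hσ i))) JJ hJ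
  have h2 := gau_mul (G := G) D σ (fun i => star (σ i)) (fun i => (Matrix.mem_unitaryGroup_iff.1 (hσ i)))
  have h3 := gau_mul (G := G) D (fun i => star (σ i)) σ (fun i => (Matrix.mem_unitaryGroup_iff'.1 (hσ i)))
  set Y := sc G JJ * WD.mono D.blk.pred D.blk.lab (fun _ => 1)
  set Y1 := WD.mono (fun p => mu1 D (D.blk.pred p)) D.blk.lab (fun _ => 1)
  set A := sc G (gau D σ)
  set A' := sc G (gau D fun i => star (σ i))
  have h4 : Y ^ q * A = A * Y1 ^ q := by
    have h5 : SemiconjBy A Y1 Y := h1.symm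
    exact (h5.pow_right q).symm
  have h6 : Y ^ q = A * Y1 ^ q * A' := by
    rw [← h4, mul_assoc, h2, mul_one]
  rw [h6, ← trG_eq, ← trG_eq]
  have h7 := (trG_posTrace (G := G) (N := D.blk.Pos)).comm (A * Y1 ^ q) A'
  rw [h7, ← mul_assoc, h3, one_mul]

end Crest.Agent.R174.W4
private theorem rz_4d2e649923 : type_of% @_root_.Crest.Agent.R174.W4.gcol.eq_1 := @_root_.Crest.Agent.R174.W4.gcol.eq_1 -- L134
end

-- ▼ part R174/W4Cyc477
section

set_option autoImplicit false

/-!
# R174, W4 (part 2): the cycles of `Y` and the traces of its powers.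
-/

open Matrix

namespace Crest.Agent.R174.W4

open Crest.Agent.R174.WD Crest.Agent.R174.TrIneq

universe u

section general

variable {G : Type u} [Group G] {P : Type} [Fintype P] [DecidableEq P]

/-- all holonomies trivial: `trG (Y^q)` counts the points whose period divides `q`. -/
theorem trG_mono_pow_of_period (nxt : P → P) (g : P → G) (c : P → ℕ)
    (hc : ∀ p q, nxt^[q] p = p ↔ c p ∣ q) (hg : ∀ p, gacc nxt g (c p) p = 1) (q : ℕ) :
    WD.trG (WD.mono nxt g (fun _ => 1) ^ q) = ∑ p, if c p ∣ q then (1 : ℂ) else 0 := by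
  rw [WD.mono_pow, WD.trG_mono]
  refine Finset.sum_congr rfl fun p _ => ?_
  have hz : ∀ q, zacc nxt (fun _ => (1 : ℂ)) q p = 1 := by
    intro q
    induction q with
    | zero => rfl
    | succ q ih => rw [zacc, ih, mul_one]
  by_cases h : c p ∣ q
  · rw [if_pos ((hc p q).2 h), if_pos h]
    obtain ⟨r, rfl⟩ := h
    rw [gacc_mul nxt g (c p) p ((hc p _).2 dvd_rfl) r, hg, one_pow, if_pos rfl, hz]
  · rw [if_neg (fun h' => h ((hc p q).1 h')), if_neg h]

omit [Fintype P] [DecidableEq P] in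
lemma period_two (nxt : P → P) (p : P) (h2 : nxt (nxt p) = p) (h1 : nxt p ≠ p) (q : ℕ) :
    nxt^[q] p = p ↔ 2 ∣ q := by
  have hp : Function.IsPeriodicPt nxt 2 p := h2
  have hm : Function.minimalPeriod nxt p = 2 := by
    have h3 := hp.minimalPeriod_dvd
    rcases (Nat.dvd_prime Nat.prime_two).1 h3 with h | h
    · exfalso
      rw [Function.minimalPeriod_eq_one_iff_isFixedPt] at h
      exact h1 h
    · exact h
  have := Function.isPeriodicPt_iff_minimalPeriod_dvd (f := nxt) (x := p) (n := q)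
  rw [hm] at this
  exact this

omit [Fintype P] [DecidableEq P] in
lemma period_four (nxt : P → P) (p : P) (h4 : nxt (nxt (nxt (nxt p))) = p)
    (h2 : nxt (nxt p) ≠ p) (q : ℕ) :
    nxt^[q] p = p ↔ 4 ∣ q := by
  have hp : Function.IsPeriodicPt nxt 4 p := h4
  have hm : Function.minimalPeriod nxt p = 4 := by
    have h3 := hp.minimalPeriod_dvd
    have h5 : Function.minimalPeriod nxt p ∈ Nat.divisors 4 := Nat.mem_divisors.2 ⟨h3, by norm_num⟩
    have h6 : Nat.divisors 4 = {1, 2, 4} := by decide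
    rw [h6] at h5
    simp only [Finset.mem_insert, Finset.mem_singleton] at h5
    rcases h5 with h | h | h
    · exfalso
      rw [Function.minimalPeriod_eq_one_iff_isFixedPt] at h
      exact h2 ((congrArg nxt h).trans h)
    · exfalso
      have := Function.isPeriodicPt_minimalPeriod nxt p
      rw [h] at this
      exact h2 this
    · exact h
  have := Function.isPeriodicPt_iff_minimalPeriod_dvd (f := nxt) (x := p) (n := q)
  rw [hm] at this
  exact this

end general

/-- the cyclic predecessor in a nodup list has period the length -/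
lemma formPerm_symm_iterate {α : Type} [DecidableEq α] (L : List α) (hL : L.Nodup) (k : α)
    (hk : k ∈ L) (q : ℕ) : (fun x => L.formPerm.symm x)^[q] k = k ↔ L.length ∣ q := by
  obtain ⟨i, hi, rfl⟩ := List.getElem_of_mem hk
  have h1 : (fun x => L.formPerm.symm x)^[q] L[i] = (L.formPerm ^ q).symm L[i] := by
    have : (fun x => L.formPerm.symm x) = ⇑(L.formPerm⁻¹) := rfl
    rw [this, Equiv.Perm.iterate_eq_pow, inv_pow]
    rfl
  rw [h1, Equiv.symm_apply_eq, List.formPerm_pow_apply_getElem L hL]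
  rw [hL.getElem_inj_iff]
  constructor
  · intro h
    have h2 : (i + q) % L.length = i % L.length := by
      rw [Nat.mod_eq_of_lt hi]; exact h.symm
    have h3 : (i + q) ≡ (i + 0) [MOD L.length] := h2
    exact (Nat.modEq_zero_iff_dvd).1 (Nat.ModEq.add_left_cancel' i h3)
  · intro h
    obtain ⟨r, rfl⟩ := h
    rw [Nat.add_mul_mod_self_left, Nat.mod_eq_of_lt hi]

section cyc

variable {G : Type u} {n : ℕ} {f : Fin n → ℕ} (D : Dat G n f)

/-- successor in the rotation of `Y` -/
def nx (p : D.blk.Pos) : D.blk.Pos := mu1 D (D.blk.pred p)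

lemma nx_up0 (k : KK f) (j : Fin (D.blk.r k)) (h : j.1 = 0) :
    nx D (D.blk.up k j) = D.blk.up (D.blk.pk k) (D.blk.r0 _) := by
  simp only [nx, Blk.pred, dif_pos h]; rfl

lemma nx_up (k : KK f) (j : Fin (D.blk.r k)) (h : ¬ j.1 = 0) :
    nx D (D.blk.up k j) = D.blk.dn k ⟨j.1 - 1, lt_of_le_of_lt (Nat.sub_le _ _) j.2⟩ := by
  simp only [nx, Blk.pred, dif_neg h]; rfl

lemma nx_fp0 (x : (i : Fin n) × Fin (f i)) (j : Fin (D.blk.l (x, true))) (h : j.1 = 0) :
    nx D (D.blk.fc (x, true) j) = D.blk.dn (x, true) (D.blk.r1 _) := by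
  simp only [nx, Blk.pred]
  rw [if_pos trivial, dif_pos h]; rfl

lemma nx_fp (x : (i : Fin n) × Fin (f i)) (j : Fin (D.blk.l (x, true))) (h : ¬ j.1 = 0) :
    nx D (D.blk.fc (x, true) j) =
      D.blk.fc (x, false) ⟨j.1 - 1, lt_of_le_of_lt (Nat.sub_le _ _) j.2⟩ := by
  simp only [nx, Blk.pred]
  rw [if_pos trivial, dif_neg h]; rfl

lemma nx_fm (x : (i : Fin n) × Fin (f i)) (j : Fin (D.blk.l (x, false)))
    (h : j.1 + 1 < D.blk.l (x, false)) :
    nx D (D.blk.fc (x, false) j) = D.blk.fc (x, true) ⟨j.1 + 1, h⟩ := by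
  simp only [nx, Blk.pred]
  rw [if_neg (by simp), dif_pos h]; rfl

lemma nx_fm1 (x : (i : Fin n) × Fin (f i)) (j : Fin (D.blk.l (x, false)))
    (h : ¬ j.1 + 1 < D.blk.l (x, false)) :
    nx D (D.blk.fc (x, false) j) = D.blk.dn (x, false) (D.blk.r1 _) := by
  simp only [nx, Blk.pred]
  rw [if_neg (by simp), dif_neg h]; rfl

lemma nx_dn (k : KK f) (j : Fin (D.blk.r k)) (h : j.1 + 1 < D.blk.r k) :
    nx D (D.blk.dn k j) = D.blk.up k ⟨j.1 + 1, h⟩ := by
  simp only [nx, Blk.pred]
  rw [dif_pos h]; rfl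

lemma nx_dp1 (x : (i : Fin n) × Fin (f i)) (j : Fin (D.blk.r (x, true)))
    (h : ¬ j.1 + 1 < D.blk.r (x, true)) :
    nx D (D.blk.dn (x, true) j) = D.blk.fc (x, false) (D.blk.l1 (x, false)) := by
  simp only [nx, Blk.pred]
  rw [dif_neg h, if_pos trivial]; rfl

lemma nx_dm1 (x : (i : Fin n) × Fin (f i)) (j : Fin (D.blk.r (x, false)))
    (h : ¬ j.1 + 1 < D.blk.r (x, false)) :
    nx D (D.blk.dn (x, false) j) = D.blk.fc (x, true) (D.blk.l0 (x, true)) := by
  simp only [nx, Blk.pred]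
  rw [dif_neg h, if_neg (by simp)]; rfl

lemma r1_last (k : KK f) : ¬ (D.blk.r1 k).1 + 1 < D.blk.r k := by
  have := D.blk.hst k
  simp only [Blk.r1, Blk.r] at *
  omega

lemma l1_last (k : KK f) : ¬ (D.blk.l1 k).1 + 1 < D.blk.l k := by
  have := D.blk.hW k.1.1
  simp only [Blk.l1, Blk.l] at *
  omega

/-- the period of a position -/
def per : D.blk.Pos → ℕ
  | ⟨_, Sum.inl j⟩ => if j.1 = 0 then D.ord.length else 2
  | ⟨(x, true), Sum.inr (Sum.inl j)⟩ => if j.1 = 0 then 4 else 2
  | ⟨(x, false), Sum.inr (Sum.inl j)⟩ => if j.1 + 1 < D.blk.l (x, false) then 2 else 4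
  | ⟨k, Sum.inr (Sum.inr j)⟩ => if j.1 + 1 < D.blk.r k then 2 else 4

variable [Group G]

lemma gacc_two {P : Type} (nxt : P → P) (g : P → G) (p : P) :
    gacc nxt g 2 p = g (nxt p) * g p := by
  simp [gacc]

lemma gacc_four {P : Type} (nxt : P → P) (g : P → G) (p : P) :
    gacc nxt g 4 p = g (nxt (nxt (nxt p))) * (g (nxt (nxt p)) * (g (nxt p) * g p)) := by
  simp [gacc]

lemma nx_up0_iter (k : KK f) (q : ℕ) :
    (nx D)^[q] (D.blk.up k (D.blk.r0 k)) =
      D.blk.up ((fun x => D.blk.pk x)^[q] k) (D.blk.r0 _) ∧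
    gacc (nx D) D.blk.lab q (D.blk.up k (D.blk.r0 k)) =
      (D.blk.a0 ((fun x => D.blk.pk x)^[q] k))⁻¹ * D.blk.a0 k := by
  induction q with
  | zero => simp [gacc]
  | succ q ih =>
    constructor
    · rw [Function.iterate_succ_apply', ih.1, nx_up0 D _ _ rfl, Function.iterate_succ_apply']
    · rw [gacc, ih.1, ih.2]
      have h1 : ∀ k', D.blk.lab (D.blk.up k' (D.blk.r0 k')) =
          (D.blk.a0 (D.blk.pk k'))⁻¹ * D.blk.a0 k' := by
        intro k'
        simp only [Blk.lab]
        rw [if_pos (by rfl)]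
      rw [h1, Function.iterate_succ_apply']
      group

lemma up_inj {k k' : KK f} (h : D.blk.up k (D.blk.r0 k) = D.blk.up k' (D.blk.r0 k')) : k = k' :=
  congrArg Sigma.fst h

/-- the 2-cycles along the stems -/
lemma cyc_stem (k : KK f) (j : Fin (D.blk.r k)) (h : j.1 + 1 < D.blk.r k) :
    nx D (D.blk.up k ⟨j.1 + 1, h⟩) = D.blk.dn k j := by
  rw [nx_up D k _ (by simp)]
  rfl

lemma lab_stem (k : KK f) (j : Fin (D.blk.r k)) (h : j.1 + 1 < D.blk.r k) :
    D.blk.lab (D.blk.dn k j) = (D.blk.lab (D.blk.up k ⟨j.1 + 1, h⟩))⁻¹ := by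
  simp only [Blk.lab]
  rw [dif_pos h, if_neg (by simp)]

/-- the 2-cycles at the inner corners of the faces -/
lemma cyc_face (x : (i : Fin n) × Fin (f i)) (j : Fin (D.blk.l (x, false)))
    (h : j.1 + 1 < D.blk.l (x, false)) :
    nx D (D.blk.fc (x, true) ⟨j.1 + 1, h⟩) = D.blk.fc (x, false) j := by
  rw [nx_fp D x _ (by simp)]
  rfl

lemma lab_face (x : (i : Fin n) × Fin (f i)) (j : Fin (D.blk.l (x, false)))
    (h : j.1 + 1 < D.blk.l (x, false)) :
    D.blk.lab (D.blk.fc (x, false) j) = (D.blk.lab (D.blk.fc (x, true) ⟨j.1 + 1, h⟩))⁻¹ := by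
  simp only [Blk.lab]
  rw [if_neg (by simp), dif_pos h, if_pos trivial]

/-- the 4-cycle of the face `x` -/
lemma cyc4 (x : (i : Fin n) × Fin (f i)) :
    nx D (D.blk.fc (x, true) (D.blk.l0 (x, true))) = D.blk.dn (x, true) (D.blk.r1 _) ∧
    nx D (D.blk.dn (x, true) (D.blk.r1 _)) = D.blk.fc (x, false) (D.blk.l1 (x, false)) ∧
    nx D (D.blk.fc (x, false) (D.blk.l1 (x, false))) = D.blk.dn (x, false) (D.blk.r1 _) ∧
    nx D (D.blk.dn (x, false) (D.blk.r1 _)) = D.blk.fc (x, true) (D.blk.l0 (x, true)) :=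
  ⟨nx_fp0 D x _ rfl, nx_dp1 D x _ (r1_last D _), nx_fm1 D x _ (l1_last D _),
    nx_dm1 D x _ (r1_last D _)⟩

lemma lab4 (x : (i : Fin n) × Fin (f i)) :
    D.blk.lab (D.blk.dn (x, true) (D.blk.r1 _)) = 1 ∧
    D.blk.lab (D.blk.fc (x, false) (D.blk.l1 (x, false))) = 1 ∧
    D.blk.lab (D.blk.dn (x, false) (D.blk.r1 _)) =
      (D.blk.lab (D.blk.fc (x, true) (D.blk.l0 (x, true))))⁻¹ := by
  refine ⟨?_, ?_, ?_⟩
  · simp only [Blk.lab]
    rw [dif_neg (r1_last D _), if_pos trivial]
  · simp only [Blk.lab]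
    rw [if_neg (by simp), dif_neg (l1_last D _)]
  · simp only [Blk.lab]
    rw [dif_neg (r1_last D _), if_neg (by simp), if_pos trivial]
    rfl

/-- **periods and holonomies of `Y`** -/
theorem period_hol (p : D.blk.Pos) :
    (∀ q, (nx D)^[q] p = p ↔ per D p ∣ q) ∧ gacc (nx D) D.blk.lab (per D p) p = 1 := by
  rcases p with ⟨⟨x, s⟩, j | j | j⟩
  · -- up
    by_cases h : j.1 = 0
    · have hj : j = D.blk.r0 (x, s) := Fin.ext h
      subst hj
      have hper : per D ⟨(x, s), Sum.inl (D.blk.r0 (x, s))⟩ = D.ord.length := by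
        simp only [per]
        exact if_pos rfl
      have hk : ∀ q, ((fun x => D.blk.pk x)^[q] (x, s)) = (x, s) ↔ D.ord.length ∣ q :=
        fun q => formPerm_symm_iterate D.ord D.hnd (x, s) (D.hall _) q
      rw [hper]
      constructor
      · intro q
        rw [← hk q]
        have h1 := (nx_up0_iter D (x, s) q).1
        constructor
        · intro h2
          exact up_inj D (h1.symm.trans h2)
        · intro h2
          refine h1.trans ?_
          rw [h2]
      · have h1 := (nx_up0_iter D (x, s) D.ord.length).2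
        refine h1.trans ?_
        rw [(hk _).2 dvd_rfl, inv_mul_cancel]
    · have hper : per D ⟨(x, s), Sum.inl j⟩ = 2 := by
        simp only [per]
        exact if_neg h
      rw [hper]
      have h1 := nx_up D (x, s) j h
      have hlt : (⟨j.1 - 1, lt_of_le_of_lt (Nat.sub_le _ _) j.2⟩ : Fin (D.blk.r (x, s))).1 + 1 <
          D.blk.r (x, s) := by
        have := j.2
        simp only
        omega
      have hj : (⟨j.1 - 1 + 1, hlt⟩ : Fin (D.blk.r (x, s))) = j := by
        apply Fin.ext; simp only; omega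
      have h2 := nx_dn D (x, s) ⟨j.1 - 1, lt_of_le_of_lt (Nat.sub_le _ _) j.2⟩ hlt
      simp only at h2
      rw [hj] at h2
      have h3 := lab_stem D (x, s) ⟨j.1 - 1, lt_of_le_of_lt (Nat.sub_le _ _) j.2⟩ hlt
      simp only at h3
      rw [hj] at h3
      constructor
      · apply period_two
        · rw [h1, h2]
        · rw [h1]; intro h'; cases h'
      · rw [gacc_two, h1, h3, inv_mul_cancel]
  · -- face
    obtain ⟨c1, c2, c3, c4⟩ := cyc4 D x
    obtain ⟨e1, e2, e3⟩ := lab4 D x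
    cases s
    · by_cases h : j.1 + 1 < D.blk.l (x, false)
      · have hper : per D ⟨(x, false), Sum.inr (Sum.inl j)⟩ = 2 := by
          simp only [per]
          exact if_pos h
        rw [hper]
        have h1 := nx_fm D x j h
        have h2 := cyc_face D x j h
        have h3 := lab_face D x j h
        constructor
        · apply period_two
          · rw [h1, h2]
          · rw [h1]; intro h'; cases h'
        · rw [gacc_two, h1, h3, mul_inv_cancel]
      · have hj : j = D.blk.l1 (x, false) := lt_lastf h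
        subst hj
        have hper : per D ⟨(x, false), Sum.inr (Sum.inl (D.blk.l1 (x, false)))⟩ = 4 := by
          simp only [per]
          exact if_neg h
        rw [hper]
        constructor
        · apply period_four
          · rw [c3, c4, c1, c2]
          · rw [c3, c4]; intro h'; cases h'
        · rw [gacc_four, c3, c4, c1, e1, e2, e3]
          group
    · by_cases h : j.1 = 0
      · have hj : j = D.blk.l0 (x, true) := Fin.ext h
        subst hj
        have hper : per D ⟨(x, true), Sum.inr (Sum.inl (D.blk.l0 (x, true)))⟩ = 4 := by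
          simp only [per]
          exact if_pos rfl
        rw [hper]
        constructor
        · apply period_four
          · rw [c1, c2, c3, c4]
          · rw [c1, c2]; intro h'; cases h'
        · rw [gacc_four, c1, c2, c3, e1, e2, e3]
          group
      · have hper : per D ⟨(x, true), Sum.inr (Sum.inl j)⟩ = 2 := by
          simp only [per]
          exact if_neg h
        rw [hper]
        have h1 := nx_fp D x j h
        have hlt : (⟨j.1 - 1, lt_of_le_of_lt (Nat.sub_le _ _) j.2⟩ : Fin (D.blk.l (x, false))).1 + 1 <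
            D.blk.l (x, false) := by
          have := j.2
          simp only [Blk.l] at *
          omega
        have hj : (⟨j.1 - 1 + 1, hlt⟩ : Fin (D.blk.l (x, true))) = j := by
          apply Fin.ext; simp only; omega
        have h2 := nx_fm D x ⟨j.1 - 1, lt_of_le_of_lt (Nat.sub_le _ _) j.2⟩ hlt
        simp only at h2
        rw [hj] at h2
        have h3 := lab_face D x ⟨j.1 - 1, lt_of_le_of_lt (Nat.sub_le _ _) j.2⟩ hlt
        simp only at h3
        rw [hj] at h3
        constructor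
        · apply period_two
          · rw [h1, h2]
          · rw [h1]; intro h'; cases h'
        · rw [gacc_two, h1, h3, inv_mul_cancel]
  · -- down
    obtain ⟨c1, c2, c3, c4⟩ := cyc4 D x
    obtain ⟨e1, e2, e3⟩ := lab4 D x
    by_cases h : j.1 + 1 < D.blk.r (x, s)
    · have hper : per D ⟨(x, s), Sum.inr (Sum.inr j)⟩ = 2 := by
        simp only [per]
        exact if_pos h
      rw [hper]
      have h1 := nx_dn D (x, s) j h
      have h2 := cyc_stem D (x, s) j h
      have h3 := lab_stem D (x, s) j h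
      constructor
      · apply period_two
        · rw [h1, h2]
        · rw [h1]; intro h'; cases h'
      · rw [gacc_two, h1, h3, mul_inv_cancel]
    · have hper : per D ⟨(x, s), Sum.inr (Sum.inr j)⟩ = 4 := by
        simp only [per]
        exact if_neg h
      rw [hper]
      have hj : j = D.blk.r1 (x, s) := lt_last h
      subst hj
      cases s
      · constructor
        · apply period_four
          · rw [c4, c1, c2, c3]
          · rw [c4, c1]; intro h'; cases h'
        · rw [gacc_four, c4, c1, c2, e1, e2, e3]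
          group
      · constructor
        · apply period_four
          · rw [c2, c3, c4, c1]
          · rw [c2, c3]; intro h'; cases h'
        · rw [gacc_four, c2, c3, c4, e1, e2, e3]
          group

lemma sum_fin_zero (r : ℕ) (hr : 0 < r) (a b : ℂ) :
    ∑ j : Fin r, (if j.1 = 0 then a else b) = a + ((r - 1 : ℕ) : ℂ) * b := by
  obtain ⟨r', rfl⟩ := Nat.exists_eq_succ_of_ne_zero hr.ne'
  rw [Fin.sum_univ_succ]
  simp

lemma sum_fin_last (r : ℕ) (hr : 0 < r) (a b : ℂ) :
    ∑ j : Fin r, (if j.1 + 1 < r then a else b) = ((r - 1 : ℕ) : ℂ) * a + b := by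
  obtain ⟨r', rfl⟩ := Nat.exists_eq_succ_of_ne_zero hr.ne'
  rw [Fin.sum_univ_castSucc]
  simp

/-- number of the 2-cycles -/
def N2 : ℕ := ∑ k : KK f, (D.blk.r k - 1) + ∑ x : (i : Fin n) × Fin (f i), ((D.W x.1).length - 1)

lemma length_ord : D.ord.length = 2 * Fintype.card ((i : Fin n) × Fin (f i)) := by
  classical
  have h1 : D.ord.toFinset = Finset.univ := by
    ext k; simp [D.hall k]
  have h2 := List.toFinset_card_of_nodup D.hnd
  rw [← h2, h1, Finset.card_univ, Fintype.card_prod, Fintype.card_bool, mul_comm]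

/-- the sum over the positions of a function of the period -/
lemma sum_per (w : ℕ → ℂ) : ∑ p : D.blk.Pos, w (per D p) =
    (D.ord.length : ℂ) * w D.ord.length + (2 * N2 D : ℕ) * w 2 +
      (4 * Fintype.card ((i : Fin n) × Fin (f i)) : ℕ) * w 4 := by
  have h1 : ∀ k : KK f, (∑ y : (Fin (D.blk.r k) ⊕ (Fin (D.blk.l k) ⊕ Fin (D.blk.r k))),
      w (per D ⟨k, y⟩)) = w D.ord.length +
        ((2 * (D.blk.r k - 1) + ((D.W k.1.1).length - 1) : ℕ) : ℂ) * w 2 + 2 * w 4 := by
    rintro ⟨x, s⟩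
    rw [Fintype.sum_sum_type, Fintype.sum_sum_type]
    have e1 : ∑ j : Fin (D.blk.r (x, s)), w (per D ⟨(x, s), Sum.inl j⟩) =
        w D.ord.length + ((D.blk.r (x, s) - 1 : ℕ) : ℂ) * w 2 := by
      rw [← sum_fin_zero _ (D.hst (x, s))]
      refine Finset.sum_congr rfl fun j _ => ?_
      simp only [per]
      split_ifs <;> rfl
    have e2 : ∑ j : Fin (D.blk.l (x, s)), w (per D ⟨(x, s), Sum.inr (Sum.inl j)⟩) =
        (((D.W x.1).length - 1 : ℕ) : ℂ) * w 2 + w 4 := by
      cases s
      · rw [← sum_fin_last _ (D.hW x.1)]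
        refine Finset.sum_congr rfl fun j _ => ?_
        simp only [per, Blk.l]
        split_ifs <;> rfl
      · rw [add_comm, ← sum_fin_zero _ (D.hW x.1)]
        refine Finset.sum_congr rfl fun j _ => ?_
        simp only [per]
        split_ifs <;> rfl
    have e3 : ∑ j : Fin (D.blk.r (x, s)), w (per D ⟨(x, s), Sum.inr (Sum.inr j)⟩) =
        ((D.blk.r (x, s) - 1 : ℕ) : ℂ) * w 2 + w 4 := by
      rw [← sum_fin_last _ (D.hst (x, s))]
      refine Finset.sum_congr rfl fun j _ => ?_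
      simp only [per]
      split_ifs <;> rfl
    rw [e1, e2, e3]
    push_cast
    ring
  rw [Fintype.sum_sigma, Finset.sum_congr rfl fun k _ => h1 k, Finset.sum_add_distrib,
    Finset.sum_add_distrib, Finset.sum_const, Finset.sum_const, Finset.card_univ,
    Fintype.card_prod, Fintype.card_bool, ← Finset.sum_mul, length_ord]
  have h2 : (∑ k : KK f, ((2 * (D.blk.r k - 1) + ((D.W k.1.1).length - 1) : ℕ) : ℂ)) =
      ((2 * N2 D : ℕ) : ℂ) := by
    rw [← Nat.cast_sum]
    congr 1
    rw [N2, Finset.sum_add_distrib, ← Finset.mul_sum, mul_add]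
    congr 1
    rw [Fintype.sum_prod_type]
    simp only [Fintype.sum_bool, Finset.mul_sum]
    refine Finset.sum_congr rfl fun x _ => ?_
    ring
  rw [h2]
  simp only [nsmul_eq_mul]
  push_cast
  ring

/-- **W4**: the spectral data of `Y = JJ(σ) U_c`. -/
theorem w4 (hF : 0 < Fintype.card ((i : Fin n) × Fin (f i))) : ∃ c : List ℕ,
    (∀ k ∈ c, 0 < k) ∧ c.sum = Fintype.card D.blk.Pos ∧
    2 * c.length + 4 * Fintype.card ((i : Fin n) × Fin (f i)) = Fintype.card D.blk.Pos + 2 ∧
    ∀ (σ : (i : Fin n) → Matrix (Fin (f i)) (Fin (f i)) ℂ)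
      (_ : ∀ i, σ i ∈ Matrix.unitaryGroup (Fin (f i)) ℂ)
      (JJ : Matrix D.blk.Pos D.blk.Pos ℂ) (_ : IsJJ D σ JJ) (q : ℕ),
      WD.trG ((sc G JJ * WD.mono D.blk.pred D.blk.lab (fun _ => 1)) ^ q) =
        (c.map fun k => cterm k (1 : G) 1 q).sum := by
  have hterm : ∀ k q, cterm k (1 : G) 1 q = (k : ℂ) * (if k ∣ q then 1 else 0) := by
    intro k q
    unfold cterm
    by_cases h : k ∣ q <;> simp [h]
  have hsum : ∀ q : ℕ, (((D.ord.length :: (List.replicate (N2 D) 2 ++
      List.replicate (Fintype.card ((i : Fin n) × Fin (f i))) 4)).map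
        fun k => cterm k (1 : G) 1 q).sum) = ∑ p : D.blk.Pos, if per D p ∣ q then (1 : ℂ) else 0 := by
    intro q
    rw [sum_per D (fun c => if c ∣ q then (1 : ℂ) else 0)]
    simp only [List.map_cons, List.map_append, List.map_replicate, List.sum_cons, List.sum_append,
      List.sum_replicate, hterm, nsmul_eq_mul]
    push_cast
    ring
  have hcard : (D.ord.length :: (List.replicate (N2 D) 2 ++
      List.replicate (Fintype.card ((i : Fin n) × Fin (f i))) 4)).sum =
        Fintype.card D.blk.Pos := by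
    have h0 := hsum 0
    have h1 : (∑ p : D.blk.Pos, if per D p ∣ 0 then (1 : ℂ) else 0) =
        (Fintype.card D.blk.Pos : ℂ) := by
      simp
    rw [h1] at h0
    apply Nat.cast_injective (R := ℂ)
    rw [← h0]
    simp only [hterm, dvd_zero, if_true, mul_one]
    rw [Nat.cast_list_sum]
  refine ⟨_, ?_, hcard, ?_, ?_⟩
  · intro k hk
    simp only [List.mem_cons, List.mem_append, List.mem_replicate] at hk
    rcases hk with rfl | ⟨_, rfl⟩ | ⟨_, rfl⟩
    · rw [length_ord]; omega
    · norm_num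
    · norm_num
  · simp only [List.length_cons, List.length_append, List.length_replicate, List.sum_cons,
      List.sum_append, List.sum_replicate, smul_eq_mul, length_ord] at hcard ⊢
    omega
  · intro σ hσ JJ hJ q
    rw [trG_Y_pow D σ hσ JJ hJ q, hsum q]
    exact trG_mono_pow_of_period (nx D) D.blk.lab (per D) (fun p => (period_hol D p).1)
      (fun p => (period_hol D p).2) q

end cyc

end Crest.Agent.R174.W4
private theorem rz_fa5d0b70bc : type_of% @_root_.Crest.Agent.R174.W4.per.eq_1 := @_root_.Crest.Agent.R174.W4.per.eq_1 -- L165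
end

-- ▼ part R174/W4Link477
section

set_option autoImplicit false

/-!
# R174, W4 (part 3): the node matrix of the glue satisfies `IsJJ`; the Prop `Glue.W4`.
-/

open scoped Matrix.Norms.L2Operator
open Crest.Agent.R174.Red Crest.Agent.R174.GR

namespace Crest.Agent.R174.W4

open Crest.Agent.R174.Glue

universe u

section sysgen

variable {ι A Q : Type} [Fintype ι] [LinearOrder ι] [Fintype A] [DecidableEq A]
  [Fintype Q] [DecidableEq Q]

lemma Jbig_inl (S : Sys ι A Q) (St : ι → Type) [∀ x, DecidableEq (St x)] (σ : S.KA)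
    (x' x : ι) (P' : S.Po x') (P : S.Po x) :
    Jbig S St σ ⟨x', Sum.inl P'⟩ ⟨x, Sum.inl P⟩ =
      if h : P'.1.2 = P.1.2 then
        (if S.pos P'.1.2 then σ (S.rel P'.1.2) else Ring.inverse (σ (S.rel P'.1.2)))
          ⟨P'.1.1, P'.2.1⟩ ⟨P.1.1, (P.2.1).trans (congrArg S.rel h.symm)⟩
      else 0 := by
  unfold Jbig
  by_cases hx : x' = x
  · subst hx
    rw [Matrix.blockDiagonal'_apply_eq, Matrix.fromBlocks_apply₁₁]
    rfl
  · rw [Matrix.blockDiagonal'_apply_ne _ _ _ hx, dif_neg]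
    intro h
    exact hx (P'.2.2.symm.trans ((congrArg S.var h).trans P.2.2))

lemma Jbig_inr (S : Sys ι A Q) (St : ι → Type) [∀ x, DecidableEq (St x)] (σ : S.KA)
    (x : ι) (s : St x) (P' : Σ x, (S.Po x ⊕ St x)) [Decidable (P' = ⟨x, Sum.inr s⟩)] :
    Jbig S St σ P' ⟨x, Sum.inr s⟩ = if P' = ⟨x, Sum.inr s⟩ then 1 else 0 := by
  unfold Jbig
  obtain ⟨x', P'⟩ := P'
  by_cases hx : x' = x
  · subst hx
    rw [Matrix.blockDiagonal'_apply_eq]
    rcases P' with P' | s'
    · rw [Matrix.fromBlocks_apply₁₂, if_neg (by simp)]; rfl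
    · rw [Matrix.fromBlocks_apply₂₂, Matrix.one_apply]
      by_cases h : s' = s
      · subst h; simp
      · rw [if_neg h, if_neg (by simpa using h)]
  · rw [Matrix.blockDiagonal'_apply_ne _ _ _ hx, if_neg]
    intro h
    exact hx (congrArg Sigma.fst h)

lemma Jbig_inr' (S : Sys ι A Q) (St : ι → Type) [∀ x, DecidableEq (St x)] (σ : S.KA)
    (x : ι) (s : St x) (P' : Σ x, (S.Po x ⊕ St x)) [Decidable (P' = ⟨x, Sum.inr s⟩)] :
    Jbig S St σ ⟨x, Sum.inr s⟩ P' = if P' = ⟨x, Sum.inr s⟩ then 1 else 0 := by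
  unfold Jbig
  obtain ⟨x', P'⟩ := P'
  by_cases hx : x' = x
  · subst hx
    rw [Matrix.blockDiagonal'_apply_eq]
    rcases P' with P' | s'
    · rw [Matrix.fromBlocks_apply₂₁, if_neg (by simp)]; rfl
    · rw [Matrix.fromBlocks_apply₂₂, Matrix.one_apply]
      by_cases h : s' = s
      · subst h; simp
      · rw [if_neg (Ne.symm h), if_neg (by simpa using h)]
  · rw [Matrix.blockDiagonal'_apply_ne _ _ _ (Ne.symm hx), if_neg]
    intro h
    exact hx (congrArg Sigma.fst h)

end sysgen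

section anti

variable {Pos : Type} {ι : Type} {N : ι → Type}

lemma anti_apply (e : Pos ≃ (Σ x, N x) × Bool) (B : Matrix (Σ x, N x) (Σ x, N x) ℂ) (p' p : Pos) :
    anti e B p' p = if (e p).2 = true then (if (e p').2 = true then 0 else B (e p').1 (e p).1)
      else (if (e p').2 = true then star (B (e p).1 (e p').1) else 0) := by
  unfold anti
  rw [Matrix.submatrix_apply]
  simp only [Equiv.trans_apply]
  rcases hp : e p with ⟨a, s⟩
  rcases hp' : e p' with ⟨a', s'⟩
  cases s <;> cases s' <;> simp [eBool, Matrix.star_apply]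

end anti

section link

variable {G : Type u} {n : ℕ}
variable (W : Fin n → List (G × Fin n × Bool)) (f : Fin n → ℕ)
variable (hW : ∀ i, 0 < (W i).length) (st : Ka f → List (G × Fin n × Bool))
    (hst : ∀ k, 0 < (st k).length) (ord : List (Ka f)) (hnd : ord.Nodup) (hall : ∀ k, k ∈ ord)

/-- the data in the form `Dat` -/
abbrev dat : Dat G n f := ⟨W, ord, hnd, hall, st, hst, hW⟩

/-- `σ i` as a matrix on `Fin (f i)` -/
def sig (σ : (sys W f).KA) (i : Fin n) : Matrix (Fin (f i)) (Fin (f i)) ℂ :=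
  (σ i).submatrix (fun a => ⟨⟨i, a⟩, rfl⟩) (fun a => ⟨⟨i, a⟩, rfl⟩)

/-- the faces of type `i` -/
def eFa (i : Fin n) : Fin (f i) ≃ (sys W f).Fa i where
  toFun a := ⟨⟨i, a⟩, rfl⟩
  invFun a := Fin.cast (congrArg f a.2) a.1.2
  left_inv a := rfl
  right_inv := by
    rintro ⟨⟨i', a⟩, h⟩
    have h' : i' = i := h
    subst h'
    rfl

lemma sig_unitary (σ : (sys W f).KA) (hσ : σ ∈ unitary (sys W f).KA) (i : Fin n) :
    sig W f σ i ∈ Matrix.unitaryGroup (Fin (f i)) ℂ := by
  have h1 := GR.pi_unitary.1 hσ i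
  have h2 : sig W f σ i = (σ i).submatrix (eFa W f i) (eFa W f i) := rfl
  rw [Matrix.mem_unitaryGroup_iff, h2]
  have h3 : star ((σ i).submatrix (eFa W f i) (eFa W f i)) =
    (star (σ i)).submatrix (eFa W f i) (eFa W f i) := rfl
  rw [h3, Matrix.submatrix_mul_equiv, (Unitary.mem_iff.1 h1).2, Matrix.submatrix_one_equiv]

lemma sum_ite_fc (i i' : Fin n) (a' : Fin (f i')) (s s' : Bool) (j' : Fin (W i').length)
    (j : Fin (W i).length) (c : Fin (f i) → ℂ) :
    (∑ a'', if ((dat W f hW st hst ord hnd hall).blk.fc (⟨i', a'⟩, s') j') =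
        (dat W f hW st hst ord hnd hall).blk.fc (⟨i, a''⟩, s) j then c a'' else 0) =
      if h : (⟨i', j'⟩ : Σ i, Fin (W i).length) = ⟨i, j⟩ then
        (if s' = s then c (Fin.cast (congrArg (fun y : Σ i, Fin (W i).length => f y.1) h) a') else 0)
      else 0 := by
  by_cases hi : i' = i
  · subst hi
    by_cases hj : j' = j
    · subst hj
      by_cases hs : s' = s
      · subst hs
        rw [dif_pos rfl, if_pos rfl, Finset.sum_eq_single a']
        · rw [if_pos rfl]; rfl
        · intro b _ hb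
          rw [if_neg]
          intro h
          apply hb
          have h1 := congrArg Sigma.fst h
          have h2 : (⟨i', a'⟩ : Σ i, Fin (f i)) = ⟨i', b⟩ := congrArg Prod.fst h1
          exact (eq_of_heq (Sigma.mk.inj h2).2).symm
        · intro h; exact absurd (Finset.mem_univ _) h
      · rw [dif_pos rfl, if_neg hs]
        apply Finset.sum_eq_zero
        intro b _
        rw [if_neg]
        intro h
        exact hs (congrArg Prod.snd (congrArg Sigma.fst h))
    · rw [dif_neg]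
      · apply Finset.sum_eq_zero
        intro b _
        rw [if_neg]
        intro h
        apply hj
        have h1 := congrArg Sigma.fst h
        have h2 : (⟨i', a'⟩ : Σ i, Fin (f i)) = ⟨i', b⟩ := congrArg Prod.fst h1
        have h3 : a' = b := eq_of_heq (Sigma.mk.inj h2).2
        have h4 : s' = s := congrArg Prod.snd h1
        subst h3 h4
        have h5 := eq_of_heq (Sigma.mk.inj h).2
        simpa using h5
      · intro h
        exact hj (eq_of_heq (Sigma.mk.inj h).2)
  · rw [dif_neg]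
    · apply Finset.sum_eq_zero
      intro b _
      rw [if_neg]
      intro h
      exact hi (congrArg (fun y => y.1.1.1) h)
    · intro h
      exact hi (congrArg Sigma.fst h)

/-- entries between two faces -/
lemma Jbig_face (σ : (sys W f).KA) (hσ : σ ∈ unitary (sys W f).KA) (i i' : Fin n)
    (a : Fin (f i)) (a' : Fin (f i')) (s s' : Bool) (j : Fin (W i).length)
    (j' : Fin (W i').length) :
    Jbig (sys W f) (St f st) σ
      (pr W f hW st hst ord hnd hall ((dat W f hW st hst ord hnd hall).blk.fc (⟨i', a'⟩, s') j'))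
      (pr W f hW st hst ord hnd hall ((dat W f hW st hst ord hnd hall).blk.fc (⟨i, a⟩, s) j)) =
      if h : (⟨i', j'⟩ : Σ i, Fin (W i).length) = ⟨i, j⟩ then
        (if ((W i).get j).2.2 then sig W f σ i else star (sig W f σ i))
          (Fin.cast (congrArg (fun y : Σ i, Fin (W i).length => f y.1) h) a') a
      else 0 := by
  have h1 := Jbig_inl (sys W f) (St f st) σ ((W i').get j').2.1 ((W i).get j).2.1
    ⟨(⟨i', a'⟩, ⟨i', j'⟩), rfl, rfl⟩ ⟨(⟨i, a⟩, ⟨i, j⟩), rfl, rfl⟩
  refine h1.trans ?_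
  by_cases hi : i' = i
  · subst hi
    by_cases hj : j' = j
    · subst hj
      rw [dif_pos rfl, dif_pos rfl]
      have hpos : (sys W f).pos ⟨i', j'⟩ = ((W i').get j').2.2 := rfl
      have hinv : Ring.inverse (σ i') = star (σ i') :=
        GR.ringInverse_unitary (GR.pi_unitary.1 hσ i')
      by_cases hb : ((W i').get j').2.2 = true
      · have hb' : (sys W f).pos ⟨i', j'⟩ = true := hb
        simp only [hb, hb', if_true]
        rfl
      · have hb' : ¬ (sys W f).pos ⟨i', j'⟩ = true := hb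
        rw [if_neg hb, if_neg hb']
        have hinv' : Ring.inverse (σ ((sys W f).rel ⟨i', j'⟩)) =
          star (σ ((sys W f).rel ⟨i', j'⟩)) := hinv
        rw [hinv']
        rfl
    · rw [dif_neg, dif_neg]
      · intro h; exact hj (eq_of_heq (Sigma.mk.inj h).2)
      · intro h; exact hj (eq_of_heq (Sigma.mk.inj h).2)
  · rw [dif_neg, dif_neg]
    · intro h; exact hi (congrArg Sigma.fst h)
    · intro h; exact hi (congrArg Sigma.fst h)

lemma e_fc (i : Fin n) (a : Fin (f i)) (s : Bool) (j : Fin (W i).length) :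
    (ePos W f hW st hst ord hnd hall
      ((dat W f hW st hst ord hnd hall).blk.fc (⟨i, a⟩, s) j)).2 =
      (if s then ((W i).get j).2.2 else !((W i).get j).2.2) := rfl

/-- entries of the node matrix between two faces -/
lemma anti_face (σ : (sys W f).KA) (hσ : σ ∈ unitary (sys W f).KA) (i i' : Fin n)
    (a : Fin (f i)) (a' : Fin (f i')) (s s' : Bool) (j : Fin (W i).length)
    (j' : Fin (W i').length) :
    anti (ePos W f hW st hst ord hnd hall) (Jbig (sys W f) (St f st) σ)
      ((dat W f hW st hst ord hnd hall).blk.fc (⟨i', a'⟩, s') j')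
      ((dat W f hW st hst ord hnd hall).blk.fc (⟨i, a⟩, s) j) =
      if h : (⟨i', j'⟩ : Σ i, Fin (W i).length) = ⟨i, j⟩ then
        (if s' = !s then (if s then sig W f σ i else star (sig W f σ i))
          (Fin.cast (congrArg (fun y : Σ i, Fin (W i).length => f y.1) h) a') a else 0)
      else 0 := by
  rw [anti_apply, e_fc, e_fc]
  have h1 := Jbig_face W f hW st hst ord hnd hall σ hσ i i' a a' s s' j j'
  have h2 := Jbig_face W f hW st hst ord hnd hall σ hσ i' i a' a s' s j' j
  have h1' : Jbig (sys W f) (St f st) σ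
    (ePos W f hW st hst ord hnd hall ((dat W f hW st hst ord hnd hall).blk.fc (⟨i', a'⟩, s') j')).1
    (ePos W f hW st hst ord hnd hall ((dat W f hW st hst ord hnd hall).blk.fc (⟨i, a⟩, s) j)).1 =
      _ := h1
  have h2' : Jbig (sys W f) (St f st) σ
    (ePos W f hW st hst ord hnd hall ((dat W f hW st hst ord hnd hall).blk.fc (⟨i, a⟩, s) j)).1
    (ePos W f hW st hst ord hnd hall ((dat W f hW st hst ord hnd hall).blk.fc (⟨i', a'⟩, s') j')).1
     = _ := h2
  rw [h1', h2']
  by_cases hi : i' = i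
  · subst hi
    by_cases hj : j' = j
    · subst hj
      rw [dif_pos rfl, dif_pos rfl, dif_pos rfl]
      cases s <;> cases s' <;> cases hb : ((W i').get j').2.2 <;>
        simp [Matrix.star_apply]
    · have e1 : ¬ (⟨i', j'⟩ : Σ i, Fin (W i).length) = ⟨i', j⟩ := by
        intro h; exact hj (eq_of_heq (Sigma.mk.inj h).2)
      have e2 : ¬ (⟨i', j⟩ : Σ i, Fin (W i).length) = ⟨i', j'⟩ := fun h => e1 h.symm
      rw [dif_neg e1, dif_neg e2, dif_neg e1]
      simp
  · have e1 : ¬ (⟨i', j'⟩ : Σ i, Fin (W i).length) = ⟨i, j⟩ := by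
      intro h; exact hi (congrArg Sigma.fst h)
    have e2 : ¬ (⟨i, j⟩ : Σ i, Fin (W i).length) = ⟨i', j'⟩ := fun h => e1 h.symm
    rw [dif_neg e1, dif_neg e2, dif_neg e1]
    simp

/-- entries of the node matrix in the column of a stem letter -/
lemma anti_stem1 (σ : (sys W f).KA) (x : Fin n) (t : St f st x)
    (p p' : (dat W f hW st hst ord hnd hall).blk.Pos)
    (hp : (ePos W f hW st hst ord hnd hall p).1 = ⟨x, Sum.inr t⟩)
    (h : ePos W f hW st hst ord hnd hall p' =
      (⟨x, Sum.inr t⟩, !(ePos W f hW st hst ord hnd hall p).2)) :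
    anti (ePos W f hW st hst ord hnd hall) (Jbig (sys W f) (St f st) σ) p' p = 1 := by
  classical
  rw [anti_apply, hp, h]
  have e1 := Jbig_inr (sys W f) (St f st) σ x t ⟨x, Sum.inr t⟩
  rw [if_pos rfl] at e1
  rw [e1]
  cases (ePos W f hW st hst ord hnd hall p).2 <;> simp

lemma anti_stem0 (σ : (sys W f).KA) (x : Fin n) (t : St f st x)
    (p p' : (dat W f hW st hst ord hnd hall).blk.Pos)
    (hp : (ePos W f hW st hst ord hnd hall p).1 = ⟨x, Sum.inr t⟩)
    (h : ¬ ePos W f hW st hst ord hnd hall p' =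
      (⟨x, Sum.inr t⟩, !(ePos W f hW st hst ord hnd hall p).2)) :
    anti (ePos W f hW st hst ord hnd hall) (Jbig (sys W f) (St f st) σ) p' p = 0 := by
  classical
  rw [anti_apply, hp]
  by_cases h1 : (ePos W f hW st hst ord hnd hall p').1 = ⟨x, Sum.inr t⟩
  · have h2 : ¬ (ePos W f hW st hst ord hnd hall p').2 =
        !(ePos W f hW st hst ord hnd hall p).2 := fun h2 => h (Prod.ext h1 h2)
    cases h3 : (ePos W f hW st hst ord hnd hall p).2 <;>
      cases h4 : (ePos W f hW st hst ord hnd hall p').2 <;> simp_all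
  · have e1 := Jbig_inr (sys W f) (St f st) σ x t (ePos W f hW st hst ord hnd hall p').1
    have e2 := Jbig_inr' (sys W f) (St f st) σ x t (ePos W f hW st hst ord hnd hall p').1
    rw [if_neg h1] at e1 e2
    rw [e1, e2]
    simp

/-- entries of the node matrix in the row of a stem letter, column of a face letter -/
lemma anti_stem_face (σ : (sys W f).KA) (x x' : Fin n) (t : St f st x)
    (P : (sys W f).Po x') (p p' : (dat W f hW st hst ord hnd hall).blk.Pos)
    (hp' : (ePos W f hW st hst ord hnd hall p').1 = ⟨x, Sum.inr t⟩)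
    (hp : (ePos W f hW st hst ord hnd hall p).1 = ⟨x', Sum.inl P⟩) :
    anti (ePos W f hW st hst ord hnd hall) (Jbig (sys W f) (St f st) σ) p' p = 0 := by
  classical
  rw [anti_apply, hp, hp']
  have e1 := Jbig_inr (sys W f) (St f st) σ x t ⟨x', Sum.inl P⟩
  have e2 := Jbig_inr' (sys W f) (St f st) σ x t ⟨x', Sum.inl P⟩
  have h1 : ¬ (⟨x', Sum.inl P⟩ : Σ x, ((sys W f).Po x ⊕ St f st x)) = ⟨x, Sum.inr t⟩ := by
    intro h
    have h2 := congrArg Sigma.fst h
    simp only at h2
    subst h2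
    simp at h
  rw [if_neg h1] at e1 e2
  rw [e1, e2]
  simp

/-- **link**: the node matrix of the glue is a node matrix -/
theorem isJJ (σ : (sys W f).KA) (hσ : σ ∈ unitary (sys W f).KA) :
    IsJJ (dat W f hW st hst ord hnd hall) (sig W f σ)
      (anti (ePos W f hW st hst ord hnd hall) (Jbig (sys W f) (St f st) σ)) where
  up := by
    intro k j p'
    by_cases h : p' = (dat W f hW st hst ord hnd hall).blk.dn k j
    · rw [if_pos h, h]
      exact anti_stem1 W f hW st hst ord hnd hall σ ((st k).get j).2.1 ⟨⟨k, j⟩, rfl⟩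
        ((dat W f hW st hst ord hnd hall).blk.up k j) _ rfl rfl
    · rw [if_neg h]
      refine anti_stem0 W f hW st hst ord hnd hall σ ((st k).get j).2.1 ⟨⟨k, j⟩, rfl⟩
        ((dat W f hW st hst ord hnd hall).blk.up k j) p' rfl ?_
      intro h1
      exact h ((ePos W f hW st hst ord hnd hall).injective h1)
  dn := by
    intro k j p'
    have h3 : (!(ePos W f hW st hst ord hnd hall
          ((dat W f hW st hst ord hnd hall).blk.dn k j)).2) =
          (ePos W f hW st hst ord hnd hall ((dat W f hW st hst ord hnd hall).blk.up k j)).2 := by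
      show (!!((st k).get j).2.2) = ((st k).get j).2.2
      rw [Bool.not_not]
    by_cases h : p' = (dat W f hW st hst ord hnd hall).blk.up k j
    · rw [if_pos h, h]
      refine anti_stem1 W f hW st hst ord hnd hall σ ((st k).get j).2.1 ⟨⟨k, j⟩, rfl⟩
        ((dat W f hW st hst ord hnd hall).blk.dn k j) _ rfl ?_
      rw [h3]
      rfl
    · rw [if_neg h]
      refine anti_stem0 W f hW st hst ord hnd hall σ ((st k).get j).2.1 ⟨⟨k, j⟩, rfl⟩
        ((dat W f hW st hst ord hnd hall).blk.dn k j) p' rfl ?_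
      intro h1
      rw [h3] at h1
      exact h ((ePos W f hW st hst ord hnd hall).injective h1)
  fp := by
    intro i a j p'
    rcases p' with ⟨⟨⟨i', a'⟩, s'⟩, j' | j' | j'⟩
    · rw [Finset.sum_eq_zero]
      · exact anti_stem_face W f hW st hst ord hnd hall σ
          ((st (⟨i', a'⟩, s')).get j').2.1 _ ⟨⟨(⟨i', a'⟩, s'), j'⟩, rfl⟩ _ _ _ rfl rfl
      · intro b _
        rw [if_neg]
        intro h
        cases h
    · rw [sum_ite_fc]
      refine (anti_face W f hW st hst ord hnd hall σ hσ i i' a a' true s' j j').trans ?_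
      rfl
    · rw [Finset.sum_eq_zero]
      · exact anti_stem_face W f hW st hst ord hnd hall σ
          ((st (⟨i', a'⟩, s')).get j').2.1 _ ⟨⟨(⟨i', a'⟩, s'), j'⟩, rfl⟩ _ _ _ rfl rfl
      · intro b _
        rw [if_neg]
        intro h
        cases h
  fm := by
    intro i a j p'
    rcases p' with ⟨⟨⟨i', a'⟩, s'⟩, j' | j' | j'⟩
    · rw [Finset.sum_eq_zero]
      · exact anti_stem_face W f hW st hst ord hnd hall σ
          ((st (⟨i', a'⟩, s')).get j').2.1 _ ⟨⟨(⟨i', a'⟩, s'), j'⟩, rfl⟩ _ _ _ rfl rfl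
      · intro b _
        rw [if_neg]
        intro h
        cases h
    · rw [sum_ite_fc]
      refine (anti_face W f hW st hst ord hnd hall σ hσ i i' a a' false s' j j').trans ?_
      rfl
    · rw [Finset.sum_eq_zero]
      · exact anti_stem_face W f hW st hst ord hnd hall σ
          ((st (⟨i', a'⟩, s')).get j').2.1 _ ⟨⟨(⟨i', a'⟩, s'), j'⟩, rfl⟩ _ _ _ rfl rfl
      · intro b _
        rw [if_neg]
        intro h
        cases h

/-- **W4** in the form of the glue -/
theorem glueW4 [Group G] (hord : ord ≠ []) : Glue.W4 W f hW st hst ord hnd hall := by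
  intro σ hσ
  have hF : 0 < Fintype.card ((i : Fin n) × Fin (f i)) := by
    have h1 := length_ord (dat W f hW st hst ord hnd hall)
    have h2 : 0 < ord.length := List.length_pos_iff.2 hord
    have h3 : (dat W f hW st hst ord hnd hall).ord.length = ord.length := rfl
    omega
  have hcard : Fintype.card ((i : Fin n) × Fin (f i)) = ∑ i, f i := by
    rw [Fintype.card_sigma]
    simp
  obtain ⟨c, h1, h2, h3, h4⟩ := w4 (dat W f hW st hst ord hnd hall) hF
  refine ⟨c, h1, h2, ?_, ?_⟩
  · rw [← hcard]; exact h3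
  · intro q
    exact h4 (sig W f σ) (sig_unitary W f σ hσ) _ (isJJ W f hW st hst ord hnd hall σ hσ) q

end link

end Crest.Agent.R174.W4
end

-- ▼ part R174/Key83

set_option autoImplicit false

/-!
# R174: the key statement (last file before `S0262`)
-/

namespace Crest.Agent.R174.Glue

universe u

/-- the key statement -/
theorem key (G : Type u) [Group G] : Red.Key G :=
  key_of_W4 fun _ W f hW st hst ord hnd hall hne _ =>
    W4.glueW4 W f hW st hst ord hnd hall hne

end Crest.Agent.R174.Glue
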